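import Vale.Agent.P199.Cex.Defs

/-!
P199, counterexample, module M1: ring structure of the multiquaternion algebra, its trace, its
flips and its functoriality.
-/

open scoped symmDiff Classical

namespace Vale.Agent.P199.Cex

namespace Qa

noncomputable section

variable {n : ℕ} {F K : Type*} [CommRing F] [CommRing K] {t : Fin n → F}

/-! ### The cocycle -/

/-- The sign contributed by the bit `b` on the left of the bits `Y`. -/
def sgnBit (b : Fin n) (Y : Finset (Fin n)) : F :=
  if b.val % 2 = 1 ∧ ∃ c ∈ Y, c.val + 1 = b.val then -1 else 1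

lemma sgn_eq (X Y : Finset (Fin n)) :
    (sgn X Y : F) = ∏ b, if b ∈ X then sgnBit b Y else 1 := by
  refine Finset.prod_congr rfl fun b _ => ?_
  by_cases h : b ∈ X <;> simp [sgnBit, h]

lemma sgnBit_mul_self (b : Fin n) (Y : Finset (Fin n)) :
    (sgnBit b Y : F) * sgnBit b Y = 1 := by
  unfold sgnBit; split_ifs <;> simp

lemma sgnBit_symmDiff (b : Fin n) (Y Z : Finset (Fin n)) :
    (sgnBit b (Y ∆ Z) : F) = sgnBit b Y * sgnBit b Z := by
  by_cases h1 : b.val % 2 = 1
  · have key : ∀ W : Finset (Fin n),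
        (∃ c ∈ W, c.val + 1 = b.val) ↔ (⟨b.val - 1, by omega⟩ : Fin n) ∈ W := by
      intro W
      constructor
      · rintro ⟨c, hc, h2⟩
        convert hc using 1
        ext; simp; omega
      · exact fun h2 => ⟨_, h2, by simp; omega⟩
    simp only [sgnBit, key, h1, true_and]
    simp only [Finset.mem_symmDiff]
    by_cases h2 : (⟨b.val - 1, by omega⟩ : Fin n) ∈ Y <;>
      by_cases h3 : (⟨b.val - 1, by omega⟩ : Fin n) ∈ Z <;> simp [h2, h3]
  · simp [sgnBit, h1]

lemma sgn_symmDiff_right (X Y Z : Finset (Fin n)) :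
    (sgn X (Y ∆ Z) : F) = sgn X Y * sgn X Z := by
  simp only [sgn_eq, ← Finset.prod_mul_distrib]
  refine Finset.prod_congr rfl fun b _ => ?_
  split_ifs <;> simp [sgnBit_symmDiff]

lemma sgn_symmDiff_left (X Y Z : Finset (Fin n)) :
    (sgn (X ∆ Y) Z : F) = sgn X Z * sgn Y Z := by
  simp only [sgn_eq, ← Finset.prod_mul_distrib]
  refine Finset.prod_congr rfl fun b _ => ?_
  by_cases h1 : b ∈ X <;> by_cases h2 : b ∈ Y <;>
    simp [Finset.mem_symmDiff, h1, h2, sgnBit_mul_self]

lemma sgn_sq (X Y : Finset (Fin n)) : (sgn X Y : F) * sgn X Y = 1 := by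
  rw [sgn_eq, ← Finset.prod_mul_distrib]
  exact Finset.prod_eq_one fun b _ => by split_ifs <;> simp [sgnBit_mul_self]

lemma prod_inter (X Y : Finset (Fin n)) :
    (∏ b ∈ X ∩ Y, t b) = ∏ b, if b ∈ X ∧ b ∈ Y then t b else 1 := by
  rw [← Finset.prod_filter]
  exact Finset.prod_congr (by ext b; simp) fun _ _ => rfl

@[simp] lemma sgn_empty_left (Y : Finset (Fin n)) : (sgn ∅ Y : F) = 1 := by simp [sgn]

@[simp] lemma sgn_empty_right (X : Finset (Fin n)) : (sgn X ∅ : F) = 1 := by simp [sgn]

@[simp] lemma fac_empty_left (Y : Finset (Fin n)) : fac t ∅ Y = 1 := by simp [fac]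

@[simp] lemma fac_empty_right (X : Finset (Fin n)) : fac t X ∅ = 1 := by simp [fac]

lemma fac_cocycle (X Y Z : Finset (Fin n)) :
    fac t X Y * fac t (X ∆ Y) Z = fac t Y Z * fac t X (Y ∆ Z) := by
  simp only [fac, sgn_symmDiff_left, sgn_symmDiff_right, prod_inter]
  have : (∏ b, if b ∈ X ∧ b ∈ Y then t b else 1) * (∏ b, if b ∈ X ∆ Y ∧ b ∈ Z then t b else 1) =
      (∏ b, if b ∈ Y ∧ b ∈ Z then t b else 1) * ∏ b, if b ∈ X ∧ b ∈ Y ∆ Z then t b else 1 := by
    simp only [← Finset.prod_mul_distrib]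
    refine Finset.prod_congr rfl fun b _ => ?_
    by_cases h1 : b ∈ X <;> by_cases h2 : b ∈ Y <;> by_cases h3 : b ∈ Z <;>
      simp [Finset.mem_symmDiff, h1, h2, h3]
  linear_combination (sgn X Y : F) * (sgn X Z : F) * (sgn Y Z : F) * this

/-! ### The ring -/

@[ext] lemma ext {a b : Qa t} (h : ∀ Z, a.coef Z = b.coef Z) : a = b := funext h

@[simp] lemma coef_mk (f : Finset (Fin n) → F) (Z : Finset (Fin n)) :
    (mk f : Qa t).coef Z = f Z := rfl

@[simp] lemma mk_coef (a : Qa t) : mk (fun Z => a.coef Z) = a := rfl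

@[simp] lemma coef_add (a b : Qa t) (Z : Finset (Fin n)) :
    (a + b).coef Z = a.coef Z + b.coef Z := rfl

@[simp] lemma coef_zero (Z : Finset (Fin n)) : (0 : Qa t).coef Z = 0 := rfl

@[simp] lemma coef_neg (a : Qa t) (Z : Finset (Fin n)) : (-a).coef Z = -a.coef Z := rfl

@[simp] lemma coef_sub (a b : Qa t) (Z : Finset (Fin n)) :
    (a - b).coef Z = a.coef Z - b.coef Z := rfl

@[simp] lemma coef_smul (r : F) (a : Qa t) (Z : Finset (Fin n)) :
    (r • a).coef Z = r * a.coef Z := rfl

@[simp] lemma coef_one (Z : Finset (Fin n)) :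
    (1 : Qa t).coef Z = if Z = ∅ then 1 else 0 := rfl

@[simp] lemma coef_E (X Z : Finset (Fin n)) :
    (E t X).coef Z = if Z = X then 1 else 0 := rfl

lemma coef_mul (a b : Qa t) (Z : Finset (Fin n)) :
    (a * b).coef Z = ∑ X, a.coef X * b.coef (X ∆ Z) * fac t X (X ∆ Z) := rfl

/-- The coefficient at `Z` as a linear map. -/
def coefL (Z : Finset (Fin n)) : Qa t →ₗ[F] F where
  toFun a := a.coef Z
  map_add' := fun _ _ => rfl
  map_smul' := fun _ _ => rfl

@[simp] lemma coefL_apply (Z : Finset (Fin n)) (a : Qa t) : coefL Z a = a.coef Z := rfl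

@[simp] lemma coef_sum {ι : Type*} (s : Finset ι) (a : ι → Qa t) (Z : Finset (Fin n)) :
    (∑ i ∈ s, a i).coef Z = ∑ i ∈ s, (a i).coef Z :=
  map_sum (coefL Z) a s

lemma symmDiff_inv (X Z : Finset (Fin n)) : X ∆ (X ∆ Z) = Z := symmDiff_symmDiff_cancel_left X Z

private lemma mul_assoc' (a b c : Qa t) : a * b * c = a * (b * c) := by
  ext Z
  simp only [coef_mul, Finset.mul_sum, Finset.sum_mul]
  rw [Finset.sum_comm]
  refine Finset.sum_congr rfl fun X _ => ?_
  refine Finset.sum_bij' (fun W _ => X ∆ W) (fun Y _ => X ∆ Y) (by simp) (by simp)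
    (fun W _ => symmDiff_inv X W) (fun Y _ => symmDiff_inv X Y) fun W _ => ?_
  have hc := fac_cocycle (t := t) X (X ∆ W) ((X ∆ W) ∆ (X ∆ Z))
  rw [symmDiff_inv, symmDiff_inv] at hc
  have e : (X ∆ W) ∆ (X ∆ Z) = W ∆ Z := by
    rw [symmDiff_comm X W, symmDiff_assoc, symmDiff_inv]
  rw [e] at hc ⊢
  linear_combination a.coef X * b.coef (X ∆ W) * c.coef (W ∆ Z) * hc

private lemma one_mul' (a : Qa t) : 1 * a = a := by
  ext Z
  rw [coef_mul, Finset.sum_eq_single ∅]
  · rw [show (∅ : Finset (Fin n)) ∆ Z = Z from bot_symmDiff Z]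
    simp
  · intro X _ hX; simp [hX]
  · simp

private lemma mul_one' (a : Qa t) : a * 1 = a := by
  ext Z
  rw [coef_mul, Finset.sum_eq_single Z]
  · simp [symmDiff_self, Finset.bot_eq_empty]
  · intro X _ hX
    have : X ∆ Z ≠ ∅ := fun h => hX (symmDiff_eq_bot.1 (by rwa [← Finset.bot_eq_empty] at h))
    simp [this]
  · simp

instance : Ring (Qa t) where
  mul_assoc := mul_assoc'
  one_mul := one_mul'
  mul_one := mul_one'
  left_distrib a b c := by
    ext Z; simp [coef_mul, mul_add, add_mul, Finset.sum_add_distrib]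
  right_distrib a b c := by
    ext Z; simp [coef_mul, add_mul, Finset.sum_add_distrib]
  zero_mul a := by ext Z; simp [coef_mul]
  mul_zero a := by ext Z; simp [coef_mul]

instance : Algebra F (Qa t) :=
  Algebra.ofModule
    (fun r a b => by
      ext Z; simp only [coef_mul, coef_smul, Finset.mul_sum]
      exact Finset.sum_congr rfl fun X _ => by ring)
    (fun r a b => by
      ext Z; simp only [coef_mul, coef_smul, Finset.mul_sum]
      exact Finset.sum_congr rfl fun X _ => by ring)

@[simp] lemma coef_algebraMap (r : F) (Z : Finset (Fin n)) :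
    (algebraMap F (Qa t) r).coef Z = if Z = ∅ then r else 0 := by
  rw [Algebra.algebraMap_eq_smul_one, coef_smul, coef_one]
  split_ifs <;> simp

lemma E_empty : E t ∅ = (1 : Qa t) := rfl

lemma E_mul_E (X Y : Finset (Fin n)) : E t X * E t Y = fac t X Y • E t (X ∆ Y) := by
  ext Z
  rw [coef_mul, Finset.sum_eq_single X]
  · simp only [coef_E, if_true, coef_smul, one_mul, mul_ite, mul_one, mul_zero, ite_mul, zero_mul]
    by_cases h : Z = X ∆ Y
    · subst h; simp
    · have : X ∆ Z ≠ Y := fun e => h (by rw [← e, symmDiff_inv])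
      simp [h, this]
  · intro W _ hW; simp [hW]
  · simp

lemma coef_E_mul_E (X Y Z : Finset (Fin n)) :
    (E t X * E t Y).coef Z = if Z = X ∆ Y then fac t X Y else 0 := by
  rw [E_mul_E, coef_smul, coef_E]; split_ifs <;> simp

lemma coef_E_mul (X : Finset (Fin n)) (a : Qa t) (Z : Finset (Fin n)) :
    (E t X * a).coef Z = a.coef (X ∆ Z) * fac t X (X ∆ Z) := by
  rw [coef_mul, Finset.sum_eq_single X]
  · simp
  · intro W _ hW; simp [hW]
  · simp

lemma coef_mul_E (a : Qa t) (Y Z : Finset (Fin n)) :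
    (a * E t Y).coef Z = a.coef (Y ∆ Z) * fac t (Y ∆ Z) Y := by
  have e : (Y ∆ Z) ∆ Z = Y := symmDiff_symmDiff_cancel_right Z Y
  rw [coef_mul, Finset.sum_eq_single (Y ∆ Z)]
  · simp [e]
  · intro W _ hW
    have : W ∆ Z ≠ Y := fun h => hW (by rw [← h, symmDiff_symmDiff_cancel_right])
    simp [this]
  · simp

/-! ### The trace and the basis -/

/-- The trace as a linear map. -/
def tauL : Qa t →ₗ[F] F := coefL ∅

@[simp] lemma tauL_apply (a : Qa t) : tauL a = tau a := rfl

lemma tau_eq (a : Qa t) : tau a = a.coef ∅ := rfl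

@[simp] lemma tau_one : tau (1 : Qa t) = 1 := by simp [tau_eq]

lemma tau_mul (a b : Qa t) : tau (a * b) = ∑ X, a.coef X * b.coef X * fac t X X := by
  simp [tau_eq, coef_mul, ← Finset.bot_eq_empty]

lemma tau_mul_comm (a b : Qa t) : tau (a * b) = tau (b * a) := by
  simp only [tau_mul]
  exact Finset.sum_congr rfl fun X _ => by ring

/-- The basis of monomials. -/
def basis : Module.Basis (Finset (Fin n)) F (Qa t) :=
  Module.Basis.ofEquivFun
    { toFun := fun a Z => a.coef Z
      invFun := mk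
      map_add' := fun _ _ => rfl
      map_smul' := fun _ _ => rfl
      left_inv := fun _ => rfl
      right_inv := fun _ => rfl }

@[simp] lemma basis_repr (a : Qa t) (Z : Finset (Fin n)) : basis.repr a Z = a.coef Z := rfl

@[simp] lemma basis_apply (X : Finset (Fin n)) : (basis X : Qa t) = E t X := by
  ext Z
  rw [← basis_repr, Module.Basis.repr_self, coef_E, Finsupp.single_apply]
  exact if_congr eq_comm rfl rfl

instance : Module.Free F (Qa t) := Module.Free.of_basis basis

instance : Module.Finite F (Qa t) := Module.Finite.of_basis basis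

lemma finrank_eq [StrongRankCondition F] : Module.finrank F (Qa t) = 2 ^ n := by
  rw [Module.finrank_eq_card_basis basis, Fintype.card_finset, Fintype.card_fin]

lemma sum_coef_smul (a : Qa t) : ∑ X, a.coef X • E t X = a := by
  conv_rhs => rw [← basis.sum_repr a]
  simp

lemma genSpan_eq_adjoin (x : Fin 3 → Qa t) :
    genSpan t x = Subalgebra.toSubmodule (Algebra.adjoin F (Set.range x)) := by
  have key : ∀ v w : List (Fin 3), (v ++ w).foldr (fun a y => x a * y) 1 =
      v.foldr (fun a y => x a * y) 1 * w.foldr (fun a y => x a * y) 1 := by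
    intro v w
    induction v with
    | nil => simp
    | cons a v ih => simp only [List.cons_append, List.foldr_cons, mul_assoc, ih]
  rw [Algebra.adjoin_eq_span, genSpan]
  refine congrArg _ (Set.ext fun y => ⟨?_, fun hy => ?_⟩)
  · rintro ⟨w, rfl⟩
    induction w with
    | nil => exact one_mem _
    | cons a w ih => exact mul_mem (Submonoid.subset_closure ⟨a, rfl⟩) ih
  · induction hy using Submonoid.closure_induction with
    | mem y hy => obtain ⟨a, rfl⟩ := hy; exact ⟨[a], by simp⟩
    | one => exact ⟨[], rfl⟩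
    | mul y z _ _ hy hz =>
      obtain ⟨v, rfl⟩ := hy
      obtain ⟨w, rfl⟩ := hz
      refine ⟨v ++ w, ?_⟩
      exact key v w

/-! ### Forgetting the last bit -/

section castSucc

variable {t' : Fin (n + 1) → F}

/-- The bits `X` among one bit more. -/
abbrev up (X : Finset (Fin n)) : Finset (Fin (n + 1)) := X.map Fin.castSuccEmb

lemma up_symmDiff (X Y : Finset (Fin n)) : up (X ∆ Y) = up X ∆ up Y :=
  by ext b; simp [up, Finset.mem_symmDiff]; grind

lemma fac_up (X Y : Finset (Fin n)) :
    fac t' (up X) (up Y) = fac (fun b => t' b.castSucc) X Y := by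
  simp only [fac, sgn]
  rw [Fin.prod_univ_castSucc]
  congr 1
  · have hl : Fin.last n ∉ up X := by simp [up]
    rw [if_neg fun h => hl h.1, mul_one]
    refine Finset.prod_congr rfl fun b _ => ?_
    simp [up]
  · rw [← Finset.map_inter, Finset.prod_map]
    rfl

/-- The linear map behind `castSuccHom`. -/
def castSuccLin (t' : Fin (n + 1) → F) : Qa (fun b => t' b.castSucc) →ₗ[F] Qa t' :=
  (basis (t := fun b => t' b.castSucc)).constr F fun X => E t' (up X)

lemma castSuccLin_E (X : Finset (Fin n)) :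
    castSuccLin t' (E (fun b => t' b.castSucc) X) = E t' (up X) := by
  rw [← basis_apply, castSuccLin, Module.Basis.constr_basis]

/-- The algebra on one bit fewer inside the algebra. -/
def castSuccHom (t' : Fin (n + 1) → F) : Qa (fun b => t' b.castSucc) →ₐ[F] Qa t' :=
  AlgHom.ofLinearMap (castSuccLin t')
    (by rw [← E_empty, castSuccLin_E]; simp [up, E_empty])
    ((LinearMap.map_mul_iff _).2 (basis.ext fun X => basis.ext fun Y => by
      simp [E_mul_E, castSuccLin_E, fac_up, up_symmDiff]))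

@[simp] lemma castSuccHom_E (X : Finset (Fin n)) :
    castSuccHom t' (E (fun b => t' b.castSucc) X) = E t' (up X) := castSuccLin_E X

lemma castSuccHom_eq (a : Qa (fun b => t' b.castSucc)) :
    castSuccHom t' a = ∑ X, a.coef X • E t' (up X) := by
  conv_lhs => rw [← sum_coef_smul a]
  simp [map_sum]

lemma coef_castSuccHom_up (a : Qa (fun b => t' b.castSucc)) (X : Finset (Fin n)) :
    (castSuccHom t' a).coef (up X) = a.coef X := by
  rw [castSuccHom_eq, coef_sum, Finset.sum_eq_single X]
  · simp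
  · intro Y _ hY
    simp [coef_smul, Ne.symm hY]
  · simp

lemma coef_castSuccHom_last (a : Qa (fun b => t' b.castSucc)) {Z : Finset (Fin (n + 1))}
    (hZ : Fin.last n ∈ Z) : (castSuccHom t' a).coef Z = 0 := by
  rw [castSuccHom_eq, coef_sum]
  refine Finset.sum_eq_zero fun Y _ => ?_
  have : Z ≠ up Y := fun e => by simp [e, up] at hZ
  simp [this]

lemma castSuccHom_injective : Function.Injective (castSuccHom t') := fun a b h =>
  ext fun X => by rw [← coef_castSuccHom_up a, ← coef_castSuccHom_up b, h]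

@[simp] lemma tau_castSuccHom (a : Qa (fun b => t' b.castSucc)) :
    tau (castSuccHom t' a) = tau a := by
  have h := coef_castSuccHom_up a ∅
  rwa [up, Finset.map_empty] at h

end castSucc

/-! ### Flips -/

/-- The value of the signs `a` on the bits `X`. -/
def chr (a : Fin n → F) (X : Finset (Fin n)) : F := ∏ b ∈ X, a b

lemma chr_symmDiff {a : Fin n → F} (ha : ∀ b, a b ^ 2 = 1) (X Y : Finset (Fin n)) :
    chr a (X ∆ Y) = chr a X * chr a Y := by
  simp only [chr]
  rw [← Finset.prod_ite_mem_eq (X ∆ Y), ← Finset.prod_ite_mem_eq X, ← Finset.prod_ite_mem_eq Y,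
    ← Finset.prod_mul_distrib]
  refine Finset.prod_congr rfl fun b _ => ?_
  have := ha b
  by_cases h1 : b ∈ X <;> by_cases h2 : b ∈ Y <;> simp [Finset.mem_symmDiff, h1, h2, ← sq, this]

lemma chr_mul_self {a : Fin n → F} (ha : ∀ b, a b ^ 2 = 1) (X : Finset (Fin n)) :
    chr a X * chr a X = 1 := by
  simp [chr, ← sq, ← Finset.prod_pow, ha]

/-- The flip `E_X ↦ (∏_{b ∈ X} a b) E_X`. -/
def flip (a : Fin n → F) (ha : ∀ b, a b ^ 2 = 1) : Qa t ≃ₐ[F] Qa t where
  toFun x := mk fun Z => chr a Z * x.coef Z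
  invFun x := mk fun Z => chr a Z * x.coef Z
  left_inv x := by ext Z; simp [← mul_assoc, chr_mul_self ha]
  right_inv x := by ext Z; simp [← mul_assoc, chr_mul_self ha]
  map_mul' x y := by
    ext Z
    simp only [coef_mk, coef_mul, Finset.mul_sum]
    refine Finset.sum_congr rfl fun X _ => ?_
    have h := chr_symmDiff ha X (X ∆ Z)
    rw [symmDiff_inv] at h
    rw [h]; ring
  map_add' x y := by ext Z; simp [mul_add]
  commutes' r := by
    ext Z
    simp only [coef_mk, coef_algebraMap]
    split_ifs with h <;> simp [h, chr]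

@[simp] lemma coef_flip (a : Fin n → F) (ha : ∀ b, a b ^ 2 = 1) (x : Qa t) (Z : Finset (Fin n)) :
    (flip a ha x).coef Z = chr a Z * x.coef Z := rfl

@[simp] lemma tau_flip (a : Fin n → F) (ha : ∀ b, a b ^ 2 = 1) (x : Qa t) :
    tau (flip a ha x) = tau x := by
  simp [tau_eq, chr]

/-! ### Functoriality -/

lemma sgn_map (f : F →+* K) (X Y : Finset (Fin n)) : f (sgn X Y) = sgn X Y := by
  simp only [sgn, map_prod]
  exact Finset.prod_congr rfl fun b _ => by split_ifs <;> simp

lemma fac_map (f : F →+* K) (X Y : Finset (Fin n)) :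
    f (fac t X Y) = fac (fun b => f (t b)) X Y := by
  simp [fac, sgn_map]

/-- Change of scalars along a ring homomorphism. -/
def mapQ (f : F →+* K) : Qa t →+* Qa (fun b => f (t b)) where
  toFun a := mk fun Z => f (a.coef Z)
  map_one' := by ext Z; simp only [coef_mk, coef_one]; split_ifs <;> simp
  map_mul' a b := by
    ext Z
    simp [coef_mul, fac_map]
  map_zero' := by ext Z; simp
  map_add' a b := by ext Z; simp

@[simp] lemma coef_mapQ (f : F →+* K) (a : Qa t) (Z : Finset (Fin n)) :
    (mapQ f a).coef Z = f (a.coef Z) := rfl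

@[simp] lemma tau_mapQ (f : F →+* K) (a : Qa t) : tau (mapQ f a) = f (tau a) := rfl

@[simp] lemma mapQ_E (f : F →+* K) (X : Finset (Fin n)) :
    mapQ f (E t X) = E (fun b => f (t b)) X := by
  ext Z; simp only [coef_mapQ, coef_E]; split_ifs <;> simp

lemma mapQ_smul (f : F →+* K) (r : F) (a : Qa t) : mapQ f (r • a) = f r • mapQ f a := by
  ext Z; simp

lemma mapQ_injective {f : F →+* K} (hf : Function.Injective f) :
    Function.Injective (mapQ (t := t) f) :=
  fun a b h => ext fun Z => hf (by simpa using congrArg (fun x => x.coef Z) h)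

end

end Qa

end Vale.Agent.P199.Cex
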