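import Mathlib

/-!
# P199: derivations of a division algebra in characteristic zero are inner

A finite-dimensional algebra whose non-zero elements have right inverses has, in characteristic
zero, a non-degenerate regular trace form, hence a Casimir element; so the difference of two
homomorphisms into an algebra that agree modulo a square-zero ideal is inner.
-/

namespace Vale.Agent.P199.Cex

open Module

section

variable {k A : Type*} [Field k] [Ring A] [Algebra k A]

/-- The regular trace form. -/
noncomputable def regForm : LinearMap.BilinForm k A :=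
  (LinearMap.mul k A).compr₂ ((LinearMap.trace k A).comp (Algebra.lmul k A).toLinearMap)

theorem regForm_apply (a b : A) :
    (regForm : LinearMap.BilinForm k A) a b = LinearMap.trace k A (Algebra.lmul k A (a * b)) :=
  rfl

theorem regForm_comm (a b : A) :
    (regForm : LinearMap.BilinForm k A) a b = (regForm : LinearMap.BilinForm k A) b a := by
  simp only [regForm_apply, map_mul]
  exact LinearMap.trace_mul_comm k _ _

theorem regForm_assoc (a b c : A) :
    (regForm : LinearMap.BilinForm k A) (a * b) c =
      (regForm : LinearMap.BilinForm k A) a (b * c) := by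
  simp only [regForm_apply, mul_assoc]

/-- Two homomorphisms that differ by square-zero elements differ by an inner derivation. -/
theorem exists_inner [FiniteDimensional k A] [CharZero k] [Nontrivial A]
    (hinv : ∀ a : A, a ≠ 0 → ∃ b, a * b = 1) {R : Type*} [Ring R] [Algebra k R]
    (ι σ : A →ₐ[k] R) (hsq : ∀ a b, (σ a - ι a) * (σ b - ι b) = 0) :
    ∃ U ∈ Submodule.span k (Set.range fun p : A × A => (σ p.1 - ι p.1) * ι p.2),
      ∀ a, σ a - ι a = U * ι a - ι a * U := by
  classical
  set B : LinearMap.BilinForm k A := regForm with hBdef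
  have hne : ∀ a : A, a ≠ 0 → ∃ b, B a b ≠ 0 := fun a ha => by
    obtain ⟨b, hb⟩ := hinv a ha
    refine ⟨b, ?_⟩
    rw [regForm_apply, hb, map_one, LinearMap.trace_one]
    exact Nat.cast_ne_zero.2 Module.finrank_pos.ne'
  have hsymm : ∀ a b, B a b = B b a := regForm_comm
  have hB : B.Nondegenerate := by
    constructor
    · intro a ha
      by_contra h
      obtain ⟨b, hb⟩ := hne a h
      exact hb (ha b)
    · intro a ha
      by_contra h
      obtain ⟨b, hb⟩ := hne a h
      exact hb ((hsymm a b).trans (ha b))
  set u := Module.finBasis k A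
  set v := B.dualBasis hB u
  have hu : ∀ x, ∑ i, B (v i) x • u i = x := fun x => by
    conv_rhs => rw [← u.sum_repr x]
    refine Finset.sum_congr rfl fun i _ => ?_
    congr 1
    conv_lhs => rw [← u.sum_repr x, map_sum]
    simp [v, LinearMap.BilinForm.apply_dualBasis_left]
  have hv : ∀ x, ∑ i, B x (u i) • v i = x := fun x => by
    conv_rhs => rw [← v.sum_repr x]
    exact Finset.sum_congr rfl fun i _ => by
      rw [LinearMap.BilinForm.dualBasis_repr_apply]
  have hone : ∑ i, u i * v i = 1 := by
    refine sub_eq_zero.1 (by_contra fun h => ?_)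
    obtain ⟨b, hb⟩ := hne _ h
    apply hb
    rw [map_sub, LinearMap.sub_apply, sub_eq_zero, map_sum, LinearMap.sum_apply]
    have h1 : ∀ i, B (u i * v i) b = B (v i) (b * u i) := fun i => by
      rw [regForm_assoc, hsymm (u i), regForm_assoc]
    simp only [h1]
    rw [regForm_apply, one_mul, LinearMap.trace_eq_matrix_trace k u, Matrix.trace]
    refine Finset.sum_congr rfl fun i _ => ?_
    rw [Matrix.diag_apply, LinearMap.toMatrix_apply]
    conv_rhs => rw [show (Algebra.lmul k A) b (u i) = b * u i from rfl,
      ← hu (b * u i), u.repr_sum_self]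
  have hcas : ∀ (f : A → A → R), (∀ (c : k) x y, f (c • x) y = c • f x y) →
      (∀ x x' y, f (x + x') y = f x y + f x' y) → (∀ (c : k) x y, f x (c • y) = c • f x y) →
      (∀ x y y', f x (y + y') = f x y + f x y') →
      ∀ a, ∑ i, f (a * u i) (v i) = ∑ i, f (u i) (v i * a) := by
    intro f h1 h2 h3 h4 a
    let g : A →ₗ[k] A →ₗ[k] R := LinearMap.mk₂ k f h2 h1 h4 h3
    have hL : ∀ i, f (a * u i) (v i) = ∑ j, B (v j * a) (u i) • g (u j) (v i) := fun i => by
      change g (a * u i) (v i) = _
      conv_lhs => rw [← hu (a * u i)]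
      simp [← regForm_assoc, B]
    have hR : ∀ j, f (u j) (v j * a) = ∑ i, B (v j * a) (u i) • g (u j) (v i) := fun j => by
      change g (u j) (v j * a) = _
      conv_lhs => rw [← hv (v j * a)]
      simp
    simp only [hL, hR]
    exact Finset.sum_comm
  set U := ∑ i, (σ (u i) - ι (u i)) * ι (v i) with hUdef
  refine ⟨U, Submodule.sum_mem _ fun i _ => Submodule.subset_span ⟨(u i, v i), rfl⟩, fun a => ?_⟩
  have key := hcas (fun x y => (σ x - ι x) * ι y)
    (fun c x y => by simp [← smul_sub]) (fun x x' y => by simp [sub_mul, add_mul]; abel)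
    (fun c x y => by simp) (fun x y y' => by simp [mul_add]) a
  have hL : ∀ i, (σ (a * u i) - ι (a * u i)) * ι (v i) =
      (σ a - ι a) * (ι (u i * v i)) + ι a * ((σ (u i) - ι (u i)) * ι (v i)) := fun i => by
    have h0 : σ (a * u i) - ι (a * u i) =
        (σ a - ι a) * ι (u i) + ι a * (σ (u i) - ι (u i)) := by
      have := hsq a (u i)
      rw [map_mul, map_mul]
      linear_combination (norm := noncomm_ring) this
    rw [h0, map_mul]
    noncomm_ring
  have hR : ∀ i, (σ (u i) - ι (u i)) * ι (v i * a) =
      (σ (u i) - ι (u i)) * ι (v i) * ι a := fun i => by rw [map_mul, mul_assoc]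
  simp only [hL, hR, Finset.sum_add_distrib, ← Finset.mul_sum, ← Finset.sum_mul,
    ← map_sum, hone, map_one, mul_one, ← hUdef] at key
  rw [eq_sub_iff_add_eq]
  exact key

end

end Vale.Agent.P199.Cex
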