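import Mathlib.Algebra.BigOperators.Field
import Mathlib.Algebra.Ring.IsFormallyReal
import Mathlib.Algebra.Ring.Semireal.Defs
import Mathlib.FieldTheory.PrimitiveElement

/-!
Formally real fields stay formally real in extensions of odd degree and under square roots of sums
of squares.
-/

namespace Vale.Agent.P199.Cex

open Polynomial

variable {F L : Type*} [Field F] [Field L] [Algebra F L]

/-- For fields the two notions of a formally real field agree. -/
lemma formallyReal_iff : IsFormallyReal F ↔ IsSemireal F := by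
  refine ⟨fun _ => ⟨fun {s} hs h => ?_⟩, fun _ => ?_⟩
  · exact one_ne_zero (IsFormallyReal.eq_zero_of_add_right IsSumSq.one hs h)
  · refine IsFormallyReal.of_eq_zero_of_eq_zero_of_mul_self_add fun {s a} hs h => ?_
    by_contra ha
    refine IsSemireal.one_add_ne_zero (s := s * (a⁻¹ * a⁻¹)) (hs.mul (IsSumSq.mul_self _)) ?_
    field_simp
    linear_combination h

lemma semireal_sq_sum_eq_zero [IsSemireal F] {ι : Type*} (s : Finset ι) (a : ι → F)
    (h : ∑ i ∈ s, a i * a i = 0) : ∀ i ∈ s, a i = 0 := by
  classical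
  intro j hj
  by_contra hne
  have e : (-1 : F) = ∑ i ∈ s.erase j, (a i / a j) * (a i / a j) := by
    have h' : ∑ i ∈ s.erase j, a i * a i = -(a j * a j) := by
      rw [eq_neg_iff_add_eq_zero, Finset.sum_erase_add _ _ hj, h]
    simp only [div_mul_div_comm, ← Finset.sum_div, h', neg_div,
      div_self (mul_ne_zero hne hne)]
  exact IsSemireal.not_isSumSq_neg_one F (e ▸ IsSumSq.sum_mul_self (s.erase j) _)

lemma sumSq_eq_sum {R : Type*} [CommSemiring R] {x : R} (h : IsSumSq x) :
    ∃ n : ℕ, ∃ a : Fin n → R, x = ∑ i, a i * a i := by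
  induction h with
  | zero => exact ⟨0, Fin.elim0, by simp⟩
  | sq_add c _ ih =>
    obtain ⟨n, a, rfl⟩ := ih
    exact ⟨n + 1, Fin.cons c a, by simp [Fin.sum_univ_succ]⟩

/-- A sum of squares of polynomials has even degree over a formally real field. -/
lemma natDegree_sum_sq [IsSemireal F] {ι : Type*} [Fintype ι] (g : ι → F[X]) :
    (∀ i, g i = 0) ∨ ∃ d, (∀ i, (g i).natDegree ≤ d) ∧ (∃ i, g i ≠ 0 ∧ (g i).natDegree = d) ∧
      (∑ i, g i * g i).natDegree = 2 * d := by
  classical
  by_cases h0 : ∀ i, g i = 0
  · exact Or.inl h0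
  push Not at h0
  obtain ⟨j, hj, hmax⟩ := (Finset.univ.filter fun i => g i ≠ 0).exists_max_image
    (fun i => (g i).natDegree) (by obtain ⟨i, hi⟩ := h0; exact ⟨i, by simpa using hi⟩)
  have hj' : g j ≠ 0 := by simpa using hj
  set d := (g j).natDegree
  have hle : ∀ i, (g i).natDegree ≤ d := fun i => by
    by_cases hi : g i = 0
    · simp [hi]
    · exact hmax i (by simpa using hi)
  refine Or.inr ⟨d, hle, ⟨j, hj', rfl⟩, le_antisymm ?_ ?_⟩
  · refine natDegree_sum_le_of_forall_le _ _ fun i _ => natDegree_mul_le.trans ?_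
    have := hle i
    omega
  · refine le_natDegree_of_ne_zero fun hc => hj' ?_
    rw [finsetSum_coeff] at hc
    have e : ∀ i, (g i * g i).coeff (2 * d) = (g i).coeff d * (g i).coeff d := fun i => by
      rw [two_mul]; exact coeff_mul_add_eq_of_natDegree_le (hle i) (hle i)
    simp only [e] at hc
    exact leadingCoeff_eq_zero.1 (semireal_sq_sum_eq_zero Finset.univ _ hc j (Finset.mem_univ j))

/-- No irreducible polynomial of odd degree makes `-1` a sum of squares modulo itself. -/
lemma no_minus_one_mod [IsSemireal F] : ∀ n : ℕ, ∀ f : F[X], f.natDegree ≤ n → Odd f.natDegree →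
    ∀ m : ℕ, ∀ g : Fin m → F[X], ¬ f ∣ 1 + ∑ i, g i * g i := by
  intro n
  induction n using Nat.strong_induction_on with
  | _ n ih =>
    intro f hfn hodd m g hdvd
    obtain rfl | hf0 := eq_or_ne f 0
    · simp at hodd
    -- reduce the squares modulo `f`
    set g' := fun i => g i % f
    have hdvd' : f ∣ 1 + ∑ i, g' i * g' i := by
      have h2 : f ∣ ∑ i, (g i * g i - g' i * g' i) := Finset.dvd_sum fun i _ => by
        rw [mul_self_sub_mul_self]
        exact Dvd.dvd.mul_left ⟨g i / f, by
          linear_combination (-1 : F[X]) * (EuclideanDomain.div_add_mod (g i) f)⟩ _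
      rw [Finset.sum_sub_distrib] at h2
      have := dvd_sub hdvd h2
      rwa [show 1 + ∑ i, g i * g i - (∑ i, g i * g i - ∑ i, g' i * g' i) =
        1 + ∑ i, g' i * g' i by ring] at this
    set G : Option (Fin m) → F[X] := fun o => o.elim 1 g'
    have hG : 1 + ∑ i, g' i * g' i = ∑ o, G o * G o := by simp [G, Fintype.sum_option]
    rw [hG] at hdvd'
    rcases natDegree_sum_sq G with h | ⟨d, -, ⟨o, hne, hdeg⟩, hsum⟩
    · exact one_ne_zero (h none)
    have hd : d < f.natDegree := by
      rw [← hdeg]
      cases o with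
      | none => simpa [G] using hodd.pos
      | some i => exact natDegree_mod_lt (g i) (by obtain ⟨k, hk⟩ := hodd; omega)
    obtain ⟨h, hh⟩ := hdvd'
    have hS0 : (∑ o, G o * G o) ≠ 0 := by
      intro h0
      have := natDegree_sum_sq G
      rw [h0, natDegree_zero] at hsum
      have hd0 : d = 0 := by omega
      have e : (∑ o, G o * G o).coeff 0 = 0 := by rw [h0, coeff_zero]
      rw [finsetSum_coeff] at e
      simp only [mul_coeff_zero] at e
      have := semireal_sq_sum_eq_zero Finset.univ _ e none (Finset.mem_univ _)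
      simp [G] at this
    have hh0 : h ≠ 0 := fun e => hS0 (by rw [hh, e, mul_zero])
    have hdh : f.natDegree + h.natDegree = 2 * d := by rw [← natDegree_mul hf0 hh0, ← hh, hsum]
    refine ih h.natDegree (by omega) h le_rfl ?_ m g' ?_
    · obtain ⟨k, hk⟩ := hodd
      exact ⟨d - k - 1, by omega⟩
    · rw [hG, hh]
      exact dvd_mul_left h f

/-- Springer: a formally real field stays formally real in extensions of odd degree. -/
theorem semireal_of_odd [IsSemireal F] [FiniteDimensional F L]
    (hodd : Odd (Module.finrank F L)) : IsSemireal L := by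
  rw [isSemireal_iff_not_isSumSq_neg_one]
  intro h
  obtain ⟨m, a, ha⟩ := sumSq_eq_sum h
  obtain ⟨α, hα⟩ := Field.exists_primitive_element F L
  have hint := IsIntegral.of_finite F α
  have htop : Algebra.adjoin F {α} = ⊤ := by
    rw [← IntermediateField.adjoin_simple_toSubalgebra_of_isAlgebraic hint.isAlgebraic, hα,
      IntermediateField.top_toSubalgebra]
  choose g hg using fun i => Algebra.adjoin_singleton_eq_range_aeval F α ▸
    (htop ▸ Algebra.mem_top : a i ∈ Algebra.adjoin F {α})
  refine no_minus_one_mod (minpoly F α).natDegree (minpoly F α) le_rfl ?_ m g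
    (minpoly.dvd F α ?_)
  · rwa [← IntermediateField.adjoin.finrank hint, hα, IntermediateField.finrank_top']
  · simp only [map_add, map_one, map_sum, map_mul]
    have hg' : ∀ i, aeval α (g i) = a i := fun i => hg i
    simp only [hg']
    rw [← ha, add_neg_cancel]

/-- Formally real fields stay formally real when a sum of squares gets a square root. -/
theorem semireal_sqrt [IsSemireal F] (r : L) {c : F} (hc : IsSumSq c)
    (hr : r * r = algebraMap F L c) (hspan : ∀ z : L, ∃ p q : F, z = algebraMap F L p +
      algebraMap F L q * r) : IsSemireal L := by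
  classical
  by_cases hrF : ∃ s, r = algebraMap F L s
  · obtain ⟨s, rfl⟩ := hrF
    have hs : ∀ z : L, ∃ y, z = algebraMap F L y := fun z => by
      obtain ⟨p, q, rfl⟩ := hspan z
      exact ⟨p + q * s, by simp⟩
    rw [isSemireal_iff_not_isSumSq_neg_one]
    intro h
    obtain ⟨m, a, ha⟩ := sumSq_eq_sum h
    choose y hy using fun i => hs (a i)
    refine IsSemireal.not_isSumSq_neg_one F ?_
    have e : (-1 : F) = ∑ i, y i * y i := (algebraMap F L).injective (by simp [ha, hy])
    exact e ▸ IsSumSq.sum_mul_self _ _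
  rw [isSemireal_iff_not_isSumSq_neg_one]
  intro h
  obtain ⟨m, a, ha⟩ := sumSq_eq_sum h
  choose p q hpq using fun i => hspan (a i)
  have e : algebraMap F L (1 + ∑ i, (p i * p i + c * (q i * q i))) +
      algebraMap F L (∑ i, 2 * (p i * q i)) * r = 0 := by
    have h1 : (1 : L) + ∑ i, a i * a i = 0 := by rw [← ha]; ring
    simp only [map_add, map_sum, map_mul, map_one, map_ofNat, Finset.sum_mul,
      Finset.sum_add_distrib]
    rw [add_assoc, add_assoc, ← Finset.sum_add_distrib, ← Finset.sum_add_distrib]
    refine Eq.trans ?_ h1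
    congr 1
    exact Finset.sum_congr rfl fun i _ => by
      rw [hpq i]
      linear_combination (-(algebraMap F L (q i)) ^ 2) * hr
  set A := 1 + ∑ i, (p i * p i + c * (q i * q i))
  set B := ∑ i, 2 * (p i * q i)
  rcases eq_or_ne B 0 with hB | hB
  · rw [hB, map_zero, zero_mul, add_zero, map_eq_zero] at e
    refine IsSemireal.one_add_ne_zero (s := ∑ i, (p i * p i + c * (q i * q i))) ?_ e
    exact IsSumSq.sum fun i _ => (IsSumSq.mul_self _).add (hc.mul (IsSumSq.mul_self _))
  · refine hrF ⟨-A / B, ?_⟩
    rw [map_div₀, map_neg, eq_div_iff (by simpa using hB)]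
    linear_combination e

end Vale.Agent.P199.Cex
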