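import Vale.Agent.P199.Cex.GoodDomain
import Vale.Agent.P199.Cex.Springer

/-!
P199, counterexample, M2: good fields: introduction, transport, formal reality, existence.
-/

namespace Vale.Agent.P199.Cex

open IsLocalRing

noncomputable section

lemma good_intro_aux {n : ℕ}
    (hcongr : ∀ (F E : Type) (_ : Field F) (_ : Field E) (e : F ≃+* E) (t : Fin n → F),
      Good n F t → Good n E fun b => e (t b))
    {E : Type} [Field E] {t : Fin (n + 1) → E} {R : Type} [CommRing R] [IsDomain R]
    [IsDiscreteValuationRing R] (f : R →+* E) (hf : Function.Injective f)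
    (hcov : ∀ x : E, (∃ r, f r = x) ∨ ∃ r, f r = x⁻¹) {κ : Type} [Field κ] (res : R →+* κ)
    (hres : Function.Surjective res) (t' : Fin (n + 1) → R) (ht : ∀ b, f (t' b) = t b)
    (hu : ∀ b : Fin n, IsUnit (t' b.castSucc)) (π : R) (k : ℕ) (hπ : Irreducible π)
    (hassoc : Associated (t' (Fin.last n)) (π ^ (2 * k + 1)))
    (hG : Good n κ fun b => res (t' b.castSucc)) : Good (n + 1) E t := by
  let O : ValuationSubring E := { f.range with mem_or_inv_mem' := hcov }
  let ψ : R ≃+* O := RingEquiv.ofBijective (f.codRestrict O fun r => ⟨r, rfl⟩)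
    ⟨fun a b h => hf (congrArg Subtype.val h), fun x => by
      obtain ⟨r, hr⟩ := x.2
      exact ⟨r, Subtype.ext hr⟩⟩
  have : IsDiscreteValuationRing O :=
    IsDiscreteValuationRing.RingEquivClass.isDiscreteValuationRing ψ
  let g : O →+* κ := res.comp ψ.symm.toRingHom
  have hg : Function.Surjective g := hres.comp ψ.symm.surjective
  have hker : maximalIdeal O = RingHom.ker g :=
    (IsLocalRing.eq_maximalIdeal (RingHom.ker_isMaximal_of_surjective g hg)).symm
  let ρ : ResidueField O ≃+* κ :=
    (Ideal.quotEquivOfEq hker).trans (RingHom.quotientKerEquivOfSurjective hg)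
  have hρ : ∀ r, ρ (residue O (ψ r)) = res r := fun r => by
    show res (ψ.symm (ψ r)) = res r
    rw [RingEquiv.symm_apply_apply]
  refine ⟨O, inferInstance, fun b => ψ (t' b), ht, fun b => (hu b).map ψ,
    ⟨ψ π, k, (MulEquiv.irreducible_iff ψ.toMulEquiv).2 hπ, ?_⟩, ?_⟩
  · rw [← map_pow]
    exact hassoc.map ψ
  · have := hcongr _ _ _ _ ρ.symm _ hG
    convert this using 1
    funext b
    rw [← hρ, RingEquiv.symm_apply_apply]

/-- Transport along isomorphisms. -/
theorem good_congr : ∀ (n : ℕ) (F E : Type) (_ : Field F) (_ : Field E) (e : F ≃+* E)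
    (t : Fin n → F), Good n F t → Good n E fun b => e (t b) := by
  intro n
  induction n with
  | zero =>
    intro F E _ _ e t hG
    have hG : IsFormallyReal F := hG
    show IsFormallyReal E
    rw [formallyReal_iff, isSemireal_iff_not_isSumSq_neg_one] at hG ⊢
    intro h
    refine hG ?_
    obtain ⟨m, a, ha⟩ := sumSq_eq_sum h
    have : (-1 : F) = ∑ i, e.symm (a i) * e.symm (a i) := by
      simpa using congrArg e.symm ha
    exact this ▸ IsSumSq.sum_mul_self _ _
  | succ n IH =>
    intro F E _ _ e t hG
    obtain ⟨O, _, t', ht', hu, ⟨π, k, hπ, hassoc⟩, hG⟩ := hG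
    refine good_intro_aux IH (e.toRingHom.comp O.subtype)
      (e.injective.comp Subtype.val_injective) (fun x => ?_) (residue O)
      Ideal.Quotient.mk_surjective t' (fun b => congrArg e (ht' b)) hu π k hπ hassoc hG
    rcases O.mem_or_inv_mem (e.symm x) with h | h
    · exact Or.inl ⟨⟨_, h⟩, by simp⟩
    · exact Or.inr ⟨⟨_, h⟩, by simp⟩

/-- Introduction: a discrete valuation ring with a good residue field. -/
theorem good_intro {n : ℕ} {E : Type} [Field E] {t : Fin (n + 1) → E} {R : Type} [CommRing R]
    [IsDomain R] [IsDiscreteValuationRing R] (f : R →+* E) (hf : Function.Injective f)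
    (hcov : ∀ x : E, (∃ r, f r = x) ∨ ∃ r, f r = x⁻¹) {κ : Type} [Field κ] (res : R →+* κ)
    (hres : Function.Surjective res) (t' : Fin (n + 1) → R) (ht : ∀ b, f (t' b) = t b)
    (hu : ∀ b : Fin n, IsUnit (t' b.castSucc)) (π : R) (k : ℕ) (hπ : Irreducible π)
    (hassoc : Associated (t' (Fin.last n)) (π ^ (2 * k + 1)))
    (hG : Good n κ fun b => res (t' b.castSucc)) : Good (n + 1) E t :=
  good_intro_aux (good_congr n) f hf hcov res hres t' ht hu π k hπ hassoc hG

/-- Good fields are formally real and their parameters are non-zero. -/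
theorem good_semireal : ∀ (n : ℕ) (F : Type) (_ : Field F) (t : Fin n → F), Good n F t →
    IsSemireal F ∧ ∀ b, t b ≠ 0 := by
  intro n
  induction n with
  | zero =>
    intro F _ t hG
    exact ⟨formallyReal_iff.1 hG, fun b => b.elim0⟩
  | succ n IH =>
    intro F _ t hG
    obtain ⟨O, _, t', ht', hu, ⟨π, k, hπ, hassoc⟩, hG⟩ := hG
    refine ⟨?_, fun b => ?_⟩
    · have := (IH _ _ _ hG).1
      rw [isSemireal_iff_not_isSumSq_neg_one]
      intro h
      obtain ⟨m, a, ha⟩ := sumSq_eq_sum h
      let x : Option (Fin m) → F := fun o => o.elim 1 a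
      have hx : ∑ o, x o * x o = 0 := by simp [x, Fintype.sum_option, ← ha]
      obtain ⟨g, i₀, y, hg, hy, hxy⟩ := exists_primitive O x ⟨none, one_ne_zero⟩
      have h0 : ∑ o, residue O (y o) * residue O (y o) = 0 := by
        have e : g * g * ((∑ o, y o * y o : O) : F) = 0 := by
          push_cast
          rw [Finset.mul_sum, ← hx]
          exact Finset.sum_congr rfl fun o _ => by rw [hxy]; ring
        have e' : ∑ o, y o * y o = 0 :=
          Subtype.ext ((mul_eq_zero.1 e).resolve_left (mul_ne_zero hg hg))
        simpa using congrArg (residue O) e'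
      have := semireal_sq_sum_eq_zero Finset.univ _ h0 i₀ (Finset.mem_univ _)
      rw [hy, map_one] at this
      exact one_ne_zero this
    · rw [← ht']
      intro h
      have h' : t' b = 0 := Subtype.ext h
      cases b using Fin.lastCases with
      | last => exact pow_ne_zero _ hπ.ne_zero (hassoc.eq_zero_iff.1 h')
      | cast i => exact (hu i).ne_zero h'

theorem good_exists : ∀ n, ∃ (F : Type) (_ : Field F) (t : Fin n → F), Good n F t := by
  intro n
  induction n with
  | zero => exact ⟨ℚ, inferInstance, Fin.elim0, (inferInstance : IsFormallyReal ℚ)⟩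
  | succ n IH =>
    obtain ⟨K, hK, t, hG⟩ := IH
    have hne := (good_semireal n K hK t hG).2
    let t' : Fin (n + 1) → PowerSeries K := Fin.lastCases PowerSeries.X fun b => PowerSeries.C (t b)
    refine ⟨LaurentSeries K, inferInstance,
      fun b => algebraMap (PowerSeries K) (LaurentSeries K) (t' b),
      good_intro (algebraMap (PowerSeries K) (LaurentSeries K))
        (IsFractionRing.injective _ _) (fun x => ?_) PowerSeries.constantCoeff
        (fun c => ⟨PowerSeries.C c, PowerSeries.constantCoeff_C c⟩) t' (fun b => rfl)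
        (fun b => ?_) PowerSeries.X 0 PowerSeries.X_irreducible ?_ ?_⟩
    · rcases ValuationRing.isInteger_or_isInteger (PowerSeries K) x with h | h
      · exact Or.inl h
      · exact Or.inr h
    · simpa [t'] using (hne b).isUnit.map (PowerSeries.C (R := K))
    · simp [t']
    · simpa [t'] using hG

theorem goodExists : GoodExists :=
  ⟨fun n F hF t hG => ⟨formallyReal_iff.2 (good_semireal n F hF t hG).1,
    (good_semireal n F hF t hG).2⟩, good_exists⟩

end

end Vale.Agent.P199.Cex
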