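import Vale.Agent.P199.Cex.Defs

/-!
P199, counterexample, M2: multiquaternion algebras over good fields have no zero divisors.
-/

open scoped Classical

namespace Vale.Agent.P199.Cex

noncomputable section

variable {n : ℕ}

/-- `X` with the last bit added if `ε`. -/
def emb (ε : Bool) (X : Finset (Fin n)) : Finset (Fin (n + 1)) :=
  Finset.univ.filter fun b => Fin.lastCases (ε = true) (fun i => i ∈ X) b

@[simp] lemma last_mem_emb {ε : Bool} {X : Finset (Fin n)} :
    Fin.last n ∈ emb ε X ↔ ε = true := by simp [emb]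

@[simp] lemma castSucc_mem_emb {ε : Bool} {X : Finset (Fin n)} {i : Fin n} :
    i.castSucc ∈ emb ε X ↔ i ∈ X := by simp [emb]

/-- The last bit and the rest. -/
def embEquiv (n : ℕ) : Bool × Finset (Fin n) ≃ Finset (Fin (n + 1)) where
  toFun p := emb p.1 p.2
  invFun W := (decide (Fin.last n ∈ W), Finset.univ.filter fun i => i.castSucc ∈ W)
  left_inv p := by ext <;> simp
  right_inv W := by
    ext b
    cases b using Fin.lastCases <;> simp

lemma sum_split {M : Type*} [AddCommMonoid M] (ε : Bool) (f : Finset (Fin (n + 1)) → M) :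
    ∑ W, f W = ∑ X, f (emb ε X) + ∑ X, f (emb (!ε) X) := by
  rw [← (embEquiv n).sum_comp f, Fintype.sum_prod_type, Fintype.sum_bool]
  cases ε <;> simp [embEquiv, add_comm]

lemma symmDiff_emb (ε δ : Bool) (X Y : Finset (Fin n)) :
    symmDiff (emb ε X) (emb δ Y) = emb (xor ε δ) (symmDiff X Y) := by
  ext b
  cases b using Fin.lastCases <;> cases ε <;> cases δ <;> simp [Finset.mem_symmDiff]

namespace Qa

variable {F : Type*} [CommRing F]

lemma coef_mul_def (t : Fin n → F) (a c : Qa t) (Z : Finset (Fin n)) :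
    (a * c).coef Z = ∑ X, a.coef X * c.coef (symmDiff X Z) * fac t X (symmDiff X Z) := rfl

lemma fac_comp {G : Type*} [CommRing G] (f : F →+* G) (t : Fin n → F) (X Y : Finset (Fin n)) :
    fac (fun b => f (t b)) X Y = f (fac t X Y) := by
  simp [fac, sgn, map_prod, apply_ite f]

lemma coef_mul_comp {G : Type*} [CommRing G] (f : F →+* G) (t : Fin n → F)
    (a c : Finset (Fin n) → F) (Z : Finset (Fin n)) :
    ((mk fun X => f (a X) : Qa fun b => f (t b)) * mk fun X => f (c X)).coef Z =
      f (((mk a : Qa t) * mk c).coef Z) := by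
  rw [coef_mul_def, coef_mul_def]
  simp [coef, mk, fac_comp]

/-- The extra sign at the last bit. -/
def twist (ε : Bool) (Y : Finset (Fin n)) : F :=
  if ε = true ∧ n % 2 = 1 ∧ ∃ c ∈ Y, c.val + 1 = n then -1 else 1

lemma twist_mul_self (ε : Bool) (Y : Finset (Fin n)) :
    twist (F := F) ε Y * twist ε Y = 1 := by
  unfold twist
  split_ifs <;> simp

lemma fac_emb (t : Fin (n + 1) → F) (ε δ : Bool) (X Y : Finset (Fin n)) :
    fac t (emb ε X) (emb δ Y) = twist ε Y * (if ε && δ then t (Fin.last n) else 1) *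
      fac (fun b => t b.castSucc) X Y := by
  have hex : ∀ m : ℕ, m ≤ n →
      ((∃ c ∈ emb δ Y, c.val + 1 = m) ↔ ∃ c ∈ Y, c.val + 1 = m) := by
    intro m hm
    constructor
    · rintro ⟨c, hc, h⟩
      cases c using Fin.lastCases with
      | last => simp at h; omega
      | cast i => exact ⟨i, by simpa using hc, by simpa using h⟩
    · rintro ⟨c, hc, h⟩
      exact ⟨c.castSucc, by simpa using hc, by simpa using h⟩
  have hp : ∀ (m : ℕ) (W : Finset (Fin m)) (s : Fin m → F),
      ∏ b ∈ W, s b = ∏ b, if b ∈ W then s b else 1 := fun m W s => by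
    rw [Finset.prod_ite_mem, Finset.univ_inter]
  have hb : (if ε = true ∧ δ = true then t (Fin.last n) else 1) =
      if ε && δ then t (Fin.last n) else 1 := by simp
  simp only [fac, sgn, twist]
  rw [hp _ (emb ε X ∩ emb δ Y) t, hp _ (X ∩ Y) fun b => t b.castSucc, Fin.prod_univ_castSucc,
    Fin.prod_univ_castSucc]
  simp only [Finset.mem_inter, castSucc_mem_emb, last_mem_emb, Fin.val_castSucc, Fin.val_last]
  rw [hb]
  simp only [hex n le_rfl, fun b : Fin n => hex b.val b.isLt.le]
  ring

variable {κ : Type*} [CommRing κ]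

/-- One step: if the residue algebra has no zero divisors and the last parameter is a uniformiser
times a unit, then a product of two elements with non-zero reduction is non-zero. -/
lemma mul_ne_zero_step [IsDomain F] [IsDomain κ] (res : F →+* κ) (π u : F) (hπ : π ≠ 0)
    (hres : res π = 0) (hu : res u ≠ 0) (hker : ∀ x, res x = 0 → π ∣ x) (t : Fin (n + 1) → F)
    (ht : t (Fin.last n) = u * π)
    (IH : ∀ A C : Qa (fun b => res (t b.castSucc)), A ≠ 0 → C ≠ 0 → A * C ≠ 0)
    (a c : Qa t) (ha : ∃ W, res (a.coef W) ≠ 0) (hc : ∃ W, res (c.coef W) ≠ 0) :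
    a * c ≠ 0 := by
  have cls : ∀ b : Qa t, (∃ W, res (b.coef W) ≠ 0) → ∃ ε : Bool, ∃ b' : Finset (Fin n) → F,
      (∀ X, b.coef (emb (!ε) X) = (if ε then π else 1) * b' X) ∧
        ∃ X, res (b.coef (emb ε X)) ≠ 0 := by
    intro b hb
    by_cases h : ∃ X, res (b.coef (emb false X)) ≠ 0
    · exact ⟨false, fun X => b.coef (emb true X), fun X => by simp, h⟩
    push Not at h
    choose b' hb' using fun X => hker _ (h X)
    refine ⟨true, b', fun X => by simpa using hb' X, ?_⟩
    obtain ⟨W, hW⟩ := hb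
    obtain ⟨⟨ε, X⟩, rfl⟩ := (embEquiv n).surjective W
    cases ε with
    | false => exact absurd (h X) hW
    | true => exact ⟨X, hW⟩
  obtain ⟨ε, a', ha', X₀, hX₀⟩ := cls a ha
  obtain ⟨δ, c', hc', Y₀, hY₀⟩ := cls c hc
  have hA : (mk fun X => res (a.coef (emb ε X)) : Qa (fun b => res (t b.castSucc))) ≠ 0 :=
    fun h => hX₀ (congrFun h X₀)
  have hC : (mk fun Y => res (c.coef (emb δ Y) * twist ε Y) :
      Qa (fun b => res (t b.castSucc))) ≠ 0 := fun h => hY₀ <| by
    have := congrFun h Y₀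
    simp only [mk, map_mul] at this
    refine (mul_eq_zero.1 this).resolve_right fun h' => one_ne_zero (α := κ) ?_
    rw [← map_one res, ← twist_mul_self ε Y₀, map_mul, h', mul_zero]
  have hne := IH _ _ hA hC
  intro h0
  refine hne (funext fun Z => ?_)
  rw [show (0 : Qa fun b => res (t b.castSucc)) Z = 0 from rfl]
  change (_ * _ : Qa fun b => res (t b.castSucc)).coef Z = 0
  rw [coef_mul_comp res (fun b => t b.castSucc)]
  have h1 : (a * c).coef (emb (xor ε δ) Z) = 0 := congrFun h0 _
  rw [coef_mul_def, sum_split ε] at h1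
  have e0 : ∀ X, symmDiff (emb ε X) (emb (xor ε δ) Z) = emb δ (symmDiff X Z) := fun X => by
    rw [symmDiff_emb]; cases ε <;> simp
  have e1 : ∀ X, symmDiff (emb (!ε) X) (emb (xor ε δ) Z) = emb (!δ) (symmDiff X Z) := fun X => by
    rw [symmDiff_emb]; cases ε <;> simp
  simp only [e0, e1, fac_emb, ha', hc', ht] at h1
  set P : F := if ε && δ then π else 1
  set v : F := if ε && δ then u else 1
  set r : F := if !ε && !δ then u else 1
  have h2 : P * (v * ((mk (fun X => a.coef (emb ε X)) : Qa fun b => t b.castSucc) *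
      mk fun Y => c.coef (emb δ Y) * twist ε Y).coef Z + π * ∑ X, r * a' X * c' (symmDiff X Z) *
        (twist (!ε) (symmDiff X Z) * fac (fun b => t b.castSucc) X (symmDiff X Z))) = 0 := by
    rw [← h1, coef_mul_def, mul_add]
    simp only [Finset.mul_sum]
    congr 1 <;> refine Finset.sum_congr rfl fun X _ => ?_ <;>
      cases ε <;> cases δ <;> simp [P, v, r, coef, mk] <;> ring
  rcases mul_eq_zero.1 h2 with h | h
  · simp only [P] at h
    split_ifs at h with hh
    · exact absurd h hπ
    · exact absurd h one_ne_zero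
  · have h3 := congrArg res h
    rw [map_add, map_mul, map_mul res π, hres, zero_mul, add_zero, map_zero, mul_eq_zero] at h3
    refine h3.resolve_left ?_
    simp only [v]
    split_ifs
    · exact hu
    · simp

/-- Rescaling the last parameter by a square. -/
lemma coef_mul_scale (t t₁ : Fin (n + 1) → F) (q : F)
    (h : ∀ b : Fin n, t₁ b.castSucc = t b.castSucc) (hl : t (Fin.last n) = t₁ (Fin.last n) * q ^ 2)
    (a c : Qa t) (Z : Finset (Fin (n + 1))) :
    ((mk fun W => a.coef W * if Fin.last n ∈ W then q else 1 : Qa t₁) *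
        mk fun W => c.coef W * if Fin.last n ∈ W then q else 1).coef Z =
      (a * c).coef Z * if Fin.last n ∈ Z then q else 1 := by
  obtain ⟨⟨ζ, Z⟩, rfl⟩ := (embEquiv n).surjective Z
  simp only [coef_mul_def, Finset.sum_mul]
  refine Finset.sum_congr rfl fun W _ => ?_
  obtain ⟨⟨ε, X⟩, rfl⟩ := (embEquiv n).surjective W
  simp only [embEquiv, Equiv.coe_fn_mk, symmDiff_emb, fac_emb, h]
  cases ε <;> cases ζ <;> simp [coef, mk, hl] <;> ring

end Qa

/-- A non-zero vector is a multiple of an integral vector with a coordinate one. -/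
lemma exists_primitive {F : Type*} [Field F] (O : ValuationSubring F) {ι : Type*} [Fintype ι]
    (x : ι → F) (hx : ∃ i, x i ≠ 0) :
    ∃ (g : F) (i₀ : ι) (y : ι → O), g ≠ 0 ∧ y i₀ = 1 ∧ ∀ i, x i = g * y i := by
  obtain ⟨j, hj⟩ := hx
  obtain ⟨i₀, -, hmax⟩ :=
    Finset.univ.exists_max_image (fun i => O.valuation (x i)) ⟨j, Finset.mem_univ j⟩
  have hi : x i₀ ≠ 0 := fun h => hj <| by
    have := hmax j (Finset.mem_univ j)
    rw [h, map_zero, le_zero_iff, map_eq_zero] at this
    exact this
  refine ⟨x i₀, i₀, fun i => ⟨x i / x i₀, ?_⟩, hi, Subtype.ext (div_self hi), fun i => ?_⟩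
  · rw [← O.valuation_le_one_iff, map_div₀]
    exact div_le_one_of_le₀ (hmax i (Finset.mem_univ i)) zero_le
  · show x i = x i₀ * (x i / x i₀)
    field_simp

theorem goodDomain : GoodDomain := by
  intro n
  induction n with
  | zero =>
    intro F _ t _ a b ha hb h
    have h0 : ∀ X : Finset (Fin 0), X = ∅ := fun X => Finset.eq_empty_of_isEmpty X
    have hz : ∀ w : Qa t, w ≠ 0 → w.coef ∅ ≠ 0 := fun w hw hc => hw (funext fun X => by
      rw [h0 X]; exact hc)
    have e := congrFun h ∅
    change (a * b).coef ∅ = 0 at e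
    rw [Qa.coef_mul_def, Fintype.sum_subsingleton _ ∅] at e
    refine mul_ne_zero (hz a ha) (hz b hb) ?_
    simpa [Qa.fac, Qa.sgn] using e
  | succ n IH =>
    intro F _ t hG a c ha hc h
    obtain ⟨O, _, t', ht', -, ⟨π, k, hπ, hassoc⟩, hres⟩ := hG
    obtain ⟨w, hw⟩ := hassoc.symm
    set q : F := (π : F) ^ k
    set t₂ : Fin (n + 1) → O := Fin.lastCases ((w : O) * π) fun b => t' b.castSucc
    have hπ0 : (π : F) ≠ 0 := fun h => hπ.ne_zero (Subtype.ext h)
    have hq : q ≠ 0 := pow_ne_zero _ hπ0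
    have hlast : t (Fin.last n) = (t₂ (Fin.last n) : F) * q ^ 2 := by
      rw [← ht', ← hw]
      simp only [t₂, Fin.lastCases_last, q]
      push_cast
      ring
    have hcast : ∀ b : Fin n, (t₂ b.castSucc : F) = t b.castSucc := fun b => by simp [t₂, ht']
    have nz : ∀ z : Qa t, z ≠ 0 → ∃ W, z.coef W * (if Fin.last n ∈ W then q else 1) ≠ 0 :=
      fun z hz => by
      obtain ⟨W, hW⟩ := Function.ne_iff.1 hz
      exact ⟨W, mul_ne_zero hW (by split_ifs <;> simp [hq])⟩
    obtain ⟨g, i₀, α, hi, hα1, hα⟩ := exists_primitive O _ (nz a ha)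
    obtain ⟨g', j₀, γ, hj, hγ1, hγ⟩ := exists_primitive O _ (nz c hc)
    have hIH : ∀ A C : Qa (fun b => IsLocalRing.residue O (t₂ b.castSucc)),
        A ≠ 0 → C ≠ 0 → A * C ≠ 0 := by
      have e : (fun b : Fin n => IsLocalRing.residue O (t₂ b.castSucc)) =
          fun b => IsLocalRing.residue O (t' b.castSucc) := by funext b; simp [t₂]
      rw [e]
      exact IH _ _ _ hres
    refine Qa.mul_ne_zero_step (IsLocalRing.residue O) π w hπ.ne_zero
      (Ideal.Quotient.eq_zero_iff_mem.2 ((IsLocalRing.mem_maximalIdeal _).2 hπ.not_isUnit))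
      (w.map (IsLocalRing.residue O).toMonoidHom).ne_zero (fun x hx => ?_) t₂
      (by simp [t₂]) hIH (Qa.mk α) (Qa.mk γ) ⟨i₀, by simp [Qa.coef, Qa.mk, hα1]⟩
      ⟨j₀, by simp [Qa.coef, Qa.mk, hγ1]⟩ (funext fun Z => ?_)
    · rw [← Ideal.mem_span_singleton, ← hπ.maximalIdeal_eq]
      exact Ideal.Quotient.eq_zero_iff_mem.1 hx
    · have e := Qa.coef_mul_scale t (fun b => (t₂ b : F)) q hcast hlast a c Z
      rw [show (a * c).coef Z = 0 from congrFun h Z, zero_mul] at e
      have e' := Qa.coef_mul_comp O.subtype t₂ α γ Z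
      rw [Qa.coef_mul_def] at e
      simp only [Qa.coef, Qa.mk] at e hα hγ
      simp only [hα, hγ] at e
      rw [Qa.coef_mul_def] at e'
      simp only [Qa.coef, Qa.mk, ValuationSubring.coe_subtype] at e'
      apply Subtype.ext
      show ((((Qa.mk α : Qa t₂) * Qa.mk γ).coef Z : O) : F) = 0
      refine ((mul_eq_zero (a := g * g')).1 ?_).resolve_left (mul_ne_zero hi hj)
      refine (congrArg (g * g' * ·) e'.symm).trans (Eq.trans ?_ e)
      simp only [Finset.mul_sum]
      exact Finset.sum_congr rfl fun X _ => by ring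

end

end Vale.Agent.P199.Cex
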