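import Vale.Agent.P199.Cex.Defs

/-!
# P199: sums of squares and valuation rings with formally real residue field
-/

open scoped Classical

namespace Vale.Agent.P199.Cex

noncomputable section

theorem charZero_of_formallyReal {k : Type*} [Field k] [IsFormallyReal k] : CharZero k := by
  refine charZero_of_inj_zero fun m hm => ?_
  by_contra h0
  obtain ⟨l, rfl⟩ := Nat.exists_eq_succ_of_ne_zero h0
  have h1 : IsSumSq (1 : k) := by simp
  have hl : ∀ j : ℕ, IsSumSq (j : k) := fun j => by
    induction j with
    | zero => simp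
    | succ j ih => push_cast; exact ih.add h1
  exact one_ne_zero (IsFormallyReal.eq_zero_of_add_left (hl l) h1 (by exact_mod_cast hm))

theorem eq_zero_of_sum_sq {k ι : Type*} [Field k] [IsFormallyReal k] {s : Finset ι} {x : ι → k}
    (h : ∑ i ∈ s, x i ^ 2 = 0) {i : ι} (hi : i ∈ s) : x i = 0 := by
  have hsq : ∀ t : Finset ι, IsSumSq (∑ j ∈ t, x j ^ 2) := fun t => by
    induction t using Finset.induction_on with
    | empty => simp
    | insert j t hj ih =>
      rw [Finset.sum_insert hj, pow_two]
      exact (IsSumSq.mul_self _).add ih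
  rw [← Finset.add_sum_erase s _ hi] at h
  have : x i ^ 2 = 0 := IsFormallyReal.eq_zero_of_add_right
    (by rw [pow_two]; exact IsSumSq.mul_self _) (hsq _) h
  exact pow_eq_zero_iff two_ne_zero |>.1 this

/-- Scaling by an entry of largest valuation makes all entries integral. -/
theorem exists_scale {F ι : Type*} [Field F] (O : ValuationSubring F) {s : Finset ι}
    (x : ι → F) {i : ι} (hi : i ∈ s) (hne : x i ≠ 0) :
    ∃ j ∈ s, x j ≠ 0 ∧ ∀ l ∈ s, x l / x j ∈ O := by
  obtain ⟨j, hj, hmax⟩ := s.exists_max_image (fun l => O.valuation (x l)) ⟨i, hi⟩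
  have hj0 : x j ≠ 0 := by
    intro h0
    have := hmax i hi
    simp only [h0, map_zero] at this
    exact hne ((Valuation.zero_iff _).1 (le_antisymm this bot_le))
  refine ⟨j, hj, hj0, fun l hl => ?_⟩
  rw [← O.valuation_le_one_iff, map_div₀,
    div_le_one₀ (zero_lt_iff.2 ((Valuation.ne_zero_iff _).2 hj0))]
  exact hmax l hl

/-- If a sum of squares is one and the residue field is formally real, all terms are integral. -/
theorem mem_of_sum_sq_eq_one {F ι : Type*} [Field F] (O : ValuationSubring F)
    [IsFormallyReal (IsLocalRing.ResidueField O)] {s : Finset ι} {x : ι → F}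
    (h : ∑ i ∈ s, x i ^ 2 = 1) {i : ι} (hi : i ∈ s) : x i ∈ O := by
  by_contra hiO
  have hne : x i ≠ 0 := fun h0 => hiO (h0 ▸ O.zero_mem)
  obtain ⟨j, hj, hj0, hdiv⟩ := exists_scale O x hi hne
  have hjO : x j ∉ O := fun hjO => hiO (by
    simpa [div_mul_cancel₀ _ hj0] using O.mul_mem _ _ (hdiv i hi) hjO)
  have hinv : (x j)⁻¹ ∈ O := (O.mem_or_inv_mem _).resolve_left hjO
  let y : s → O := fun l => ⟨x l / x j, hdiv l l.2⟩
  let c : O := ⟨(x j)⁻¹, hinv⟩
  have hy : ∑ l : s, y l ^ 2 = c ^ 2 := Subtype.ext (by
    push_cast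
    simp only [y, c, div_pow]
    rw [← Finset.sum_div, Finset.univ_eq_attach, Finset.sum_attach s (fun l => x l ^ 2), h,
      one_div, inv_pow])
  have hc : IsLocalRing.residue O c = 0 := by
    rw [IsLocalRing.residue_eq_zero_iff, IsLocalRing.mem_maximalIdeal, mem_nonunits_iff]
    intro hu
    apply hjO
    obtain ⟨d, hd⟩ := hu.exists_right_inv
    have : (x j)⁻¹ * (d : F) = 1 := congrArg Subtype.val hd
    have : (d : F) = x j := by
      rw [← inv_inv (x j)]
      exact (inv_eq_of_mul_eq_one_right this).symm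
    exact this ▸ d.2
  have h0 : ∑ l : s, IsLocalRing.residue O (y l) ^ 2 = 0 := by
    simp only [← map_pow, ← map_sum, hy]
    rw [map_pow, hc, zero_pow two_ne_zero]
  have h1 := eq_zero_of_sum_sq h0 (Finset.mem_univ (⟨j, hj⟩ : s))
  have hone : y ⟨j, hj⟩ = 1 := Subtype.ext (by simp [y, div_self hj0])
  rw [hone, map_one] at h1
  exact one_ne_zero h1

/-- Vectors over a valuation ring with independent residues are independent. -/
theorem linearIndependent_of_residue {F ι κ : Type*} [Field F] [Fintype ι] (O : ValuationSubring F)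
    (v : ι → κ → O) (h : LinearIndependent (IsLocalRing.ResidueField O)
      fun i x => IsLocalRing.residue O (v i x)) :
    LinearIndependent F fun i x => (v i x : F) := by
  rw [Fintype.linearIndependent_iff] at h ⊢
  intro g hg i
  by_contra hi
  obtain ⟨j, -, hj0, hdiv⟩ := exists_scale O g (Finset.mem_univ i) hi
  let y : ι → O := fun l => ⟨g l / g j, hdiv l (Finset.mem_univ l)⟩
  have hy : ∀ x, ∑ l, y l * v l x = 0 := fun x => Subtype.ext (by
    have := congrFun hg x
    simp only [Finset.sum_apply, Pi.smul_apply, smul_eq_mul, Pi.zero_apply] at this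
    push_cast
    simp only [y, div_mul_eq_mul_div, ← Finset.sum_div, this, zero_div])
  have hz := h (fun l => IsLocalRing.residue O (y l)) (funext fun x => by
    simp only [Finset.sum_apply, Pi.smul_apply, smul_eq_mul, Pi.zero_apply, ← map_mul, ← map_sum,
      hy, map_zero]) j
  have hone : y j = 1 := Subtype.ext (by simp [y, div_self hj0])
  rw [hone, map_one] at hz
  exact one_ne_zero hz

end

end Vale.Agent.P199.Cex
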