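import Vale.Agent.P199.Cex.Defs

/-!
P199, counterexample: the coordinates, and the slots that carry the constraints.

The `i`-th constraint lives on the monomials `X` of the centraliser `CC i` of the first `i + 1`
even bits, modulo their span `LL i`; its slot is `X` with the odd bit `2 i + 1` added.
-/

open scoped Classical

namespace Vale.Agent.P199.Cex

variable {n : ℕ}

/-- The monomials commuting with the first `i + 1` even bits. -/
def CC (i : ℕ) (X : Finset (Fin n)) : Prop := ∀ b ∈ X, b.val % 2 = 1 → 2 * i + 1 < b.val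

/-- The monomials in the first `i + 1` even bits. -/
def LL (i : ℕ) (X : Finset (Fin n)) : Prop := ∀ b ∈ X, b.val % 2 = 0 ∧ b.val < 2 * (i + 1)

/-- `X` is a slot of the `i`-th constraint. -/
def Code (i : ℕ) (X : Finset (Fin n)) : Prop :=
  ∃ v ∈ X, v.val = 2 * i + 1 ∧ CC i (X.erase v) ∧ ¬ LL i (X.erase v)

/-- The coordinates in use. -/
def Used (r : ℕ) (p : Fin 3 × Finset (Fin n)) : Prop :=
  (p.1 = 0 ∧ p.2.card = 1) ∨ (p.1 = 1 ∧ ∃ i < r, Code i p.2) ∨ (p.1 = 2 ∧ p.2.Nonempty)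

/-- The coordinates. -/
abbrev Coord (n r : ℕ) : Type := {p : Fin 3 × Finset (Fin n) // Used r p}

/-- The character of a coordinate. -/
abbrev chC {r : ℕ} (c : Coord n r) : Finset (Fin n) := c.1.2

lemma LL.cc {i : ℕ} {X : Finset (Fin n)} (h : LL i X) : CC i X := fun b hb hodd => by
  have := (h b hb).1
  omega

lemma not_cc {i : ℕ} {X : Finset (Fin n)} :
    ¬ CC i X ↔ ∃ b ∈ X, b.val % 2 = 1 ∧ b.val ≤ 2 * i + 1 := by
  simp [CC, not_forall, not_lt]

lemma Code.nonempty {i : ℕ} {X : Finset (Fin n)} (h : Code i X) : X.Nonempty := by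
  obtain ⟨v, hv, -⟩ := h
  exact ⟨v, hv⟩

lemma Code.inj {i j : ℕ} {X : Finset (Fin n)} (h : Code i X) (h' : Code j X) : i = j := by
  obtain ⟨v, hv, hvv, hc, -⟩ := h
  obtain ⟨w, hw, hww, hc', -⟩ := h'
  by_contra hne
  have hvw : v ≠ w := fun e => hne (by subst e; omega)
  rcases Nat.lt_or_gt_of_ne hne with hlt | hlt
  · have := hc' v (Finset.mem_erase.2 ⟨hvw, hv⟩) (by omega)
    omega
  · have := hc w (Finset.mem_erase.2 ⟨hvw.symm, hw⟩) (by omega)
    omega

lemma Used.nonempty {r : ℕ} {p : Fin 3 × Finset (Fin n)} (h : Used r p) : p.2.Nonempty := by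
  rcases h with ⟨-, h⟩ | ⟨-, i, -, h⟩ | ⟨-, h⟩
  · exact Finset.card_pos.1 (by omega)
  · exact h.nonempty
  · exact h

/-- The multiplier bit of the `i`-th constraint. -/
def vbit {r : ℕ} (hn : 2 * r + 2 ≤ n) (i : Fin r) : Fin n := ⟨2 * i.val + 1, by omega⟩

/-- The slot of a monomial. -/
def slot {r : ℕ} (hn : 2 * r + 2 ≤ n) (i : Fin r) (Z : Finset (Fin n)) : Finset (Fin n) :=
  insert (vbit hn i) Z

lemma vbit_not_mem {r : ℕ} (hn : 2 * r + 2 ≤ n) {i : Fin r} {Z : Finset (Fin n)} (h : CC i.val Z) :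
    vbit hn i ∉ Z := fun hm => by
  have := h _ hm (by simp [vbit])
  simp [vbit] at this

lemma code_slot {r : ℕ} (hn : 2 * r + 2 ≤ n) {i : Fin r} {Z : Finset (Fin n)} (h : CC i.val Z)
    (hL : ¬ LL i.val Z) : Code i.val (slot hn i Z) := by
  refine ⟨vbit hn i, Finset.mem_insert_self _ _, rfl, ?_, ?_⟩ <;>
    rwa [slot, Finset.erase_insert (vbit_not_mem hn h)]

lemma Code.eq_slot {r : ℕ} (hn : 2 * r + 2 ≤ n) {i : Fin r} {X : Finset (Fin n)}
    (h : Code i.val X) :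
    ∃ Z, CC i.val Z ∧ ¬ LL i.val Z ∧ X = slot hn i Z := by
  obtain ⟨v, hv, hvv, hc, hL⟩ := h
  obtain rfl : v = vbit hn i := Fin.ext hvv
  exact ⟨X.erase (vbit hn i), hc, hL, (Finset.insert_erase hv).symm⟩

/-- A monomial of the constraint has a bit above the multiplier. -/
lemma exists_gt {r : ℕ} (hn : 2 * r + 2 ≤ n) {i : Fin r} {Z : Finset (Fin n)} (h : CC i.val Z)
    (hL : ¬ LL i.val Z) : ∃ b ∈ Z, vbit hn i < b := by
  obtain ⟨b, hb, hbad⟩ : ∃ b ∈ Z, ¬ (b.val % 2 = 0 ∧ b.val < 2 * (i.val + 1)) := by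
    simpa [LL, not_forall] using hL
  refine ⟨b, hb, ?_⟩
  rw [Fin.lt_def]
  simp only [vbit]
  rcases Nat.mod_two_eq_zero_or_one b.val with h0 | h1
  · omega
  · exact h b hb h1

/-- The slot has the largest element of its monomial. -/
lemma topEq_slot {r : ℕ} (hn : 2 * r + 2 ≤ n) {i : Fin r} {Z : Finset (Fin n)} (h : CC i.val Z)
    (hL : ¬ LL i.val Z) {b : Fin n} : TopEq b (slot hn i Z) ↔ TopEq b Z := by
  obtain ⟨c, hc, hvc⟩ := exists_gt hn h hL
  constructor
  · rintro ⟨hb, hle⟩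
    have hbv : b ≠ vbit hn i := fun e =>
      absurd (e ▸ hle c (Finset.mem_insert_of_mem hc)) (not_le.2 hvc)
    exact ⟨(Finset.mem_insert.1 hb).resolve_left hbv, fun x hx => hle x (Finset.mem_insert_of_mem hx)⟩
  · rintro ⟨hb, hle⟩
    refine ⟨Finset.mem_insert_of_mem hb, fun x hx => ?_⟩
    rcases Finset.mem_insert.1 hx with rfl | hx
    · exact hvc.le.trans (hle c hc)
    · exact hle x hx

end Vale.Agent.P199.Cex
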