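import Vale.Agent.P199.Cex.Algebra
import Vale.Agent.P199.Cex.Slots

/-!
P199, counterexample: the equations, over an arbitrary commutative `ℚ`-algebra `K`.

`eqs t τ z` vanishes at `τ = 0` when the three elements with coordinates `z` satisfy the degree
bounds, the sphere and the orthogonality conditions; at `τ = 1` it is the reference system.
-/

open scoped Classical

namespace Vale.Agent.P199.Cex

noncomputable section

variable {n r : ℕ} {K : Type} [CommRing K] [Algebra ℚ K] (hn : 2 * r + 2 ≤ n) (t : Fin n → K)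

/-- The coordinate at `(a, X)`, zero when it is not in use. -/
def Zc (z : Coord n r → K) (a : Fin 3) (X : Finset (Fin n)) : K :=
  if h : Used r (a, X) then z ⟨(a, X), h⟩ else 0

/-- The three elements. -/
def gen (z : Coord n r → K) (a : Fin 3) : Qa t := Qa.mk (Zc z a)

/-- The centre of the `i`-th reference. -/
def kap (z : Coord n r → K) (i : ℕ) : Qa t :=
  Qa.mk fun X => if X.card = 1 ∧ LL i X then Zc z 0 X else 0

/-- The slots of the `i`-th constraint as an element. -/
def slotPart (z : Coord n r → K) (i : Fin r) : Qa t :=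
  Qa.mk fun X => if CC i.val X ∧ ¬ LL i.val X then Zc z 1 (slot hn i X) * Zc z 0 {vbit hn i} else 0

/-- The infinitesimal of the reference. -/
def eps : K := t ⟨n - 1, by omega⟩

/-- The reference of the `i`-th element. -/
def refG (z : Coord n r → K) (i : Fin r) : Qa t := kap t z i.val + eps hn t • slotPart hn t z i

/-- The `i`-th element at the parameter `τ`. -/
def hval (g : ℕ → TP) (τ : K) (z : Coord n r → K) (i : Fin r) : Qa t :=
  (1 - τ) • evP Qa.tau (gen t z) (g i) + τ • refG hn t z i

/-- The orthogonality form. -/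
def orthV (z : Coord n r → K) (b : Fin n) (φ : Finset (Fin n)) : K :=
  ∑ a : Fin 3, ∑ X ∈ Finset.univ.filter (TopEq b),
    (Qa.E t φ * Qa.mk (low b (Zc z a)) - Qa.mk (low b (Zc z a)) * Qa.E t φ).coef X * Zc z a X

/-- The indices of the equations. -/
abbrev Eqn (n r : ℕ) : Type := Fin n ⊕ (Fin n × Finset (Fin n)) ⊕ (Fin r × Finset (Fin n))

/-- The equations. -/
def eqs (g : ℕ → TP) (τ : K) (z : Coord n r → K) : Eqn n r → K
  | .inl b => (∑ a, ∑ X ∈ Finset.univ.filter (TopEq b), Zc z a X ^ 2) - 1
  | .inr (.inl (b, φ)) =>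
      if TopEq b φ then (1 - τ) * orthV t z b φ + τ * Zc z 2 φ else 0
  | .inr (.inr (i, X)) => (npol Qa.tau (2 ^ (i.val + 1)) (hval hn t g τ z i)).coef X

/-! ### The coordinates -/

omit [Algebra ℚ K] in
lemma Zc_of_used (z : Coord n r → K) {a : Fin 3} {X : Finset (Fin n)} (h : Used r (a, X)) :
    Zc z a X = z ⟨(a, X), h⟩ := dif_pos h

omit [Algebra ℚ K] in
lemma Zc_empty (z : Coord n r → K) (a : Fin 3) : Zc z a ∅ = 0 := by
  refine dif_neg fun h => ?_
  simpa using h.nonempty

omit [Algebra ℚ K] in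
/-- A sum over the coordinates with given top is a sum over the three generators. -/
lemma sum_coord (z : Coord n r → K) (b : Fin n) :
    ∑ j ∈ Finset.univ.filter (fun j : Coord n r => TopEq b (chC j)), z j ^ 2 =
      ∑ a, ∑ X ∈ Finset.univ.filter (TopEq b), Zc z a X ^ 2 := by
  rw [← Finset.sum_product']
  symm
  rw [← Finset.sum_filter_add_sum_filter_not (Finset.univ ×ˢ Finset.univ.filter (TopEq b))
    (fun p => Used r p)]
  rw [Finset.sum_eq_zero (s := Finset.filter (fun p => ¬ Used r p) _), add_zero]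
  · refine Finset.sum_bij' (fun p hp => ⟨p, (Finset.mem_filter.1 hp).2⟩) (fun j _ => j.1)
      (fun p hp => ?_) (fun j hj => ?_) (fun p hp => rfl) (fun j hj => rfl) (fun p hp => ?_)
    · simpa using (Finset.mem_filter.1 hp).1
    · simpa [chC, j.2] using (Finset.mem_filter.1 hj).2
    · rw [Zc_of_used z (Finset.mem_filter.1 hp).2]
  · intro p hp
    rw [show Zc z p.1 p.2 = 0 from dif_neg (Finset.mem_filter.1 hp).2]
    simp

omit [Algebra ℚ K] in
lemma Zc_map {K' : Type} [CommRing K'] (f : K →+* K') (z : Coord n r → K) (a : Fin 3)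
    (X : Finset (Fin n)) : Zc (fun j => f (z j)) a X = f (Zc z a X) := by
  unfold Zc; split_ifs <;> simp

/-- What zeros of the system at the parameter `0` give. -/
lemma eqs_zero_sphere (g : ℕ → TP) (τ : K) {z : Coord n r → K}
    (h : eqs hn t g τ z = 0) : Sphere (Zc z) :=
  ⟨Zc_empty z, fun b => sub_eq_zero.1 (congrFun h (.inl b))⟩

lemma eqs_zero_orth (g : ℕ → TP) {z : Coord n r → K} (h : eqs hn t g 0 z = 0) :
    Orth t (Zc z) := fun b φ hφ => by
  have := congrFun h (.inr (.inl (b, φ)))
  simpa [eqs, hφ, orthV] using this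

lemma eqs_zero_npol (g : ℕ → TP) {z : Coord n r → K} (h : eqs hn t g 0 z = 0) (i : Fin r) :
    npol Qa.tau (2 ^ (i.val + 1)) (evP Qa.tau (gen t z) (g i)) = 0 := by
  ext X
  have := congrFun h (.inr (.inr (i, X)))
  simpa [eqs, hval] using this

end

end Vale.Agent.P199.Cex
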