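import Vale.Agent.P199.Cex.Npol
import Vale.Agent.P199.Cex.System

/-!
P199, counterexample: the equations commute with ring homomorphisms, and sign changes permute
their zeros.
-/

open scoped Classical symmDiff

namespace Vale.Agent.P199.Cex

noncomputable section

variable {n r : ℕ} {K K' : Type} [CommRing K] [Algebra ℚ K] [CommRing K'] [Algebra ℚ K']
  (hn : 2 * r + 2 ≤ n) (t : Fin n → K) (f : K →+* K') (g : ℕ → TP) (τ : K) (z : Coord n r → K)

omit [Algebra ℚ K] [Algebra ℚ K'] in
lemma gen_map (a : Fin 3) :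
    Qa.mapQ f (gen t z a) = gen (fun b => f (t b)) (fun j => f (z j)) a := by
  ext X; simp [gen, Zc_map]

omit [Algebra ℚ K] [Algebra ℚ K'] in
lemma refG_map (i : Fin r) :
    Qa.mapQ f (refG hn t z i) = refG hn (fun b => f (t b)) (fun j => f (z j)) i := by
  ext X
  simp only [refG, kap, slotPart, eps, Qa.coef_mapQ, Qa.coef_add, Qa.coef_smul, Qa.coef_mk,
    Zc_map, map_add, map_mul]
  split_ifs <;> simp

lemma hval_map (i : Fin r) : Qa.mapQ f (hval hn t g τ z i) =
    hval hn (fun b => f (t b)) g (f τ) (fun j => f (z j)) i := by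
  simp only [hval, map_add, Qa.mapQ_smul, refG_map, map_sub, map_one]
  rw [Qa.evP_mapQ]
  simp [gen_map]

omit [Algebra ℚ K] [Algebra ℚ K'] in
lemma orthV_map (b : Fin n) (φ : Finset (Fin n)) :
    f (orthV t z b φ) = orthV (fun c => f (t c)) (fun j => f (z j)) b φ := by
  have hlow : ∀ a, Qa.mapQ f (Qa.mk (low b (Zc z a)) : Qa t) =
      Qa.mk (low b (Zc (fun j => f (z j)) a)) := by
    intro a
    ext X
    simp only [Qa.coef_mapQ, Qa.coef_mk, low, Zc_map]
    split_ifs <;> simp
  simp only [orthV, map_sum, map_mul]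
  refine Finset.sum_congr rfl fun a _ => Finset.sum_congr rfl fun X _ => ?_
  rw [Zc_map, ← Qa.coef_mapQ, map_sub, map_mul, map_mul, hlow, Qa.mapQ_E]

/-- The equations commute with ring homomorphisms. -/
lemma eqs_map (k : Eqn n r) : f (eqs hn t g τ z k) =
    eqs hn (fun b => f (t b)) g (f τ) (fun j => f (z j)) k := by
  rcases k with b | ⟨b, φ⟩ | ⟨i, X⟩
  · simp [eqs, Zc_map, map_sum]
  · simp only [eqs]
    split_ifs <;> simp [orthV_map, Zc_map]
  · simp only [eqs]
    rw [← Qa.coef_mapQ, Qa.npol_mapQ, hval_map]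

/-! ### Sign changes -/

/-- The coordinates after a sign change of the bits. -/
def flipC (a : Fin n → K) (z : Coord n r → K) : Coord n r → K :=
  fun j => Qa.chr a (chC j) * z j

omit [Algebra ℚ K] in
lemma Zc_flipC (a : Fin n → K) (c : Fin 3) (X : Finset (Fin n)) :
    Zc (flipC a z) c X = Qa.chr a X * Zc z c X := by
  unfold Zc flipC
  split_ifs <;> simp [chC]

variable {a : Fin n → K} (ha : ∀ b, a b ^ 2 = 1)

omit [Algebra ℚ K] in
lemma gen_flipC (c : Fin 3) : gen t (flipC a z) c = Qa.flip a ha (gen t z c) := by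
  ext X; simp [gen, Zc_flipC]

omit [Algebra ℚ K] in
lemma refG_flipC (i : Fin r) : refG hn t (flipC a z) i = Qa.flip a ha (refG hn t z i) := by
  ext X
  simp only [refG, kap, slotPart, Qa.coef_flip, Qa.coef_add, Qa.coef_smul, Qa.coef_mk, Zc_flipC,
    mul_add]
  congr 1
  · split_ifs <;> simp
  · by_cases h : CC i.val X ∧ ¬ LL i.val X
    · rw [if_pos h, if_pos h]
      have h1 : Qa.chr a (slot hn i X) * Qa.chr a {vbit hn i} = Qa.chr a X := by
        simp only [Qa.chr, slot, Finset.prod_insert (vbit_not_mem hn h.1), Finset.prod_singleton]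
        have := ha (vbit hn i)
        linear_combination (∏ b ∈ X, a b) * this
      linear_combination eps hn t * Zc z 1 (slot hn i X) * Zc z 0 {vbit hn i} * h1
    · rw [if_neg h, if_neg h]
      simp

lemma hval_flipC (i : Fin r) :
    hval hn t g τ (flipC a z) i = Qa.flip a ha (hval hn t g τ z i) := by
  simp only [hval, map_add, map_smul, refG_flipC hn t z ha]
  rw [Qa.evP_flip]
  congr 3
  funext c
  exact gen_flipC t z ha c

include ha in
/-- Sign changes send zeros to zeros. -/
lemma eqs_flipC (h : eqs hn t g τ z = 0) : eqs hn t g τ (flipC a z) = 0 := by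
  funext k
  have hk := congrFun h k
  rcases k with b | ⟨b, φ⟩ | ⟨i, X⟩
  · rw [← hk]
    simp only [eqs, Zc_flipC, mul_pow, sq (Qa.chr a _), Qa.chr_mul_self ha, one_mul]
  · simp only [eqs, Pi.zero_apply] at hk ⊢
    split_ifs with hφ
    · rw [if_pos hφ] at hk
      have ho : orthV t (flipC a z) b φ = Qa.chr a φ * orthV t z b φ := by
        simp only [orthV, Finset.mul_sum]
        refine Finset.sum_congr rfl fun c _ => Finset.sum_congr rfl fun X _ => ?_
        have e1 : Qa.mk (low b (Zc (flipC a z) c)) = Qa.flip a ha (Qa.mk (low b (Zc z c)) : Qa t) := by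
          ext Y
          simp only [Qa.coef_flip, Qa.coef_mk, low, Zc_flipC]
          split_ifs <;> simp
        have e2 : Qa.flip a ha (Qa.E t φ) = Qa.chr a φ • Qa.E t φ := by
          ext Y
          simp only [Qa.coef_flip, Qa.coef_smul, Qa.coef_E]
          split_ifs with hY <;> simp [hY]
        have e3 : Qa.E t φ * Qa.mk (low b (Zc (flipC a z) c)) -
            Qa.mk (low b (Zc (flipC a z) c)) * Qa.E t φ =
            Qa.chr a φ • Qa.flip a ha (Qa.E t φ * Qa.mk (low b (Zc z c)) -
              Qa.mk (low b (Zc z c)) * Qa.E t φ) := by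
          rw [map_sub, map_mul, map_mul, e2, ← e1, smul_sub, smul_mul_assoc, mul_smul_comm,
            smul_smul, smul_smul, Qa.chr_mul_self ha, one_smul, one_smul]
        rw [e3, Qa.coef_smul, Qa.coef_flip, Zc_flipC]
        linear_combination Qa.chr a φ * (Qa.E t φ * Qa.mk (low b (Zc z c)) -
          Qa.mk (low b (Zc z c)) * Qa.E t φ).coef X * Zc z c X * Qa.chr_mul_self ha X
      rw [ho, Zc_flipC]
      linear_combination Qa.chr a φ * hk
    · rfl
  · simp only [eqs, Pi.zero_apply] at hk ⊢
    rw [hval_flipC hn t g τ z ha, ← Qa.npol_flip, Qa.coef_flip, hk, mul_zero]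

end

end Vale.Agent.P199.Cex
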