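import Vale.Agent.P199.Cex.Cluster
import Vale.Agent.P199.Cex.Natural
import Vale.Agent.P199.Cex.GoodBasic
import Vale.Agent.P199.Cex.GoodDomain
import Vale.Agent.P199.Cex.GrowthValued

/-!
P199, counterexample: over a good field the zeros of the reference system are the sign changes of
one point (`NOTES.md`, section 4 (i)).
-/

open scoped Classical symmDiff
open IsLocalRing (residue ResidueField)

namespace Vale.Agent.P199.Cex

noncomputable section

variable {n r : ℕ}

/-- The reference point: all multipliers one, all other coordinates zero. -/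
def refPt {K : Type} [CommRing K] (j : Coord n r) : K := if j.1.1 = 0 then 1 else 0

lemma Zc_zero_card {K : Type} [CommRing K] (z : Coord n r → K) {X : Finset (Fin n)}
    (h : X.card ≠ 1) : Zc z 0 X = 0 :=
  dif_neg fun hu => by
    rcases hu with ⟨-, hu⟩ | ⟨hu, -⟩ | ⟨hu, -⟩
    · exact h hu
    · exact absurd hu (by simp)
    · exact absurd hu (by simp)

lemma exists_topEq {X : Finset (Fin n)} (h : X.Nonempty) : ∃ b, TopEq b X :=
  ⟨X.max' h, X.max'_mem h, fun c hc => X.le_max' c hc⟩

/-- At the parameter one the last family of coordinates vanishes. -/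
lemma Zc_two_eq_zero {K : Type} [CommRing K] [Algebra ℚ K] (hn : 2 * r + 2 ≤ n) {t : Fin n → K}
    {g : ℕ → TP} {z : Coord n r → K} (h : eqs hn t g 1 z = 0) (φ : Finset (Fin n)) :
    Zc z 2 φ = 0 := by
  rcases φ.eq_empty_or_nonempty with rfl | hφ
  · exact Zc_empty z 2
  · obtain ⟨b, hb⟩ := exists_topEq hφ
    simpa [eqs, hb] using congrFun h (.inr (.inl (b, φ)))

lemma hval_one {K : Type} [CommRing K] [Algebra ℚ K] (hn : 2 * r + 2 ≤ n) (t : Fin n → K)
    (g : ℕ → TP) (z : Coord n r → K) (i : Fin r) : hval hn t g 1 z i = refG hn t z i := by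
  simp [hval]

/-- A valuation ring with residue field of characteristic zero contains `ℚ`. -/
lemma rat_mem {k : Type} [Field k] [CharZero k] [Algebra ℚ k] (O : ValuationSubring k)
    [CharZero (ResidueField O)] (q : ℚ) : (algebraMap ℚ k q) ∈ O := by
  have hden : IsUnit ((q.den : ℕ) : O) := by
    rw [← IsLocalRing.residue_ne_zero_iff_isUnit, map_natCast]
    exact Nat.cast_ne_zero.2 q.den_nz
  obtain ⟨v, hv⟩ := hden.exists_left_inv
  have hv' : (v : k) * (q.den : k) = 1 := by
    simpa using congrArg (Subtype.val : O → k) hv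
  have : algebraMap ℚ k q = (q.num : k) * (v : k) := by
    rw [eq_ratCast, Rat.cast_def, div_eq_iff (Nat.cast_ne_zero.2 q.den_nz)]
    linear_combination (-(q.num : k)) * hv'
  rw [this]
  exact O.mul_mem _ _ (intCast_mem O q.num) v.2

section Integral

variable {m : ℕ} (hn : 2 * r + 2 ≤ m + 1) {k : Type} [Field k] (O : ValuationSubring k)
  [Algebra ℚ O] [Algebra ℚ (ResidueField O)]

/-- An integral constraint at the reference is trivial. -/
lemma slotPart_eq_zero (t : Fin (m + 1) → O)
    (hdom : ∀ a b : Qa (fun b : Fin m => residue O (t b.castSucc)), a ≠ 0 → b ≠ 0 → a * b ≠ 0)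
    (ht : residue O (eps hn t) = 0) (ht0 : eps hn t ≠ 0) (z : Coord (m + 1) r → O) (i : Fin r)
    (hd : ∀ b ∈ Qa.evenBits (m + 1) (i.val + 1), residue O (Zc z 0 {b}) ≠ 0)
    (h : npol Qa.tau (2 ^ (i.val + 1)) (refG hn t z i) = 0) : slotPart hn t z i = 0 := by
  by_contra hne
  set s := slotPart hn t z i
  set c := eps hn t • s with hc
  have hne' : ∃ X, (c.coef X : k) ≠ 0 := by
    by_contra hall
    push Not at hall
    refine hne (Qa.ext fun X => ?_)
    have h1 : c.coef X = 0 := Subtype.ext (hall X)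
    rw [hc, Qa.coef_smul] at h1
    exact (mul_eq_zero.1 h1).resolve_left ht0
  obtain ⟨g, X₀, y, hg, hy, hxy⟩ := exists_primitive O (fun X => (c.coef X : k)) hne'
  set d := c.coef X₀ with hd'
  have hgd : g = (d : k) := by rw [hd', hxy X₀, hy]; simp
  have hcy : c = d • (Qa.mk y : Qa t) := Qa.ext fun X => Subtype.ext (by simp [hxy X, hgd])
  have hd0 : d ≠ 0 := fun e => hg (by simp [hgd, e])
  have hdm : residue O d = 0 := by
    rw [hd', hc, Qa.coef_smul, map_mul, ht, zero_mul]
  let Q := O ⧸ Ideal.span {d ^ 2}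
  let f : O →+* Q := Ideal.Quotient.mk _
  set D := dpol Qa.tau (2 ^ (i.val + 1)) (kap t z i.val) with hD
  have hrc : Qa.mapQ f c =
      eps hn (fun b => f (t b)) • slotPart hn (fun b => f (t b)) (fun j => f (z j)) i := by
    ext X
    simp only [hc, s, slotPart, eps, Qa.coef_mapQ, Qa.coef_smul, Qa.coef_mk, Zc_map, map_mul]
    split_ifs <;> simp
  have hk : Qa.mapQ f (kap t z i.val) = kap (fun b => f (t b)) (fun j => f (z j)) i.val := by
    ext X
    simp only [kap, Qa.coef_mapQ, Qa.coef_mk, Zc_map]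
    split_ifs <;> simp
  have hsq : ∀ X Y, (Qa.mapQ f c).coef X * (Qa.mapQ f c).coef Y = 0 := fun X Y => by
    rw [Qa.coef_mapQ, Qa.coef_mapQ, ← map_mul, hcy, Qa.coef_smul, Qa.coef_smul]
    refine Ideal.Quotient.eq_zero_iff_mem.2 (Ideal.mem_span_singleton.2 ?_)
    exact ⟨y X * y Y, by simp; ring⟩
  have hDc : Qa.mapQ f (D * c) = 0 := by
    have h1 := congrArg (Qa.mapQ f) h
    rw [Qa.npol_mapQ, refG_map, map_zero, npol_refG hn _ i (by rwa [hrc] at hsq)] at h1
    rw [map_mul, hD, dpol_map f (Qa.mapQ f) (Qa.mapQ_smul f) (Qa.tau_mapQ f), hk, hrc]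
    exact h1
  have hres : Qa.mapQ (residue O) D * Qa.mapQ (residue O) (Qa.mk y) = 0 := by
    ext X
    rw [← map_mul, Qa.coef_mapQ, Qa.coef_zero]
    have h1 := congrArg (fun a => Qa.coef a X) hDc
    simp only [Qa.coef_mapQ, Qa.coef_zero] at h1
    obtain ⟨q, hq⟩ := Ideal.mem_span_singleton.1 (Ideal.Quotient.eq_zero_iff_mem.1 h1)
    rw [hcy, mul_smul_comm, Qa.coef_smul, sq, mul_assoc] at hq
    rw [mul_left_cancel₀ hd0 hq, map_mul, hdm, zero_mul]
  have hU : IsUnit (Qa.mapQ (residue O) D) := by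
    rw [hD, dpol_map (residue O) (Qa.mapQ _) (Qa.mapQ_smul _) (Qa.tau_mapQ _), kap_eq,
      Qa.mapQ_kapA]
    exact Qa.isUnit_dpol_kapA_succ (fun b => residue O (t b)) hdom (by omega)
      (fun b => residue O (Zc z 0 {b})) hd
  have := congrArg (fun a => Qa.coef a X₀) (hU.mul_right_eq_zero.1 hres)
  simp [hy] at this

end Integral

/-- Over a good field the zeros at the parameter one are one orbit. -/
theorem refOrbit (hn : 2 * r + 2 ≤ n) {k : Type} [Field k] [Algebra ℚ k] {t : Fin n → k}
    (hG : Good n k t) (g : ℕ → TP) {z : Coord n r → k} (h : eqs hn t g 1 z = 0) :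
    ∃ a : Fin n → k, (∀ b, a b ^ 2 = 1) ∧ z = flipC a refPt := by
  obtain ⟨m, rfl⟩ : ∃ m, n = m + 1 := ⟨n - 1, by omega⟩
  have hne := (goodExists.1 _ _ _ _ hG).2
  obtain ⟨O, _, t', ht', -, ⟨π, e, hπ, hassoc⟩, hres⟩ := hG
  have := (goodExists.1 _ _ _ _ hres).1
  have : CharZero (ResidueField O) := charZero_of_formallyReal
  have : CharZero k := charZero_of_injective_ringHom (algebraMap ℚ k).injective
  let : Algebra ℚ O := ((algebraMap ℚ k).codRestrict O.toSubring (rat_mem O)).toAlgebra
  obtain rfl : (fun b => (t' b : k)) = t := funext ht'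
  have hw := Zc_two_eq_zero hn h
  have hsph := (eqs_zero_sphere hn _ g _ h).2
  have hint : ∀ j, z j ∈ O := fun j => by
    obtain ⟨b, hb⟩ := exists_topEq j.2.nonempty
    have h1 := hsph b
    rw [← Finset.sum_product'] at h1
    have := mem_of_sum_sq_eq_one O (x := fun p : Fin 3 × _ => Zc z p.1 p.2) h1
      (i := j.1) (by simpa using hb)
    rwa [Zc_of_used z j.2] at this
  obtain ⟨zO, rfl⟩ : ∃ zO : Coord (m + 1) r → O, (fun j => (zO j : k)) = z :=
    ⟨fun j => ⟨z j, hint j⟩, rfl⟩
  have hO : ∀ i : Fin r, npol Qa.tau (2 ^ (i.val + 1)) (refG hn t' zO i) = 0 := fun i => by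
    ext X
    have h1 := congrFun h (.inr (.inr (i, X)))
    have h2 := eqs_map hn t' O.subtype g 1 zO (.inr (.inr (i, X)))
    simp only [ValuationSubring.coe_subtype, OneMemClass.coe_one] at h2
    rw [h1, eqs, hval_one] at h2
    simpa using h2
  have hkey : ∀ b : Fin (m + 1), Zc (fun j => (zO j : k)) 0 {b} ^ 2 = 1 ∧
      ∀ X, TopEq b X → Zc (fun j => (zO j : k)) 1 X = 0 := by
    intro b
    induction b using WellFoundedLT.induction with
    | _ b ih =>
      have hy : ∀ X, TopEq b X → Zc (fun j => (zO j : k)) 1 X = 0 := by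
        intro X hX
        by_cases hu : Used r ((1 : Fin 3), X)
        swap; · exact dif_neg hu
        obtain ⟨i, hi, hcode⟩ : ∃ i < r, Code i X := by
          rcases hu with ⟨hu, -⟩ | ⟨-, hu⟩ | ⟨hu, -⟩
          · exact absurd hu (by simp)
          · exact hu
          · exact absurd hu (by simp)
        obtain ⟨Z, hZ, hL, rfl⟩ := (show Code (⟨i, hi⟩ : Fin r).val X from hcode).eq_slot hn
        obtain ⟨c, hc, hvc⟩ := exists_gt hn hZ hL
        have hvb : vbit hn ⟨i, hi⟩ < b := hvc.trans_le (((topEq_slot hn hZ hL).1 hX).2 c hc)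
        have hd : ∀ c ∈ Qa.evenBits (m + 1) (i + 1), residue O (Zc zO 0 {c}) ≠ 0 := by
          intro c hc
          have hcb : c < b := by
            simp only [Qa.evenBits, Finset.mem_filter] at hc
            simp only [Fin.lt_def, vbit] at hvb ⊢
            omega
          have h1 := (ih c hcb).1
          rw [show (fun j => (zO j : k)) = (fun j => O.subtype (zO j)) from rfl, Zc_map,
            ← map_pow] at h1
          have h2 : Zc zO 0 {c} ^ 2 = 1 := Subtype.ext h1
          intro h0
          have := congrArg (residue O) h2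
          simp [h0] at this
        have hs := slotPart_eq_zero hn O t' (goodDomain m _ _ _ hres) ?_ ?_ zO ⟨i, hi⟩ hd
          (hO ⟨i, hi⟩)
        · have h1 := congrArg (fun a : Qa t' => ((a.coef Z : O) : k)) hs
          simp only [slotPart, Qa.coef_mk, Qa.coef_zero, ZeroMemClass.coe_zero] at h1
          rw [if_pos ⟨hZ, hL⟩] at h1
          push_cast at h1
          rw [show (fun j => (zO j : k)) = (fun j => O.subtype (zO j)) from rfl, Zc_map]
          refine (mul_eq_zero.1 h1).resolve_right fun h0 => ?_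
          have h2 := (ih _ hvb).1
          rw [show (fun j => (zO j : k)) = (fun j => O.subtype (zO j)) from rfl, Zc_map] at h2
          simp [h0] at h2
        · show residue O (t' ⟨m + 1 - 1, by omega⟩) = 0
          obtain ⟨u, hu'⟩ := hassoc.symm
          have hlast : (⟨m + 1 - 1, by omega⟩ : Fin (m + 1)) = Fin.last m := Fin.ext (by simp)
          rw [hlast, ← hu', map_mul, map_pow, (IsLocalRing.residue_eq_zero_iff π).2
            ((IsLocalRing.mem_maximalIdeal _).2 hπ.not_isUnit), zero_pow (by omega), zero_mul]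
        · exact fun h0 => hne _ (congrArg Subtype.val h0)
      refine ⟨?_, hy⟩
      have h1 := hsph b
      rw [Fin.sum_univ_three, Finset.sum_eq_single {b}, Finset.sum_eq_zero, Finset.sum_eq_zero,
        add_zero, add_zero] at h1
      · exact h1
      · intro X _; simp [hw X]
      · intro X hX; simp [hy X (Finset.mem_filter.1 hX).2]
      · intro X hX hXb
        rw [Zc_zero_card _ fun hc => hXb ?_, zero_pow two_ne_zero]
        obtain ⟨c, rfl⟩ := Finset.card_eq_one.1 hc
        simpa [eq_comm] using (Finset.mem_filter.1 hX).2.1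
      · intro hX
        exact absurd (Finset.mem_filter.2 ⟨Finset.mem_univ _, Finset.mem_singleton_self b,
          fun c hc => (Finset.mem_singleton.1 hc).le⟩) hX
  refine ⟨fun b => Zc (fun j => (zO j : k)) 0 {b}, fun b => (hkey b).1, funext fun j => ?_⟩
  obtain ⟨⟨a, X⟩, hj⟩ := j
  rw [← Zc_of_used (fun j => (zO j : k)) hj]
  simp only [flipC, refPt, chC, Qa.chr]
  rcases hj with ⟨ha, hc⟩ | ⟨ha, i, -, hc⟩ | ⟨ha, hc⟩ <;> obtain rfl : a = _ := ha
  · obtain ⟨c, rfl⟩ := Finset.card_eq_one.1 hc
    simp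
  · obtain ⟨b, hb⟩ := exists_topEq hc.nonempty
    simp [(hkey b).2 X hb]
  · simp [hw X]

end

end Vale.Agent.P199.Cex
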