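import Vale.Agent.P199.Cex.Natural
import Vale.Agent.P199.Cex.RefOrbit

/-!
P199, counterexample: the square system near the reference point. A constraint is replaced by a
conjugation `h (1 + U) = (1 + U) (κ + M)` with auxiliary unknowns `U`, `M` (`NOTES.md`, 4 (ii)).
-/

open scoped Classical symmDiff

namespace Vale.Agent.P199.Cex

noncomputable section

/-- The auxiliary unknowns. -/
abbrev Aux (n r : ℕ) : Type :=
  {p : Fin r × Finset (Fin n) // ¬ CC p.1.val p.2 ∨ LL p.1.val p.2}

/-- The unknowns of the square system. -/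
abbrev Var (n r : ℕ) : Type := Coord n r ⊕ Aux n r

variable {n r : ℕ}

section Ring

variable {K : Type} [CommRing K] (hn : 2 * r + 2 ≤ n) (t : Fin n → K)

/-- The part off the centraliser. -/
def auxU (u : Aux n r → K) (i : Fin r) : Qa t :=
  Qa.mk fun X => if h : ¬ CC i.val X then u ⟨(i, X), Or.inl h⟩ else 0

/-- The part in the commuting even bits. -/
def auxM (u : Aux n r → K) (i : Fin r) : Qa t :=
  Qa.mk fun X => if h : LL i.val X then u ⟨(i, X), Or.inr h⟩ else 0

variable [Algebra ℚ K]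

/-- The conjugation equation of the `i`-th constraint. -/
def chartQ (g : ℕ → TP) (τ : K) (v : Var n r → K) (i : Fin r) : Qa t :=
  hval hn t g τ (fun j => v (.inl j)) i * (1 + auxU t (fun p => v (.inr p)) i) -
    (1 + auxU t (fun p => v (.inr p)) i) *
      (kap t (fun j => v (.inl j)) i.val + auxM t (fun p => v (.inr p)) i)

/-- The square system. -/
def chartEq (g : ℕ → TP) (τ : K) (v : Var n r → K) : Var n r → K
  | .inl j =>
    if j.1.1 = 0 then ∑ b ∈ chC j, eqs hn t g τ (fun c => v (.inl c)) (.inl b)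
    else if j.1.1 = 1 then ∑ i : Fin r,
      if Code i.val (chC j) then (chartQ hn t g τ v i).coef ((chC j).erase (vbit hn i)) else 0
    else ∑ b, eqs hn t g τ (fun c => v (.inl c)) (.inr (.inl (b, chC j)))
  | .inr p => (chartQ hn t g τ v p.1.1).coef p.1.2

lemma chartQ_map {L : Type} [CommRing L] [Algebra ℚ L] (f : K →+* L) (g : ℕ → TP) (τ : K)
    (v : Var n r → K) (i : Fin r) : Qa.mapQ f (chartQ hn t g τ v i) =
      chartQ hn (fun b => f (t b)) g (f τ) (fun j => f (v j)) i := by
  have hU : Qa.mapQ f (auxU t (fun p => v (.inr p)) i) =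
      auxU (fun b => f (t b)) (fun p => f (v (.inr p))) i := by
    ext X
    simp only [auxU, Qa.coef_mapQ, Qa.coef_mk]
    split_ifs <;> simp
  have hM : Qa.mapQ f (auxM t (fun p => v (.inr p)) i) =
      auxM (fun b => f (t b)) (fun p => f (v (.inr p))) i := by
    ext X
    simp only [auxM, Qa.coef_mapQ, Qa.coef_mk]
    split_ifs <;> simp
  have hk : Qa.mapQ f (kap t (fun j => v (.inl j)) i.val) =
      kap (fun b => f (t b)) (fun j => f (v (.inl j))) i.val := by
    ext X
    simp only [kap, Qa.coef_mapQ, Qa.coef_mk, Zc_map]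
    split_ifs <;> simp
  simp only [chartQ, map_sub, map_mul, map_add, map_one, hval_map, hU, hM, hk]

lemma chartEq_map {L : Type} [CommRing L] [Algebra ℚ L] (f : K →+* L) (g : ℕ → TP) (τ : K)
    (v : Var n r → K) (w : Var n r) : f (chartEq hn t g τ v w) =
      chartEq hn (fun b => f (t b)) g (f τ) (fun j => f (v j)) w := by
  rcases w with j | p
  · simp only [chartEq, apply_ite f, map_sum, eqs_map hn t f, map_zero, ← Qa.coef_mapQ,
      chartQ_map hn t f]
  · simp only [chartEq, ← Qa.coef_mapQ, chartQ_map hn t f]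

lemma used_singleton (b : Fin n) : Used r ((0 : Fin 3), ({b} : Finset (Fin n))) :=
  Or.inl ⟨rfl, Finset.card_singleton b⟩

/-- A zero of the square system satisfies all the conjugation equations. -/
lemma chartEq_zero {g : ℕ → TP} {τ : K} {v : Var n r → K} (h : ∀ w, chartEq hn t g τ v w = 0) :
    (∀ b, eqs hn t g τ (fun c => v (.inl c)) (.inl b) = 0) ∧
      (∀ p, eqs hn t g τ (fun c => v (.inl c)) (.inr (.inl p)) = 0) ∧
        ∀ i, chartQ hn t g τ v i = 0 := by
  refine ⟨fun b => ?_, fun ⟨b, φ⟩ => ?_, fun i => Qa.ext fun X => ?_⟩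
  · simpa [chartEq, chC] using h (.inl ⟨((0 : Fin 3), {b}), used_singleton b⟩)
  · by_cases hb : TopEq b φ
    · have h1 := h (.inl ⟨((2 : Fin 3), φ), Or.inr (Or.inr ⟨rfl, ⟨b, hb.1⟩⟩)⟩)
      simp only [chartEq, chC, if_neg (show (2 : Fin 3) ≠ 0 by decide),
        if_neg (show (2 : Fin 3) ≠ 1 by decide)] at h1
      rwa [Finset.sum_eq_single b (fun c _ hc => ?_) (by simp)] at h1
      exact if_neg fun hc' => hc (le_antisymm (hb.2 c hc'.1) (hc'.2 b hb.1))
    · simp [eqs, hb]
  · by_cases hX : CC i.val X ∧ ¬ LL i.val X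
    · have hc := code_slot hn hX.1 hX.2
      have h1 := h (.inl ⟨((1 : Fin 3), slot hn i X), Or.inr (Or.inl ⟨rfl, i.val, i.isLt, hc⟩)⟩)
      simp only [chartEq, chC, if_neg (show (1 : Fin 3) ≠ 0 by decide),
        ↓reduceIte] at h1
      rw [Finset.sum_eq_single i (fun j _ hj => if_neg fun hj' => hj (Fin.ext (hj'.inj hc)))
        (by simp), if_pos hc, slot, Finset.erase_insert (vbit_not_mem hn hX.1)] at h1
      simpa using h1
    · simpa [chartEq] using h (.inr ⟨(i, X), (not_and_or.1 hX).imp_right not_not.1⟩)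

/-- A zero of the square system with invertible conjugators is a zero of the equations. -/
lemma eqs_of_chart {g : ℕ → TP} {τ : K} {v : Var n r → K}
    (h : ∀ w, chartEq hn t g τ v w = 0)
    (hu : ∀ i, IsUnit (1 + auxU t (fun p => v (.inr p)) i)) :
    eqs hn t g τ (fun c => v (.inl c)) = 0 := by
  obtain ⟨h1, h2, h3⟩ := chartEq_zero hn t h
  funext k
  rcases k with b | p | ⟨i, X⟩
  · exact h1 b
  · exact h2 p
  · have hk : npol Qa.tau (2 ^ (i.val + 1))
        (kap t (fun c => v (.inl c)) i.val + auxM t (fun p => v (.inr p)) i) = 0 := by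
      refine Qa.npol_span (by omega) _ fun Y hY b hb => ?_
      by_contra hb'
      have hL : ¬ LL i.val Y := fun hL => hb' (hL b hb)
      exact hY (by simp [kap, auxM, hL])
    have h4 := (npol_intertwine Qa.tau_mul_comm (hu i) (sub_eq_zero.1 (h3 i))).2 (2 ^ (i.val + 1))
    rw [hk, mul_zero] at h4
    simp only [eqs, Pi.zero_apply]
    rw [(hu i).mul_left_eq_zero.1 h4, Qa.coef_zero]

end Ring

/-- An element that is one modulo the kernel of a local homomorphism is a unit. -/
lemma Qa.isUnit_of_map {K L : Type*} [CommRing K] [CommRing L] (f : K →+* L) [IsLocalHom f]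
    {t : Fin n → K} {a : Qa t} (h : Qa.mapQ f a = 1) : IsUnit a := by
  let M : Matrix (Finset (Fin n)) (Finset (Fin n)) K :=
    Matrix.of fun Z Y => (a * Qa.E t Y).coef Z
  have hM : M.map f = 1 := by
    ext Z Y
    have := congrArg (fun b => Qa.coef b Z) (map_mul (Qa.mapQ f) a (Qa.E t Y))
    simp only [h, one_mul, Qa.mapQ_E, Qa.coef_mapQ, Qa.coef_E] at this
    simp [M, this, Matrix.one_apply]
  have hdet : IsUnit M.det := by
    refine isUnit_of_map_unit f _ ?_
    rw [RingHom.map_det, RingHom.mapMatrix_apply, hM, Matrix.det_one]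
    exact isUnit_one
  have hbij : Function.Bijective (LinearMap.mulLeft K a) := by
    have hmul : ∀ b, LinearMap.mulLeft K a b = Qa.mk (M.mulVec fun Y => b.coef Y) := fun b => by
      ext Z
      conv_lhs => rw [LinearMap.mulLeft_apply, ← Qa.sum_coef_smul b]
      simp [Finset.mul_sum, M, Matrix.mulVec, dotProduct, mul_comm]
    have hb : Function.Bijective M.mulVec :=
      Function.bijective_iff_has_inverse.2 ⟨M⁻¹.mulVec,
        fun x => by rw [Matrix.mulVec_mulVec, Matrix.nonsing_inv_mul M hdet, Matrix.one_mulVec],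
        fun x => by rw [Matrix.mulVec_mulVec, Matrix.mul_nonsing_inv M hdet, Matrix.one_mulVec]⟩
    refine ⟨fun b c hbc => ?_, fun c => ?_⟩
    · rw [hmul, hmul] at hbc
      exact Qa.ext fun Z => congrFun (hb.1 (funext fun W => congrArg (fun x => Qa.coef x W) hbc)) Z
    · obtain ⟨b, hb'⟩ := hb.2 fun Y => c.coef Y
      exact ⟨Qa.mk b, by rw [hmul]; exact Qa.ext fun Z => congrFun hb' Z⟩
  obtain ⟨b, hb⟩ := hbij.2 1
  have hab : a * b = 1 := hb
  have hba : b * a = 1 := hbij.1 (by simp [← mul_assoc, hab])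
  exact ⟨⟨a, b, hab, hba⟩, rfl⟩

/-- Off the centraliser the commutator with a generic element of the even bits is injective. -/
lemma Qa.eq_zero_of_commute {F : Type*} [Field F] [Algebra ℚ F] {t : Fin n → F}
    (hdom : ∀ a b : Qa t, a ≠ 0 → b ≠ 0 → a * b ≠ 0) {i : ℕ} (a : Fin n → F)
    (ha : ∀ b ∈ Qa.evenBits n (i + 1), a b ≠ 0) {u : Qa t}
    (hu : ∀ X, CC i X → u.coef X = 0)
    (h : Qa.kapA t a (i + 1) * u = u * Qa.kapA t a (i + 1)) : u = 0 := by
  ext X₀
  by_cases hX₀ : CC i X₀
  · exact hu _ hX₀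
  set A := (Qa.evenBits n (i + 1)).filter fun b => ∃ d ∈ X₀, d.val = b.val + 1 with hA
  let P : Finset (Fin n) → Prop := fun X =>
    ∀ b ∈ Qa.evenBits n (i + 1), (∃ d ∈ X, d.val = b.val + 1) ↔ b ∈ A
  have hP0 : P X₀ := fun b hb => by simp [hA, hb]
  have hPsymm : ∀ b ∈ Qa.evenBits n (i + 1), ∀ X, P ({b} ∆ X) ↔ P X := by
    intro b hb X
    refine forall₂_congr fun c hc => iff_congr ?_ Iff.rfl
    simp only [Qa.evenBits, Finset.mem_filter] at hb hc
    constructor <;> rintro ⟨d, hd, he⟩ <;> refine ⟨d, ?_, he⟩ <;>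
      have hne : d ≠ b := fun e => by subst e; omega
    · simpa [Finset.mem_symmDiff, hne] using hd
    · simpa [Finset.mem_symmDiff, hne] using hd
  set w : Qa t := Qa.mk fun X => if P X then u.coef X else 0 with hw
  set s : Qa t := ∑ b ∈ A, a b • Qa.E t {b} with hs
  have hsw : s * w = 0 := by
    ext X
    simp only [hs, Finset.sum_mul, Qa.coef_sum, smul_mul_assoc, Qa.coef_smul, Qa.coef_E_mul, hw,
      Qa.coef_mk, Qa.coef_zero]
    by_cases hX : P X
    swap
    · exact Finset.sum_eq_zero fun b hb => by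
        rw [if_neg ((hPsymm b (Finset.mem_filter.1 hb).1 X).not.2 hX)]
        simp
    have h1 := congrArg (fun x => Qa.coef x X) h
    simp only [Qa.kapA, Finset.sum_mul, Finset.mul_sum, Qa.coef_sum, smul_mul_assoc,
      mul_smul_comm, Qa.coef_smul, Qa.coef_E_mul, Qa.coef_mul_E] at h1
    rw [← sub_eq_zero, ← Finset.sum_sub_distrib, ← Finset.sum_filter_add_sum_filter_not _
      (fun b => b ∈ A), Finset.sum_eq_zero (s := Finset.filter (fun b => ¬ b ∈ A) _), add_zero,
      Finset.filter_mem_eq_inter,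
      Finset.inter_eq_right.2 (Finset.filter_subset _ _)] at h1
    · have h2 : (2 : F) ≠ 0 := by
        rw [← map_ofNat (algebraMap ℚ F)]
        exact (map_ne_zero _).2 two_ne_zero
      refine (mul_eq_zero.1 (Eq.trans ?_ h1)).resolve_left h2
      rw [Finset.mul_sum]
      refine Finset.sum_congr rfl fun b hb => ?_
      obtain ⟨hbB, -⟩ := Finset.mem_filter.1 hb
      have hPb := (hPsymm b hbB X).2 hX
      rw [if_pos hPb]
      obtain ⟨d, hd, hdb⟩ := (hPb b hbB).2 hb
      simp only [Qa.evenBits, Finset.mem_filter] at hbB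
      have e1 : (Qa.sgn ({b} ∆ X) {b} : F) = -1 := by
        rw [Qa.sgn, Finset.prod_eq_single d]
        · rw [if_pos ⟨hd, by omega, b, Finset.mem_singleton_self b, hdb.symm⟩]
        · intro c _ hc
          refine if_neg fun hc' => hc ?_
          obtain ⟨-, -, e, he, hec⟩ := hc'
          obtain rfl := Finset.mem_singleton.1 he
          exact Fin.ext (by omega)
        · simp
      have e2 : (Qa.sgn {b} ({b} ∆ X) : F) = 1 := Qa.sgn_of_even fun c hc => by
        obtain rfl := Finset.mem_singleton.1 hc; exact hbB.2.1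
      simp only [Qa.fac, e1, e2, Finset.inter_comm ({b} ∆ X)]
      ring
    · intro b hb
      obtain ⟨hbB, hbA⟩ := Finset.mem_filter.1 hb
      have hPb := (hPsymm b hbB X).2 hX
      simp only [Qa.evenBits, Finset.mem_filter] at hbB
      have e1 : (Qa.sgn ({b} ∆ X) {b} : F) = 1 := Finset.prod_eq_one fun c _ => if_neg fun hc => by
        obtain ⟨hc, -, e, he, hec⟩ := hc
        obtain rfl := Finset.mem_singleton.1 he
        exact hbA ((hPb e (by simp [Qa.evenBits, hbB.2])).1 ⟨c, hc, hec.symm⟩)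
      have e2 : (Qa.sgn {b} ({b} ∆ X) : F) = 1 := Qa.sgn_of_even fun c hc => by
        obtain rfl := Finset.mem_singleton.1 hc; exact hbB.2.1
      simp only [Qa.fac, e1, e2, Finset.inter_comm ({b} ∆ X)]
      ring
  obtain ⟨d, hd, hodd, hdle⟩ := not_cc.1 hX₀
  let b₀ : Fin n := ⟨d.val - 1, by omega⟩
  have hb₀ : b₀ ∈ A := Finset.mem_filter.2
    ⟨by simp [Qa.evenBits, b₀]; omega, d, hd, by simp [b₀]; omega⟩
  have hs0 : s ≠ 0 := fun e => by
    have h1 := congrArg (fun x => Qa.coef x {b₀}) e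
    simp only [hs, Qa.coef_sum, Qa.coef_smul, Qa.coef_E, Qa.coef_zero] at h1
    rw [Finset.sum_eq_single b₀ (fun c _ hc => by simp [Ne.symm hc]) (fun h => (h hb₀).elim)] at h1
    exact ha b₀ (Finset.mem_filter.1 hb₀).1 (by simpa using h1)
  have hw0 : w = 0 := by_contra fun hne => hdom s w hs0 hne hsw
  simpa [hw, hP0] using congrArg (fun x => Qa.coef x X₀) hw0

end

end Vale.Agent.P199.Cex
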