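import Vale.Agent.P199.Cex.Npol
import Vale.Agent.P199.Cex.System

/-!
P199, counterexample: the cluster lemma. To first order, a constraint at the reference is the
perturbation times a unit (`NOTES.md`, section 3).
-/

open scoped Classical symmDiff
open Finset

namespace Vale.Agent.P199.Cex

noncomputable section

section Generic

variable {K L A B : Type*} [CommRing K] [Algebra ℚ K] [CommRing L] [Algebra ℚ L] [Ring A]
  [Algebra K A] [Ring B] [Algebra L B]

/-- The derivative of the polynomial with prescribed power sums, at the element. -/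
def dpol (τ : A → K) (e : ℕ) (h : A) : A :=
  ∑ k ∈ range e, ((e - k : ℕ) : K) • coeffs (fun l => (e : K) * τ (h ^ l)) k • h ^ (e - k - 1)

lemma dpol_map (f : K →+* L) (φ : A →+* B) (hsmul : ∀ c a, φ (c • a) = f c • φ a)
    {τ : A → K} {τ' : B → L} (hτ : ∀ a, τ' (φ a) = f (τ a)) (e : ℕ) (h : A) :
    φ (dpol τ e h) = dpol τ' e (φ h) := by
  simp only [dpol, map_sum, hsmul, map_pow, coeffs_map f, map_mul, map_natCast]
  simp only [← map_pow, hτ]

omit [Algebra ℚ K] in
lemma add_pow_sq_zero {x c : A} (hc : c * c = 0) (hxc : Commute x c) (l : ℕ) :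
    (x + c) ^ l = x ^ l + (l : K) • (x ^ (l - 1) * c) := by
  induction l with
  | zero => simp
  | succ l ih =>
    rw [pow_succ, ih, add_mul, mul_add, mul_add, smul_mul_assoc, smul_mul_assoc, mul_assoc _ c c,
      hc, mul_zero, smul_zero, add_zero, ← pow_succ, mul_assoc _ c x, ← hxc.eq, ← mul_assoc,
      Nat.cast_succ, add_smul, one_smul, Nat.add_sub_cancel]
    rcases Nat.eq_zero_or_pos l with rfl | hl
    · simp
    · rw [← pow_succ, Nat.sub_add_cancel hl]
      abel

/-- `npol` to first order. -/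
lemma npol_add_sq_zero (τ : A →ₗ[K] K) {x c : A} (hc : c * c = 0) (hxc : Commute x c)
    (hτ : ∀ l : ℕ, τ (x ^ l * c) = 0) (e : ℕ) :
    npol τ e (x + c) = npol τ e x + dpol τ e x * c := by
  have ht : ∀ l, τ ((x + c) ^ l) = τ (x ^ l) := fun l => by
    rw [add_pow_sq_zero (K := K) hc hxc, map_add, map_smul, hτ, smul_zero, add_zero]
  simp only [npol, dpol, ht]
  simp only [add_pow_sq_zero (K := K) hc hxc, smul_add, Finset.sum_add_distrib]
  congr 1
  rw [Finset.sum_range_succ, Nat.sub_self, Nat.cast_zero, zero_smul, smul_zero, add_zero,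
    Finset.sum_mul]
  refine Finset.sum_congr rfl fun k _ => ?_
  rw [smul_mul_assoc, smul_mul_assoc, smul_comm]

end Generic

namespace Qa

variable {n : ℕ}

section Ring

variable {K : Type*} [CommRing K] {t : Fin n → K}

lemma mul_eq_zero_of_coef {a b : Qa t} (h : ∀ X Y, a.coef X * b.coef Y = 0) : a * b = 0 := by
  ext Z
  rw [coef_mul]
  exact Finset.sum_eq_zero fun X _ => by rw [h, zero_mul]

lemma mem_evenSub_iff {s : ℕ} {a : Qa t} :
    a ∈ evenSub t s ↔ ∀ X, ¬ X ⊆ evenBits n s → a.coef X = 0 :=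
  ⟨fun h X hX => by_contra fun e => hX (h X e), fun h X e => by_contra fun hX => e (h X hX)⟩

/-- The two sides of the centraliser commute. -/
lemma commute_of_cc {i : ℕ} {x c : Qa t} (hx : x ∈ evenSub t (i + 1))
    (hc : ∀ X, c.coef X ≠ 0 → CC i X) : Commute x c := by
  show x * c = c * x
  ext Z
  rw [coef_mul, coef_mul]
  refine Finset.sum_bij' (fun X _ => X ∆ Z) (fun X _ => X ∆ Z) (by simp) (by simp)
    (fun X _ => symmDiff_symmDiff_cancel_right Z X) (fun X _ => symmDiff_symmDiff_cancel_right Z X)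
    fun X _ => ?_
  rw [symmDiff_symmDiff_cancel_right]
  by_cases h1 : x.coef X = 0
  · simp [h1]
  by_cases h2 : c.coef (X ∆ Z) = 0
  · simp [h2]
  have e1 : ∀ b ∈ X, b.val % 2 = 0 ∧ b.val < 2 * (i + 1) := fun b hb => by
    simpa [evenBits] using hx X h1 hb
  have e2 : (sgn (X ∆ Z) X : K) = 1 := Finset.prod_eq_one fun b _ => if_neg fun h => by
    obtain ⟨hb, hodd, d, hd, hdb⟩ := h
    have := hc _ h2 b hb hodd
    have := e1 d hd
    omega
  simp only [fac, sgn_of_even fun b hb => (e1 b hb).1, e2, Finset.inter_comm X]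
  ring

/-- The sum of the first `s` even monomials with coefficients `a`. -/
def kapA (t : Fin n → K) (a : Fin n → K) (s : ℕ) : Qa t := ∑ b ∈ evenBits n s, a b • E t {b}

lemma coef_kapA_singleton (a : Fin n → K) {s : ℕ} {b : Fin n} (hb : b ∈ evenBits n s) :
    (kapA t a s).coef {b} = a b := by
  rw [kapA, coef_sum, Finset.sum_eq_single b]
  · simp
  · intro c _ hc; simp [Ne.symm hc]
  · exact fun h => (h hb).elim

lemma kapA_mem (a : Fin n → K) (s : ℕ) : kapA t a s ∈ evenSub t s := by
  refine mem_evenSub_iff.2 fun X hX => ?_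
  rw [kapA, coef_sum]
  refine Finset.sum_eq_zero fun b hb => ?_
  have : X ≠ {b} := fun e => hX (by simp [e, hb])
  simp [this]

lemma mapQ_kapA {L : Type*} [CommRing L] (f : K →+* L) (a : Fin n → K) (s : ℕ) :
    mapQ f (kapA t a s) = kapA (fun b => f (t b)) (fun b => f (a b)) s := by
  simp [kapA, map_sum, mapQ_smul]

lemma evenBits_castSucc {s : ℕ} (hs : 2 * s ≤ n) :
    evenBits (n + 1) s = (evenBits n s).map Fin.castSuccEmb := by
  ext b
  simp only [evenBits, Finset.mem_filter, Finset.mem_univ, true_and, Finset.mem_map]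
  constructor
  · intro h
    exact ⟨⟨b.val, by omega⟩, h, Fin.ext rfl⟩
  · rintro ⟨c, hc, rfl⟩
    exact hc

lemma castSuccHom_kapA (t' : Fin (n + 1) → K) (a : Fin (n + 1) → K) {s : ℕ} (hs : 2 * s ≤ n) :
    castSuccHom t' (kapA (fun b => t' b.castSucc) (fun b => a b.castSucc) s) = kapA t' a s := by
  simp [kapA, map_sum, evenBits_castSucc hs, up]

variable [Algebra ℚ K]

/-- The cluster lemma: `npol` near an element of `evenSub` is linear to first order. -/
theorem cluster {i : ℕ} (hi : 2 * (i + 1) ≤ n) {x c : Qa t} (hx : x ∈ evenSub t (i + 1))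
    (hc : c * c = 0) (hsupp : ∀ X, c.coef X ≠ 0 → CC i X ∧ ¬ LL i X) :
    npol tau (2 ^ (i + 1)) (x + c) = dpol tau (2 ^ (i + 1)) x * c := by
  have h := npol_add_sq_zero (tauL : Qa t →ₗ[K] K) hc
    (commute_of_cc hx fun X h => (hsupp X h).1) (fun l => ?_) (2 ^ (i + 1))
  · have h0 : npol tau (2 ^ (i + 1)) x = 0 :=
      npol_span hi x fun X hX b hb => by simpa [evenBits] using hx X hX hb
    calc npol tau (2 ^ (i + 1)) (x + c)
        = npol tau (2 ^ (i + 1)) x + dpol tau (2 ^ (i + 1)) x * c := h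
      _ = dpol tau (2 ^ (i + 1)) x * c := by rw [h0, zero_add]
  · rw [tauL_apply, tau_mul]
    refine Finset.sum_eq_zero fun X _ => ?_
    by_cases h1 : (x ^ l).coef X = 0
    · simp [h1]
    have h2 : c.coef X = 0 := by_contra fun h2 => (hsupp X h2).2 fun b hb => by
      simpa [evenBits] using pow_mem hx l X h1 hb
    simp [h2]

end Ring

section Field

variable {F : Type*} [Field F] {t : Fin n → F}

/-- In a finite-dimensional algebra without zero divisors non-zero elements are units. -/
lemma isUnit_of_domain (hdom : ∀ a b : Qa t, a ≠ 0 → b ≠ 0 → a * b ≠ 0) {a : Qa t} (ha : a ≠ 0) :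
    IsUnit a := by
  have hinj : Function.Injective (LinearMap.mulLeft F a) := by
    rw [← LinearMap.ker_eq_bot, LinearMap.ker_eq_bot']
    exact fun b hb => by_contra fun h => hdom a b ha h hb
  obtain ⟨b, hb⟩ := (LinearMap.injective_iff_surjective.1 hinj) 1
  have hab : a * b = 1 := hb
  have hba : b * a = 1 := by
    refine sub_eq_zero.1 (hinj ?_)
    simp [mul_sub, ← mul_assoc, hab]
  exact ⟨⟨a, b, hab, hba⟩, rfl⟩

variable [Algebra ℚ F]

/-- The derivative at a generic element of the commuting even bits is a unit. -/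
theorem isUnit_dpol_kapA (hdom : ∀ a b : Qa t, a ≠ 0 → b ≠ 0 → a * b ≠ 0) {s : ℕ}
    (hs : 2 * s ≤ n) (a : Fin n → F) (ha : ∀ b ∈ evenBits n s, a b ≠ 0) :
    IsUnit (dpol tau (2 ^ s) (kapA t a s)) := by
  have h := npol_deriv hs ⟨kapA t a s, kapA_mem a s⟩
  rw [show dpol tau (2 ^ s) (kapA t a s) = _ from h]
  refine isUnit_of_domain hdom ?_
  rw [Ne, ZeroMemClass.coe_eq_zero]
  have hnz : NoZeroDivisors (evenSub t s) := ⟨fun {p q} hpq => by
    by_contra hne
    obtain ⟨hp, hq⟩ := not_or.1 hne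
    exact hdom p q (fun e => hp (Subtype.ext e)) (fun e => hq (Subtype.ext e))
      (congrArg Subtype.val hpq)⟩
  have : Nontrivial (evenSub t s) :=
    ⟨0, 1, fun e => by simpa using congrArg (fun v : evenSub t s => (v : Qa t).coef ∅) e⟩
  refine Finset.prod_ne_zero_iff.2 fun A hA e => ?_
  obtain ⟨hA0, hAB⟩ := Finset.mem_erase.1 hA
  obtain ⟨b, hb⟩ := Finset.nonempty_iff_ne_empty.2 hA0
  have hbB := Finset.mem_powerset.1 hAB hb
  have e' := congrArg (fun v : evenSub t s => (v : Qa t).coef {b}) e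
  simp [coef_kapA_singleton a hbB, chr, sgnVec, hb] at e'
  have h2 : (2 : F) ≠ 0 := by
    rw [← map_ofNat (algebraMap ℚ F)]
    exact (map_ne_zero _).2 two_ne_zero
  exact ha b hbB ((mul_eq_zero.1 (show (2 : F) * a b = 0 by linear_combination e')).resolve_left h2)

/-- The same one bit higher, where the top parameter may vanish. -/
theorem isUnit_dpol_kapA_succ (t' : Fin (n + 1) → F)
    (hdom : ∀ a b : Qa (fun b => t' b.castSucc), a ≠ 0 → b ≠ 0 → a * b ≠ 0) {s : ℕ}
    (hs : 2 * s ≤ n) (a : Fin (n + 1) → F) (ha : ∀ b ∈ evenBits (n + 1) s, a b ≠ 0) :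
    IsUnit (dpol tau (2 ^ s) (kapA t' a s)) := by
  have h := (isUnit_dpol_kapA hdom hs (fun b => a b.castSucc) fun b hb =>
    ha _ (by rw [evenBits_castSucc hs]; exact Finset.mem_map_of_mem _ hb)).map (castSuccHom t')
  have hmap := dpol_map (RingHom.id F) (castSuccHom t').toRingHom
    (fun c x => map_smul (castSuccHom t') c x) (τ := tau) (τ' := tau)
    (fun x => tau_castSuccHom (t' := t') x) (2 ^ s)
    (kapA (fun b => t' b.castSucc) (fun b => a b.castSucc) s)
  simp only [AlgHom.toRingHom_eq_coe, RingHom.coe_coe, castSuccHom_kapA t' a hs] at hmap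
  rwa [hmap] at h

end Field

end Qa

/-! ### At the reference -/

section System

variable {n r : ℕ} {K : Type} [CommRing K] (hn : 2 * r + 2 ≤ n) {t : Fin n → K}

lemma kap_eq (z : Coord n r → K) (i : ℕ) :
    kap t z i = Qa.kapA t (fun b => Zc z 0 {b}) (i + 1) := by
  ext X
  by_cases h : X.card = 1 ∧ LL i X
  · obtain ⟨b, rfl⟩ := Finset.card_eq_one.1 h.1
    have hb : b ∈ Qa.evenBits n (i + 1) := by
      simpa [Qa.evenBits] using h.2 b (Finset.mem_singleton_self b)
    simp only [kap, Qa.coef_mk, Qa.coef_kapA_singleton _ hb, if_pos h]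
  · simp only [kap, Qa.coef_mk, if_neg h, Qa.kapA, Qa.coef_sum]
    refine (Finset.sum_eq_zero fun b hb => ?_).symm
    have : X ≠ {b} := fun e => h ⟨by simp [e], fun c hc => by
      obtain rfl : c = b := by simpa [e] using hc
      simpa [Qa.evenBits] using hb⟩
    simp [this]

lemma slotPart_supp (z : Coord n r → K) (i : Fin r) (e : K) (X : Finset (Fin n))
    (h : (e • slotPart hn t z i).coef X ≠ 0) : CC i.val X ∧ ¬ LL i.val X := by
  by_contra hX
  exact h (by simp [slotPart, hX])

variable [Algebra ℚ K]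

/-- A reference constraint to first order. -/
lemma npol_refG (z : Coord n r → K) (i : Fin r)
    (hsq : ∀ X Y, (eps hn t • slotPart hn t z i).coef X * (eps hn t • slotPart hn t z i).coef Y = 0) :
    npol Qa.tau (2 ^ (i.val + 1)) (refG hn t z i) =
      dpol Qa.tau (2 ^ (i.val + 1)) (kap t z i.val) * (eps hn t • slotPart hn t z i) :=
  Qa.cluster (by omega) (by rw [kap_eq]; exact Qa.kapA_mem _ _) (Qa.mul_eq_zero_of_coef hsq)
    (slotPart_supp hn z i _)

end System

end

end Vale.Agent.P199.Cex
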