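import Mathlib

/-!
P199, counterexample: the frozen statements of the modules (see `NOTES.md`).

`Qa t` is the multiquaternion algebra on `n` bits; bits `2 j`, `2 j + 1` are the two generators
of the `j`-th quaternion algebra.
-/

open scoped Classical

namespace Vale.Agent.P199.Cex

noncomputable section

/-- The function algebra underlying the multiquaternion algebra with parameters `t`. -/
def Qa {n : ℕ} {F : Type*} [CommRing F] (_t : Fin n → F) : Type _ := Finset (Fin n) → F

namespace Qa

variable {n : ℕ} {F : Type*} [CommRing F] (t : Fin n → F)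

instance : AddCommGroup (Qa t) := inferInstanceAs (AddCommGroup (Finset (Fin n) → F))
instance : Module F (Qa t) := inferInstanceAs (Module F (Finset (Fin n) → F))

variable {t}

/-- The coefficient at `X`. -/
def coef (a : Qa t) (X : Finset (Fin n)) : F := a X

/-- The element with the given coefficients. -/
def mk (f : Finset (Fin n) → F) : Qa t := f

variable (t)

/-- The sign of the product of two monomials. -/
def sgn (X Y : Finset (Fin n)) : F :=
  ∏ b : Fin n, if b ∈ X ∧ b.val % 2 = 1 ∧ ∃ c ∈ Y, c.val + 1 = b.val then -1 else 1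

/-- The scalar in the product of two monomials. -/
def fac (X Y : Finset (Fin n)) : F := sgn X Y * ∏ b ∈ X ∩ Y, t b

instance : Mul (Qa t) :=
  ⟨fun a c => mk fun Z => ∑ X, a.coef X * c.coef (symmDiff X Z) * fac t X (symmDiff X Z)⟩

instance : One (Qa t) := ⟨mk fun X => if X = ∅ then 1 else 0⟩

/-- The monomial at `X`. -/
def E (X : Finset (Fin n)) : Qa t := mk fun Y => if Y = X then 1 else 0

variable {t}

/-- The normalised trace. -/
def tau (a : Qa t) : F := a.coef ∅

end Qa

/-- `X` has largest element `b`. -/
def TopEq {n : ℕ} (b : Fin n) (X : Finset (Fin n)) : Prop := b ∈ X ∧ ∀ c ∈ X, c ≤ b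

/-- The part below the bit `b`. -/
def low {n : ℕ} {F : Type*} [CommRing F] (b : Fin n) (z : Finset (Fin n) → F)
    (X : Finset (Fin n)) : F :=
  if ∀ c ∈ X, c < b then z X else 0

/-- Every bit has a coordinate vector of norm one, and there is no constant term. -/
def Sphere {n : ℕ} {F : Type*} [CommRing F] (z : Fin 3 → Finset (Fin n) → F) : Prop :=
  (∀ a, z a ∅ = 0) ∧
    ∀ b : Fin n, ∑ a, ∑ X ∈ Finset.univ.filter (TopEq b), z a X ^ 2 = 1

/-- At every bit the new part is orthogonal to the inner derivations of the lower part. -/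
def Orth {n : ℕ} {F : Type*} [CommRing F] (t : Fin n → F)
    (z : Fin 3 → Finset (Fin n) → F) : Prop :=
  ∀ b φ, TopEq b φ → ∑ a : Fin 3, ∑ X ∈ Finset.univ.filter (TopEq b),
    (Qa.E t φ * Qa.mk (low b (z a)) - Qa.mk (low b (z a)) * Qa.E t φ).coef X * z a X = 0

/-- Iterated valuations: the parameters are independent modulo squares over a formally real
residue field. -/
def Good : ∀ (n : ℕ) (F : Type) [Field F], (Fin n → F) → Prop
  | 0, F, _, _ => IsFormallyReal F
  | n + 1, F, _, t => ∃ (O : ValuationSubring F) (_ : IsDiscreteValuationRing O)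
      (t' : Fin (n + 1) → O), (∀ b, (t' b : F) = t b) ∧ (∀ b : Fin n, IsUnit (t' b.castSucc)) ∧
        (∃ (π : O) (k : ℕ), Irreducible π ∧ Associated (t' (Fin.last n)) (π ^ (2 * k + 1))) ∧
          Good n (IsLocalRing.ResidueField O)
            fun b => IsLocalRing.residue O (t' b.castSucc)

/-! ### The polynomial with prescribed power sums -/

/-- `coeffs P k` is the `k`-th coefficient of the monic polynomial with power sums `P`. -/
def coeffs {K : Type*} [CommRing K] [Algebra ℚ K] (P : ℕ → K) : ℕ → K
  | 0 => 1
  | k + 1 => -((k + 1 : ℚ)⁻¹ • ∑ j : Fin (k + 1), P (j + 1) * coeffs P (k - j))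
  decreasing_by omega

/-- `h` substituted into the monic polynomial of degree `e` whose power sums are `e τ(h ^ l)`. -/
def npol {K A : Type*} [CommRing K] [Algebra ℚ K] [Ring A] [Algebra K A] (τ : A → K) (e : ℕ)
    (h : A) : A :=
  ∑ k ∈ Finset.range (e + 1), coeffs (fun l => (e : K) * τ (h ^ l)) k • h ^ (e - k)

/-! ### Trace polynomials -/

/-- Scalars: polynomials in the traces of words. -/
abbrev TS : Type := MvPolynomial (List (Fin 3)) ℚ

/-- Trace polynomials in three variables. -/
abbrev TP : Type := FreeAlgebra TS (Fin 3)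

/-- The value of a scalar. -/
def evS {K A : Type*} [CommRing K] [Algebra ℚ K] [Ring A] [Algebra K A] (τ : A → K)
    (x : Fin 3 → A) : TS →+* K :=
  (MvPolynomial.aeval fun w : List (Fin 3) => τ (w.map x).prod : TS →ₐ[ℚ] K).toRingHom

/-- The value of a trace polynomial. -/
def evP {K A : Type*} [CommRing K] [Algebra ℚ K] [Ring A] [Algebra K A] (τ : A → K)
    (x : Fin 3 → A) : TP → A := fun g =>
  letI : Algebra TS A :=
    ((algebraMap K A).comp (evS τ x)).toAlgebra' fun c a => Algebra.commutes (evS τ x c) a
  FreeAlgebra.lift TS x g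

/-! ### The module statements -/

/-- The subalgebra generated by three elements, as a span of products. -/
def genSpan {n : ℕ} {F : Type*} [CommRing F] (t : Fin n → F) (x : Fin 3 → Qa t) :
    Submodule F (Qa t) :=
  Submodule.span F (Set.range fun w : List (Fin 3) => w.foldr (fun a y => x a * y) 1)

/-- M2: no zero divisors. -/
def GoodDomain : Prop :=
  ∀ (n : ℕ) (F : Type) (_ : Field F) (t : Fin n → F), Good n F t →
    ∀ a b : Qa t, a ≠ 0 → b ≠ 0 → a * b ≠ 0

/-- M2: stable under extensions of odd degree. -/
def GoodOdd : Prop :=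
  ∀ (n : ℕ) (F : Type) (_ : Field F) (E : Type) (_ : Field E) (_ : Algebra F E)
    (t : Fin n → F), FiniteDimensional F E → Odd (Module.finrank F E) → Good n F t →
      Good n E fun b => algebraMap F E (t b)

/-- M2: stable under square roots of sums of squares. -/
def GoodSqrt : Prop :=
  ∀ (n : ℕ) (F : Type) (_ : Field F) (E : Type) (_ : Field E) (_ : Algebra F E)
    (t : Fin n → F) (r : E) (S : F), IsSumSq S → r ^ 2 = algebraMap F E S →
      Algebra.adjoin F ({r} : Set E) = ⊤ → Good n F t → Good n E fun b => algebraMap F E (t b)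

/-- M2: such fields exist, and are formally real. -/
def GoodExists : Prop :=
  (∀ (n : ℕ) (F : Type) (_ : Field F) (t : Fin n → F), Good n F t →
      IsFormallyReal F ∧ ∀ b, t b ≠ 0) ∧
    ∀ n, ∃ (F : Type) (_ : Field F) (t : Fin n → F), Good n F t

/-- M3: a simple zero of a square system lifts to power series. -/
def NewtonExists : Prop :=
  ∀ (F : Type) (_ : Field F) (ι : Type) (_ : Fintype ι) (_ : DecidableEq ι)
    (f : ι → MvPolynomial ι (PowerSeries F)) (a : ι → F),
    (∀ i, MvPolynomial.eval a ((f i).map PowerSeries.constantCoeff) = 0) →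
      (Matrix.of fun i j => MvPolynomial.eval a
        (MvPolynomial.pderiv j ((f i).map PowerSeries.constantCoeff))).det ≠ 0 →
        ∃ x : ι → PowerSeries F, (∀ i, MvPolynomial.eval x (f i) = 0) ∧
          ∀ i, PowerSeries.constantCoeff (x i) = a i

/-- M3: two congruent zeros of a system with injective Jacobian coincide. -/
def NewtonUnique : Prop :=
  ∀ (R : Type) (_ : CommRing R) (_ : IsDomain R) (_ : IsNoetherianRing R) (_ : IsLocalRing R)
    (ι κ : Type) (_ : Fintype ι) (f : κ → MvPolynomial ι R) (x y : ι → R),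
    (∀ k, MvPolynomial.eval x (f k) = 0) → (∀ k, MvPolynomial.eval y (f k) = 0) →
      (∀ i, x i - y i ∈ IsLocalRing.maximalIdeal R) →
        (∀ v : ι → IsLocalRing.ResidueField R, (∀ k, ∑ j, IsLocalRing.residue R
          (MvPolynomial.eval x (MvPolynomial.pderiv j (f k))) * v j = 0) → v = 0) → x = y

/-- M3: an isolated common zero is algebraic. -/
def NewtonAlgebraic : Prop :=
  ∀ (K : Type) (_ : Field K) (_ : CharZero K) (E : Type) (_ : Field E) (_ : Algebra K E)
    (ι κ : Type) (_ : Fintype ι) (f : κ → MvPolynomial ι K) (x : ι → E),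
    (∀ k, MvPolynomial.aeval x (f k) = 0) →
      (∀ v : ι → E, (∀ k, ∑ j, MvPolynomial.aeval x (MvPolynomial.pderiv j (f k)) * v j = 0) →
        v = 0) → ∀ i, IsAlgebraic K (x i)

/-- M6: the orthogonality conditions force growth. -/
def Growth : Prop :=
  ∀ (n : ℕ) (F : Type) (_ : Field F) (t : Fin n → F) (z : Fin 3 → Finset (Fin n) → F),
    Good n F t → Sphere z → Orth t z →
      n < Module.finrank F (genSpan t fun a => Qa.mk (z a))

/-- The points: degree at most `2 ^ (i + 1)` for the `i`-th element, and growth. -/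
def Points : Prop :=
  ∀ (g : ℕ → TP) (n r : ℕ), 2 * r + 2 ≤ n →
    ∃ (F : Type) (_ : Field F) (_ : CharZero F) (A : Type) (_ : DivisionRing A)
      (_ : Algebra F A) (τ : A →ₗ[F] F) (x : Fin 3 → A), τ 1 = 1 ∧
      (∀ i < r, npol τ (2 ^ (i + 1)) (evP τ x (g i)) = 0) ∧
        n < Module.finrank F (Algebra.adjoin F (Set.range x) : Subalgebra F A)

/-- The answer to Kurosh's problem is no: a division ring algebraic over its centre `Z` and
generated over it by three elements but of infinite dimension over it; it is also a finitely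
generated algebraic algebra over a central subfield `k` of infinite dimension. -/
def Counterexample : Prop :=
  ∃ (D : Type) (_ : DivisionRing D) (S : Finset D),
    Algebra.IsAlgebraic (Subring.center D) D ∧
      Algebra.adjoin (Subring.center D) (S : Set D) = ⊤ ∧
      ¬ FiniteDimensional (Subring.center D) D ∧
      ∃ (k : Type) (_ : Field k) (_ : Algebra k D),
        Algebra.IsAlgebraic k D ∧ Algebra.FiniteType k D ∧ ¬ FiniteDimensional k D

end

end Vale.Agent.P199.Cex
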