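import Vale.Agent.P199.Cex.GoodBasic

/-!
P199, counterexample, M2: good fields are stable under extensions of odd degree and under square
roots of sums of squares.
-/

namespace Vale.Agent.P199.Cex

open IsLocalRing Polynomial

noncomputable section

attribute [local instance] Ideal.Quotient.field

/-- A prime over the maximal ideal with odd ramification and good residue field. -/
lemma good_of_prime {O E : Type} (F : Type) [CommRing O] [IsDomain O] [IsDiscreteValuationRing O]
    [Field F] [Algebra O F] [IsFractionRing O F] [Field E] [Algebra F E] [Algebra O E]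
    [IsScalarTower O F E] [FiniteDimensional F E] [Algebra.IsSeparable F E] {n : ℕ} (q : Ideal (integralClosure O E)) [q.IsMaximal]
    [q.LiesOver (maximalIdeal O)] (he : Odd (q.ramificationIdx O)) (t' : Fin (n + 1) → O)
    (hu : ∀ b : Fin n, IsUnit (t' b.castSucc)) (π : O) (k : ℕ) (hπ : Irreducible π)
    (hassoc : Associated (t' (Fin.last n)) (π ^ (2 * k + 1)))
    (hG : Good n (integralClosure O E ⧸ q)
      fun b => Ideal.Quotient.mk q (algebraMap O (integralClosure O E) (t' b.castSucc))) :
    Good (n + 1) E fun b => algebraMap O E (t' b) := by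
  have : IsDedekindDomain (integralClosure O E) := integralClosure.isDedekindDomain O F E
  have hinj : Function.Injective (algebraMap O E) := by
    rw [IsScalarTower.algebraMap_eq O F E]
    exact (algebraMap F E).injective.comp (IsFractionRing.injective O F)
  have : IsFractionRing (integralClosure O E) E :=
    integralClosure.isFractionRing_of_finite_extension F E
  have hinjB : Function.Injective (algebraMap O (integralClosure O E)) := fun a b h =>
    hinj (congrArg Subtype.val h)
  have hmem : algebraMap O (integralClosure O E) π ∈ q := by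
    rw [← Ideal.mem_comap]
    show π ∈ q.under O
    rw [← Ideal.over_def q (maximalIdeal O)]
    exact (mem_maximalIdeal _).2 hπ.not_isUnit
  have hq : q ≠ ⊥ := fun h => hπ.ne_zero <| hinjB <| by
    rw [map_zero]; exact (Ideal.mem_bot).1 (h ▸ hmem)
  let Sq := Localization.AtPrime q
  have : IsDiscreteValuationRing Sq :=
    IsLocalization.AtPrime.isDiscreteValuationRing_of_dedekind_domain _ hq Sq
  have hu₁ : ∀ y : q.primeCompl, IsUnit (algebraMap (integralClosure O E) E y) := fun y =>
    isUnit_iff_ne_zero.2 fun h => y.2 (by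
      rw [(IsFractionRing.injective (integralClosure O E) E)
        (h.trans (map_zero _).symm)]
      exact q.zero_mem)
  have hu₂ : ∀ y : q.primeCompl, IsUnit (Ideal.Quotient.mk q y) := fun y =>
    isUnit_iff_ne_zero.2 fun h => y.2 (Ideal.Quotient.eq_zero_iff_mem.1 h)
  let f : Sq →+* E := IsLocalization.lift hu₁
  let res : Sq →+* integralClosure O E ⧸ q := IsLocalization.lift hu₂
  have hf : Function.Injective f := (injective_iff_map_eq_zero f).2 fun x hx => by
    obtain ⟨b, y, rfl⟩ := IsLocalization.exists_mk'_eq q.primeCompl x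
    rw [IsLocalization.lift_mk'_spec, mul_zero] at hx
    rw [(IsFractionRing.injective (integralClosure O E) E) (hx.trans (map_zero _).symm),
      IsLocalization.mk'_zero]
  have hres : Function.Surjective res := fun x => by
    obtain ⟨b, rfl⟩ := Ideal.Quotient.mk_surjective x
    exact ⟨algebraMap _ Sq b, IsLocalization.lift_eq hu₂ b⟩
  have hcov : ∀ x : E, (∃ r, f r = x) ∨ ∃ r, f r = x⁻¹ := fun x => by
    obtain ⟨a, b, hb, rfl⟩ := IsFractionRing.div_surjective (integralClosure O E) x
    have hb0 : algebraMap (integralClosure O E) E b ≠ 0 :=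
      IsFractionRing.to_map_ne_zero_of_mem_nonZeroDivisors hb
    rcases ValuationRing.dvd_total (algebraMap _ Sq b) (algebraMap _ Sq a) with ⟨c, hc⟩ | ⟨c, hc⟩
    · refine Or.inl ⟨c, ?_⟩
      have := congrArg f hc
      rw [map_mul, IsLocalization.lift_eq, IsLocalization.lift_eq] at this
      rw [eq_div_iff hb0, this, mul_comm]
    · refine Or.inr ⟨c, ?_⟩
      have := congrArg f hc
      rw [map_mul, IsLocalization.lift_eq, IsLocalization.lift_eq] at this
      have ha0 : algebraMap (integralClosure O E) E a ≠ 0 := fun h => hb0 (by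
        rw [this, h, zero_mul])
      rw [inv_div, eq_div_iff ha0, this, mul_comm]
  obtain ⟨ϖ, hϖ⟩ := IsDiscreteValuationRing.exists_irreducible Sq
  have hπ' : algebraMap O Sq π ≠ 0 := fun h => hπ.ne_zero <| hinjB <| by
    rw [map_zero]
    refine IsLocalization.injective Sq q.primeCompl_le_nonZeroDivisors ?_
    rw [← IsScalarTower.algebraMap_apply, h, map_zero]
  obtain ⟨j, hj⟩ := IsDiscreteValuationRing.associated_pow_irreducible hπ' hϖ
  have hej : q.ramificationIdx O = j := by
    rw [Ideal.ramificationIdx_eq (maximalIdeal O) q, hπ.maximalIdeal_eq, Ideal.map_span,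
      Set.image_singleton, Ideal.span_singleton_eq_span_singleton.2 hj,
      ← Ideal.span_singleton_pow, ← hϖ.maximalIdeal_eq,
      IsDiscreteValuationRing.length_quotient_pow_maximalIdeal, ENat.toNat_natCast]
  obtain ⟨m, hm⟩ : Odd (j * (2 * k + 1)) := (hej ▸ he).mul ⟨k, rfl⟩
  refine good_intro f hf hcov res hres
    (fun b => algebraMap _ Sq (algebraMap O (integralClosure O E) (t' b))) (fun b => ?_)
    (fun b => ((hu b).map _).map _) ϖ m hϖ ?_ ?_
  · exact IsLocalization.lift_eq hu₁ _
  · rw [← hm, pow_mul]
    refine ((hassoc.map (algebraMap O Sq)).trans ?_)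
    rw [map_pow]
    exact hj.pow_pow
  · convert hG using 2 with b
    exact IsLocalization.lift_eq hu₂ _

theorem goodOdd : GoodOdd := by
  intro n
  induction n with
  | zero =>
    intro F _ E _ _ t _ hodd hG
    have : IsSemireal F := formallyReal_iff.1 hG
    exact formallyReal_iff.2 (semireal_of_odd hodd)
  | succ n IH =>
    intro F _ E _ _ t _ hodd hG
    have := (good_semireal _ _ _ _ hG).1
    obtain ⟨O, _, t', ht', hu, ⟨π, k, hπ, hassoc⟩, hG⟩ := hG
    let : Algebra O E := ((algebraMap F E).comp (algebraMap O F)).toAlgebra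
    have : IsScalarTower O F E := IsScalarTower.of_algebraMap_eq fun _ => rfl
    have : FaithfulSMul O E := (faithfulSMul_iff_algebraMap_injective _ _).2
      ((algebraMap F E).injective.comp (IsFractionRing.injective O F))
    have := integralClosure.isDedekindDomain O F E
    have := IsIntegralClosure.finite O F E (integralClosure O E)
    have := IsIntegralClosure.module_free O F E (integralClosure O E)
    have : Fintype ((maximalIdeal O).primesOver (integralClosure O E)) := Fintype.ofFinite _
    have hsum := Ideal.sum_ramification_inertia_eq_finrank (maximalIdeal O) (integralClosure O E)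
    rw [IsIntegralClosure.rank O F E (integralClosure O E)] at hsum
    obtain ⟨⟨q, hq₁, hq₂⟩, -, hq⟩ : ∃ q ∈ (Finset.univ :
        Finset ((maximalIdeal O).primesOver (integralClosure O E))),
        Odd (q.1.ramificationIdx O * q.1.inertiaDeg O) := by
      by_contra! h
      exact Nat.not_even_iff_odd.2 hodd (hsum ▸ Finset.even_sum _ fun q hq =>
        Nat.not_odd_iff_even.1 (h q hq))
    rw [Nat.odd_mul] at hq
    have : q.IsMaximal := Ideal.IsMaximal.of_liesOver_isMaximal q (maximalIdeal O)
    have hres := IH (ResidueField O) inferInstance (integralClosure O E ⧸ q) (Ideal.Quotient.field q)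
      (inferInstance : Algebra (O ⧸ maximalIdeal O) (integralClosure O E ⧸ q))
      (fun b => residue O (t' b.castSucc))
    have hf : Module.finrank (O ⧸ maximalIdeal O) (integralClosure O E ⧸ q) =
        q.inertiaDeg O := (Ideal.inertiaDeg_eq_of_isMaximal (maximalIdeal O) q).symm
    have hfin : Module.Finite (O ⧸ maximalIdeal O) (integralClosure O E ⧸ q) :=
      Module.Finite.of_restrictScalars_finite O _ _
    have hgood := hres hfin (hf.symm ▸ hq.2 :) hG
    have e : (fun b => algebraMap F E (t b)) = fun b => algebraMap O E (t' b) := by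
      funext b; rw [← ht']; rfl
    rw [e]
    exact good_of_prime F q hq.1 t' hu π k hπ hassoc hgood

lemma span_one_root {F E : Type} [Field F] [Field E] [Algebra F E] (r : E) {S : F}
    (hr : r ^ 2 = algebraMap F E S) (hA : Algebra.adjoin F ({r} : Set E) = ⊤) (z : E) :
    ∃ p q : F, z = algebraMap F E p + algebraMap F E q * r := by
  have hz : z ∈ Algebra.adjoin F ({r} : Set E) := hA ▸ Algebra.mem_top
  induction hz using Algebra.adjoin_induction with
  | mem x hx => exact ⟨0, 1, by simp [Set.mem_singleton_iff.1 hx]⟩
  | algebraMap a => exact ⟨a, 0, by simp⟩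
  | add x y _ _ hx hy =>
    obtain ⟨p, q, rfl⟩ := hx
    obtain ⟨p', q', rfl⟩ := hy
    exact ⟨p + p', q + q', by simp; ring⟩
  | mul x y _ _ hx hy =>
    obtain ⟨p, q, rfl⟩ := hx
    obtain ⟨p', q', rfl⟩ := hy
    exact ⟨p * p' + q * q' * S, p * q' + q * p', by simp [← hr]; ring⟩

lemma finite_of_root {F E : Type} [Field F] [Field E] [Algebra F E] (r : E) {S : F}
    (hr : r ^ 2 = algebraMap F E S) (hA : Algebra.adjoin F ({r} : Set E) = ⊤) :
    FiniteDimensional F E := by
  classical
  refine Module.Finite.of_fg_top ⟨{1, r}, eq_top_iff.2 fun z _ => ?_⟩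
  obtain ⟨p, q, rfl⟩ := span_one_root r hr hA z
  rw [← mul_one (algebraMap F E p), ← Algebra.smul_def, ← Algebra.smul_def]
  exact Submodule.add_mem _ (Submodule.smul_mem _ _ (Submodule.subset_span (by simp)))
    (Submodule.smul_mem _ _ (Submodule.subset_span (by simp)))

theorem goodSqrt : GoodSqrt := by
  intro n
  induction n with
  | zero =>
    intro F _ E _ _ t r S hS hr hA hG
    have : IsSemireal F := formallyReal_iff.1 hG
    exact formallyReal_iff.2 (semireal_sqrt r hS (by rw [← sq, hr]) (span_one_root r hr hA))
  | succ n IH =>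
    intro F _ E _ _ t r S hS hr hA hG
    have := finite_of_root r hr hA
    by_cases hrF : r ∈ Set.range (algebraMap F E)
    · refine goodOdd _ F _ E _ _ t inferInstance ?_ hG
      obtain ⟨s, rfl⟩ := hrF
      have hbot : (⊥ : Subalgebra F E) = ⊤ := by
        rw [← hA]
        exact (le_antisymm (Algebra.adjoin_le (by simp)) bot_le).symm
      rw [Subalgebra.bot_eq_top_iff_finrank_eq_one.1 hbot]
      exact odd_one
    have := (good_semireal _ _ _ _ hG).1
    obtain ⟨O, _, t', ht', hu, ⟨π, k, hπ, hassoc⟩, hG⟩ := hG
    obtain ⟨m, a, rfl⟩ := sumSq_eq_sum hS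
    have hne : ∃ i, a i ≠ 0 := by
      by_contra! h
      exact hrF ⟨0, by rw [map_zero]; refine ((pow_eq_zero_iff two_ne_zero).1 ?_).symm; simp [hr, h]⟩
    obtain ⟨g, i₀, y, hg, hy, hay⟩ := exists_primitive O a hne
    set c : O := ∑ i, y i * y i with hc
    have hcS : ∑ i, a i * a i = g ^ 2 * (c : F) := by
      rw [hc]
      push_cast
      rw [Finset.mul_sum]
      exact Finset.sum_congr rfl fun i _ => by rw [hay]; ring
    let : Algebra O E := ((algebraMap F E).comp (algebraMap O F)).toAlgebra
    have : IsScalarTower O F E := IsScalarTower.of_algebraMap_eq fun _ => rfl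
    have : FaithfulSMul O E := (faithfulSMul_iff_algebraMap_injective _ _).2
      ((algebraMap F E).injective.comp (IsFractionRing.injective O F))
    have hg' : algebraMap F E g ≠ 0 := by simpa using hg
    set r₁ : E := r / algebraMap F E g
    have hr₁ : r₁ ^ 2 = algebraMap F E (c : F) := by
      rw [div_pow, hr, hcS, map_mul, map_pow]
      field_simp
    have hA₁ : Algebra.adjoin F ({r₁} : Set E) = ⊤ := by
      rw [← hA]
      refine le_antisymm (hA ▸ le_top) (Algebra.adjoin_le ?_)
      rw [Set.singleton_subset_iff, show r = algebraMap F E g * r₁ by simp only [r₁]; field_simp]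
      exact Subalgebra.mul_mem _ (Subalgebra.algebraMap_mem _ g) (Algebra.self_mem_adjoin_singleton F r₁)
    have hr₁F : r₁ ∉ Set.range (algebraMap F E) := fun ⟨s, hs⟩ => hrF ⟨g * s, by
      rw [map_mul, hs]; simp only [r₁]; field_simp⟩
    have hrInt : IsIntegral O r₁ := by
      refine ⟨X ^ 2 - C c, monic_X_pow_sub_C c two_ne_zero, ?_⟩
      simp only [eval₂_sub, eval₂_X_pow, eval₂_C, hr₁]
      exact sub_self _
    let rB : integralClosure O E := ⟨r₁, hrInt⟩
    have hrB : rB * rB = algebraMap O (integralClosure O E) c :=
      Subtype.ext ((sq r₁).symm.trans hr₁)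
    -- the degree is two
    have hint : IsIntegral F r₁ := IsIntegral.of_finite F r₁
    have hdeg : 2 ≤ (minpoly F r₁).natDegree :=
      (minpoly.two_le_natDegree_iff hint).2 hr₁F
    have hroot : aeval r₁ (X ^ 2 - C (c : F)) = 0 := by simp [hr₁]
    have hmp : X ^ 2 - C (c : F) = minpoly F r₁ := by
      refine Polynomial.eq_of_monic_of_associated (monic_X_pow_sub_C _ two_ne_zero)
        (minpoly.monic hint) ?_
      exact (associated_of_dvd_of_natDegree_le (minpoly.dvd F r₁ hroot)
        (X_pow_sub_C_ne_zero two_pos _) (by rw [natDegree_X_pow_sub_C]; exact hdeg)).symm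
    let pb := PowerBasis.ofAdjoinEqTop' hint hA₁
    have hgen : pb.gen = r₁ := by simp [pb]
    have h2 : Module.finrank F E = 2 := by
      rw [pb.finrank, ← PowerBasis.natDegree_minpoly, hgen, ← hmp, natDegree_X_pow_sub_C]
    let σ : E →ₐ[F] E := pb.lift (-r₁) (by rw [hgen, ← hmp]; simp [hr₁])
    have hσ : σ r₁ = -r₁ := by
      conv_lhs => rw [← hgen]
      exact PowerBasis.lift_gen _ _ _
    let σB : integralClosure O E →+* integralClosure O E :=
      { toFun := fun x => ⟨σ x, IsIntegral.map (σ.restrictScalars O) x.2⟩
        map_one' := Subtype.ext (map_one σ)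
        map_zero' := Subtype.ext (map_zero σ)
        map_add' := fun x y => Subtype.ext (map_add σ (x : E) y)
        map_mul' := fun x y => Subtype.ext (map_mul σ (x : E) y) }
    have hσO : ∀ x, σB (algebraMap O _ x) = algebraMap O _ x := fun x =>
      Subtype.ext (σ.commutes (algebraMap O F x))
    have hσr : σB rB = -rB := Subtype.ext hσ
    -- the residue field
    have := (good_semireal _ _ _ _ hG).1
    have hcbar : residue O c = ∑ i, residue O (y i) * residue O (y i) := by simp [hc]
    have hc0 : residue O c ≠ 0 := fun h => by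
      have := semireal_sq_sum_eq_zero Finset.univ _ (hcbar ▸ h) i₀ (Finset.mem_univ _)
      rw [hy, map_one] at this
      exact one_ne_zero this
    have hcsq : IsSumSq (residue O c) := hcbar ▸ IsSumSq.sum_mul_self _ _
    have := integralClosure.isDedekindDomain O F E
    have := IsIntegralClosure.finite O F E (integralClosure O E)
    have := IsIntegralClosure.module_free O F E (integralClosure O E)
    have : Fintype ((maximalIdeal O).primesOver (integralClosure O E)) := Fintype.ofFinite _
    have hsum := Ideal.sum_ramification_inertia_eq_finrank (maximalIdeal O) (integralClosure O E)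
    rw [IsIntegralClosure.rank O F E (integralClosure O E), h2] at hsum
    have hpos : ∀ q : (maximalIdeal O).primesOver (integralClosure O E),
        1 ≤ q.1.ramificationIdx O ∧ 1 ≤ q.1.inertiaDeg O := fun q =>
      haveI := q.2.1
      ⟨Ideal.ramificationIdx_pos _ _, Ideal.inertiaDeg_pos _ _⟩
    have hle : ∀ q : (maximalIdeal O).primesOver (integralClosure O E),
        q.1.ramificationIdx O * q.1.inertiaDeg O ≤ 2 := fun q =>
      hsum ▸ Finset.single_le_sum (f := fun q : (maximalIdeal O).primesOver (integralClosure O E) =>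
        q.1.ramificationIdx O * q.1.inertiaDeg O) (fun _ _ => Nat.zero_le _) (Finset.mem_univ q)
    -- a prime with trivial ramification
    obtain ⟨q, hq1, hq⟩ : ∃ q : (maximalIdeal O).primesOver (integralClosure O E),
        q.1.ramificationIdx O = 1 ∧ (q.1.inertiaDeg O = 1 ∨
          q.1.inertiaDeg O = 2 ∧ ∀ s : O, Ideal.Quotient.mk q.1 rB ≠
            Ideal.Quotient.mk q.1 (algebraMap O _ s)) := by
      obtain ⟨q₀⟩ := (maximalIdeal O).nonempty_primesOver (S := integralClosure O E)
      by_cases hs : ∃ s, residue O c = residue O (s * s)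
      · obtain ⟨s, hs⟩ := hs
        have := q₀.2.1
        have := q₀.2.2
        have key : (rB - algebraMap O _ s) * (rB + algebraMap O _ s) ∈ q₀.1 := by
          rw [show (rB - algebraMap O _ s) * (rB + algebraMap O _ s) =
            algebraMap O (integralClosure O E) (c - s * s) by
              rw [map_sub, map_mul, ← hrB]; ring, ← Ideal.mem_of_liesOver q₀.1 (maximalIdeal O)]
          exact Ideal.Quotient.eq_zero_iff_mem.1 (show residue O (c - s * s) = 0 by
            rw [map_sub, hs, sub_self])
        obtain ⟨s, hs, hm⟩ : ∃ s, residue O c = residue O (s * s) ∧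
            rB - algebraMap O _ s ∈ q₀.1 := by
          rcases (q₀.2.1.mem_or_mem key) with h | h
          · exact ⟨s, hs, h⟩
          · exact ⟨-s, by rw [neg_mul_neg]; exact hs, by rw [map_neg, sub_neg_eq_add]; exact h⟩
        let q' : (maximalIdeal O).primesOver (integralClosure O E) :=
          ⟨q₀.1.comap σB, inferInstance, ⟨by
            ext x
            rw [Ideal.mem_comap, Ideal.mem_comap, hσO, ← Ideal.mem_of_liesOver q₀.1 (maximalIdeal O)]⟩⟩
        have hne : q₀ ≠ q' := fun h => hc0 <| by
          have hm' : rB + algebraMap O _ s ∈ q'.1 := by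
            show σB _ ∈ q₀.1
            rw [map_add, hσr, hσO, show -rB + algebraMap O _ s = -(rB - algebraMap O _ s) by ring]
            exact neg_mem hm
          rw [← h] at hm'
          have h2s := q₀.1.sub_mem hm' hm
          rw [show rB + algebraMap O _ s - (rB - algebraMap O _ s) =
            algebraMap O (integralClosure O E) (2 * s) by rw [map_mul, map_ofNat]; ring,
            ← Ideal.mem_of_liesOver q₀.1 (maximalIdeal O)] at h2s
          have h3 : residue O (2 * s) = 0 := Ideal.Quotient.eq_zero_iff_mem.2 h2s
          rw [map_mul, map_ofNat, mul_eq_zero] at h3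
          rw [hs, map_mul, h3.resolve_left two_ne_zero, mul_zero]
        classical
        have hp := Finset.sum_le_sum_of_subset
          (f := fun q : (maximalIdeal O).primesOver (integralClosure O E) =>
            q.1.ramificationIdx O * q.1.inertiaDeg O) (Finset.subset_univ {q₀, q'})
        rw [Finset.sum_pair hne, hsum] at hp
        have := Nat.mul_pos (hpos q').1 (hpos q').2
        have h1 : q₀.1.ramificationIdx O * q₀.1.inertiaDeg O = 1 :=
          le_antisymm (by omega) (Nat.mul_pos (hpos q₀).1 (hpos q₀).2)
        exact ⟨q₀, (mul_eq_one.1 h1).1, Or.inl (mul_eq_one.1 h1).2⟩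
      · have := q₀.2.1
        have := q₀.2.2
        have hns : ∀ s : O, Ideal.Quotient.mk q₀.1 rB ≠
            Ideal.Quotient.mk q₀.1 (algebraMap O _ s) := fun s h => hs ⟨s, by
          have h' := congrArg (fun x => x * x) h
          simp only [← map_mul, hrB] at h'
          rw [Ideal.Quotient.eq, ← map_sub, ← Ideal.mem_of_liesOver q₀.1 (maximalIdeal O)] at h'
          exact Ideal.Quotient.eq.2 h'⟩
        have : q₀.1.IsMaximal := Ideal.IsMaximal.of_liesOver_isMaximal q₀.1 (maximalIdeal O)
        have hf1 : q₀.1.inertiaDeg O ≠ 1 := fun h => by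
          rw [Ideal.inertiaDeg_eq_of_isMaximal (maximalIdeal O) q₀.1] at h
          let := Ideal.Quotient.field (maximalIdeal O)
          have hb : Ideal.Quotient.mk q₀.1 rB ∈
              (⊥ : Subalgebra (O ⧸ maximalIdeal O) (integralClosure O E ⧸ q₀.1)) :=
            Subalgebra.bot_eq_top_iff_finrank_eq_one.2 h ▸ Algebra.mem_top
          obtain ⟨x, hx⟩ := Algebra.mem_bot.1 hb
          obtain ⟨s, rfl⟩ := Ideal.Quotient.mk_surjective x
          exact hns s hx.symm
        have := hle q₀
        obtain ⟨he, hf⟩ := hpos q₀
        have hf2 : q₀.1.inertiaDeg O = 2 := le_antisymm ((Nat.le_mul_of_pos_left _ he).trans this)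
          (by omega)
        refine ⟨q₀, ?_, Or.inr ⟨hf2, hns⟩⟩
        rw [hf2] at this
        omega
    have := q.2.1
    have := q.2.2
    have : q.1.IsMaximal := Ideal.IsMaximal.of_liesOver_isMaximal q.1 (maximalIdeal O)
    have hres := IH (ResidueField O) inferInstance (integralClosure O E ⧸ q.1) (Ideal.Quotient.field q.1)
      (inferInstance : Algebra (O ⧸ maximalIdeal O) (integralClosure O E ⧸ q.1))
      (fun b => residue O (t' b.castSucc)) (Ideal.Quotient.mk q.1 rB) (residue O c) hcsq
      (show (Ideal.Quotient.mk q.1 rB) ^ 2 = Ideal.Quotient.mk q.1 (algebraMap O _ c) by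
        rw [← map_pow, sq, hrB])
    have hgood := hres (by
      let := Ideal.Quotient.field (maximalIdeal O)
      show Algebra.adjoin (O ⧸ maximalIdeal O)
        ({Ideal.Quotient.mk q.1 rB} : Set (integralClosure O E ⧸ q.1)) = ⊤
      rw [Ideal.inertiaDeg_eq_of_isMaximal (maximalIdeal O) q.1] at hq
      rcases hq with h | ⟨h, hns⟩
      · exact top_unique ((Subalgebra.bot_eq_top_iff_finrank_eq_one.2 h).ge.trans bot_le)
      · have : IsSimpleOrder (Subalgebra (O ⧸ maximalIdeal O) (integralClosure O E ⧸ q.1)) :=
          Subalgebra.isSimpleOrder_of_finrank_prime _ _ (h ▸ Nat.prime_two)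
        refine (eq_bot_or_eq_top _).resolve_left fun hb => ?_
        have hm := Algebra.self_mem_adjoin_singleton (O ⧸ maximalIdeal O) (Ideal.Quotient.mk q.1 rB)
        rw [hb] at hm
        obtain ⟨x, hx⟩ := Algebra.mem_bot.1 hm
        obtain ⟨s, rfl⟩ := Ideal.Quotient.mk_surjective x
        exact hns s hx.symm) hG
    have e : (fun b => algebraMap F E (t b)) = fun b => algebraMap O E (t' b) := by
      funext b; rw [← ht']; rfl
    rw [e]
    exact good_of_prime F q.1 (hq1 ▸ odd_one) t' hu π k hπ hassoc hgood

end

end Vale.Agent.P199.Cex
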