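import Vale.Agent.P199.Cex.ParityPrimes

/-!
P199, counterexample: the parity step. The invariant field of the branch has odd degree over the
field of the parameter, so some prime over `X = -1` gives a zero over a good field.
-/

open scoped Classical

namespace Vale.Agent.P199.Cex

noncomputable section

namespace Par

open IsDedekindDomain

open scoped RatFunc Pointwise

variable {F : Type} [Field F]

/-- The prime of the parameter value `c`. -/
abbrev pc (c : F) : Ideal (Polynomial F) := Ideal.span {Polynomial.X - Polynomial.C c}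

lemma pc_isMaximal (c : F) : (pc c).IsMaximal :=
  PrincipalIdealRing.isMaximal_of_irreducible (Polynomial.irreducible_X_sub_C c)

lemma pc_ne_bot (c : F) : pc c ≠ ⊥ := by
  simp [pc, Ideal.span_singleton_eq_bot, Polynomial.X_sub_C_ne_zero]

/-- The inertia degree is the degree of the residue field over `F`. -/
lemma inertia_eq {B : Type} [CommRing B] [Algebra (Polynomial F) B] (c : F) (q : Ideal B)
    [q.LiesOver (pc c)] :
    letI : Algebra F (B ⧸ q) :=
      (((Ideal.Quotient.mk q).comp (algebraMap (Polynomial F) B)).comp Polynomial.C).toAlgebra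
    Ideal.inertiaDeg' (pc c) q = Module.finrank F (B ⧸ q) := by
  letI : Algebra F (B ⧸ q) :=
    (((Ideal.Quotient.mk q).comp (algebraMap (Polynomial F) B)).comp Polynomial.C).toAlgebra
  rw [Ideal.inertiaDeg'_algebraMap]
  refine (Algebra.finrank_eq_of_equiv_equiv
    (Polynomial.quotientSpanXSubCAlgEquiv c).symm.toRingEquiv (RingEquiv.refl _) ?_).symm
  ext s
  have hs : (Polynomial.quotientSpanXSubCAlgEquiv c).symm s =
      algebraMap F (Polynomial F ⧸ pc c) s :=
    (Polynomial.quotientSpanXSubCAlgEquiv c).symm.commutes s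
  show algebraMap (Polynomial F ⧸ pc c) (B ⧸ q)
    ((Polynomial.quotientSpanXSubCAlgEquiv c).symm s) = algebraMap F (B ⧸ q) s
  rw [hs]
  rfl

set_option maxHeartbeats 1000000 in
/-- The parity step for given fields. -/
theorem core (hodd : GoodOdd) (hsqrt : GoodSqrt) (hex : GoodExists)
    {n : ℕ} (t : Fin n → F) {ι κ : Type} [Fintype ι] [Fintype κ]
    (ch : ι → Finset (Fin n)) (a₀ : ι → F) (f : κ → MvPolynomial ι (Polynomial F))
    (hG : Good n F t) (hne : ∀ j, (ch j).Nonempty)
    (hequiv : ∀ (R : Type) [CommRing R] [IsDomain R] (φ : Polynomial F →+* R) (x : ι → R)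
      (a : Fin n → R), (∀ b, a b ^ 2 = 1) → IsZeroAt f φ x →
        IsZeroAt f φ fun j => (∏ b ∈ ch j, a b) * x j)
    (hsph : ∀ (R : Type) [CommRing R] [IsDomain R] (φ : Polynomial F →+* R) (x : ι → R),
      IsZeroAt f φ x → ∀ b : Fin n,
        ∑ j ∈ Finset.univ.filter (fun j => TopEq b (ch j)), x j ^ 2 = 1)
    (horb : ∀ (k : Type) [Field k] [Algebra F k], Good n k (fun b => algebraMap F k (t b)) →
      ∀ x : ι → k, IsZeroAt f (Polynomial.eval₂RingHom (algebraMap F k) 0) x →
        ∃ a : Fin n → k, (∀ b, a b ^ 2 = 1) ∧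
          ∀ j, x j = (∏ b ∈ ch j, a b) * algebraMap F k (a₀ j))
    (L : Matrix ι κ F)
    (hL : ∀ i j, ∑ k, L i k * MvPolynomial.eval₂ (Polynomial.evalRingHom 0) a₀
      (MvPolynomial.pderiv j (f k)) = if i = j then 1 else 0)
    {K E₀ E M : Type} [Field K] [CharZero K] [Algebra (Polynomial F) K]
    [IsFractionRing (Polynomial F) K]
    [Field E₀] [Algebra (Polynomial F) E₀] [Algebra K E₀] [IsScalarTower (Polynomial F) K E₀]
    [FiniteDimensional K E₀]
    [Field E] [Algebra (Polynomial F) E] [Algebra K E] [IsScalarTower (Polynomial F) K E]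
    [FiniteDimensional K E]
    [Field M] [Algebra (Polynomial F) M] [Algebra K M] [IsScalarTower (Polynomial F) K M]
    [FiniteDimensional K M] [IsGalois K M]
    (ι₀ : E₀ →ₐ[K] E) (ιM : E →ₐ[K] M) (jΩ : E →ₐ[Polynomial F] LaurentSeries F)
    (P : ι → PowerSeries F) (hP0 : ∀ j, PowerSeries.constantCoeff (P j) = a₀ j)
    (Pe : ι → E) (hPe : ∀ j, jΩ (Pe j) = algebraMap (PowerSeries F) (LaurentSeries F) (P j))
    (hzero : IsZeroAt f (Polynomial.eval₂RingHom PowerSeries.C PowerSeries.X) P)
    (jb : Fin n → ι) (top : ι → Fin n) (htop : ∀ j, TopEq (top j) (ch j))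
    (hjb : ∀ b, top (jb b) = b) (hu : ∀ b, Pe (jb b) ≠ 0)
    (Sj : ι → Finset (Fin n)) (hSj : ∀ j, ∀ c ∈ Sj j, c < top j)
    (hSp : ∀ j, ∀ (R : Type) [CommRing R] (a : Fin n → R), (∀ b, a b ^ 2 = 1) →
      sg a (ch j) = sg a (ch (jb (top j))) * ∏ c ∈ Sj j, sg a (ch (jb c)))
    (g : ι → E₀) (hg : ∀ j, ι₀ (g j) = Pe j * (Pe (jb (top j)) * ∏ c ∈ Sj j, Pe (jb c)))
    (w : Fin n → E₀) (hw : ∀ b, ι₀ (w b) = Pe (jb b) ^ 2)
    (hgen : ∀ h₁ h₂ : E₀ →ₐ[K] M, (∀ j, h₁ (g j) = h₂ (g j)) → (∀ b, h₁ (w b) = h₂ (w b)) →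
      h₁ = h₂) :
    ∃ (k : Type) (_ : Field k) (_ : Algebra F k) (x : ι → k),
      Good n k (fun b => algebraMap F k (t b)) ∧
        IsZeroAt f (Polynomial.eval₂RingHom (algebraMap F k) (-1)) x := by
  let B₀ := integralClosure (Polynomial F) E₀
  let BE := integralClosure (Polynomial F) E
  let B := integralClosure (Polynomial F) M
  haveI : IsDedekindDomain B₀ := IsIntegralClosure.isDedekindDomain (Polynomial F) K E₀ B₀
  haveI : IsDedekindDomain BE := IsIntegralClosure.isDedekindDomain (Polynomial F) K E BE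
  haveI : IsDedekindDomain B := IsIntegralClosure.isDedekindDomain (Polynomial F) K M B
  haveI : IsFractionRing B₀ E₀ := integralClosure.isFractionRing_of_finite_extension K E₀
  haveI : IsFractionRing BE E := integralClosure.isFractionRing_of_finite_extension K E
  haveI : IsFractionRing B M := integralClosure.isFractionRing_of_finite_extension K M
  haveI : Module.Finite (Polynomial F) B₀ := IsIntegralClosure.finite (Polynomial F) K E₀ B₀
  haveI : Algebra.IsIntegral (Polynomial F) B := ⟨fun b =>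
    IsIntegralClosure.isIntegral (Polynomial F) M b⟩
  haveI : FaithfulSMul (Polynomial F) B₀ := (faithfulSMul_iff_algebraMap_injective _ _).2
    fun a b h => IsFractionRing.injective (Polynomial F) K ((algebraMap K E₀).injective (by
      rw [← IsScalarTower.algebraMap_apply, ← IsScalarTower.algebraMap_apply]
      exact congrArg Subtype.val h))
  haveI : FaithfulSMul (Polynomial F) B := (faithfulSMul_iff_algebraMap_injective _ _).2
    fun a b h => IsFractionRing.injective (Polynomial F) K ((algebraMap K M).injective (by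
      rw [← IsScalarTower.algebraMap_apply, ← IsScalarTower.algebraMap_apply]
      exact congrArg Subtype.val h))
  haveI : Module.IsTorsionFree (Polynomial F) B₀ := inferInstance
  let β₀ : B₀ →ₐ[Polynomial F] BE := (ι₀.restrictScalars (Polynomial F)).mapIntegralClosure
  let βM : BE →ₐ[Polynomial F] B := (ιM.restrictScalars (Polynomial F)).mapIntegralClosure
  let β : B₀ →ₐ[Polynomial F] B := βM.comp β₀
  let φ₀ : E₀ →ₐ[K] M := ιM.comp ι₀
  have hβ : ∀ b, φ₀.toRingHom (algebraMap B₀ E₀ b) = algebraMap B M (β.toRingHom b) := fun _ => rfl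
  have hβinj : Function.Injective β := fun a b h =>
    Subtype.ext (φ₀.toRingHom.injective (congrArg Subtype.val h :))
  have hβMinj : Function.Injective βM := fun a b h =>
    Subtype.ext (ιM.toRingHom.injective (congrArg Subtype.val h :))
  let Pm : ι → M := fun j => ιM (Pe j)
  -- zeros
  have hzE : IsZeroAt f (algebraMap (Polynomial F) E) Pe := by
    refine isZeroAt_of_map jΩ.toRingHom jΩ.toRingHom.injective ?_
    have h := isZeroAt_map (algebraMap (PowerSeries F) (LaurentSeries F)) hzero
    rw [← algebraMap_polynomial_powerSeries, ← IsScalarTower.algebraMap_eq] at h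
    rw [AlgHom.toRingHom_eq_coe, AlgHom.comp_algebraMap]
    simpa [hPe] using h
  have hzM : IsZeroAt f ((algebraMap B M).comp (β.toRingHom.comp (algebraMap (Polynomial F) B₀)))
      Pm := by
    have h := isZeroAt_map (ιM.restrictScalars (Polynomial F)).toRingHom hzE
    rw [show (algebraMap B M).comp (β.toRingHom.comp (algebraMap (Polynomial F) B₀)) =
      (ιM.restrictScalars (Polynomial F)).toRingHom.comp (algebraMap (Polynomial F) E) from
      RingHom.ext fun a => by
        show algebraMap B M (β (algebraMap _ B₀ a)) = _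
        rw [AlgHom.commutes, ← IsScalarTower.algebraMap_apply]
        exact ((ιM.restrictScalars (Polynomial F)).commutes a).symm]
    exact h
  have hsphM : ∀ b : Fin n, ∑ j ∈ Finset.univ.filter (fun j => TopEq b (ch j)), Pm j ^ 2 = 1 :=
    fun b => hsph M _ Pm hzM b
  have hsos : ∀ j, ∃ S, IsSumSq S ∧ φ₀.toRingHom S = Pm j ^ 2 := by
    refine coord_sumSq φ₀.toRingHom ch Pm jb top htop hjb Sj hSj
      (fun b => (map_ne_zero ιM.toRingHom).2 (hu b)) (fun j => ⟨g j, ?_⟩)
      (fun b => ⟨w b, ?_⟩) hsphM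
    · show ιM (ι₀ (g j)) = _
      rw [hg, map_mul, map_mul, map_prod]
    · show ιM (ι₀ (w b)) = _
      rw [hw, map_pow]
  -- a prime over the parameter `c` with odd residue degree gives a residue point
  have point : ∀ (c : F) (q : HeightOneSpectrum B₀), q.asIdeal.LiesOver (pc c) →
      Odd (Ideal.inertiaDeg' (pc c) q.asIdeal) → ∀ Q : HeightOneSpectrum B,
      q.asIdeal = Q.asIdeal.comap β.toRingHom →
      ∃ (hx : ∀ j, Pm j ∈ VR (M := M) Q) (k : Type) (_ : Field k) (_ : Algebra F k)
        (ν : k →+* IsLocalRing.ResidueField (VR (M := M) Q)) (y : ι → k),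
        (∀ s, ν (algebraMap F k s) = resB Q (β.toRingHom
          (algebraMap (Polynomial F) B₀ (Polynomial.C s)))) ∧
        (∀ j, ν (y j) = IsLocalRing.residue _ ⟨Pm j, hx j⟩) ∧
        Good n k (fun b => algebraMap F k (t b)) ∧
        IsZeroAt f (Polynomial.eval₂RingHom (algebraMap F k) (algebraMap F k c)) y := by
    intro c q hlo hf Q hq
    have hc : algebraMap (Polynomial F) B₀ (Polynomial.X - Polynomial.C c) ∈ q.asIdeal := by
      rw [← Ideal.mem_comap]
      exact hlo.over.le (Ideal.subset_span rfl)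
    refine residue_point hodd hsqrt hex t f ch hne β.toRingHom φ₀.toRingHom hβ
      (algebraMap (Polynomial F) B₀) Q q hq c hc ?_ Pm hsos hsphM hzM
    letI : Field (B₀ ⧸ q.asIdeal) := Ideal.Quotient.field q.asIdeal
    letI : Algebra F (B₀ ⧸ q.asIdeal) :=
      (((Ideal.Quotient.mk q.asIdeal).comp (algebraMap (Polynomial F) B₀)).comp
        Polynomial.C).toAlgebra
    rw [inertia_eq] at hf
    haveI : FiniteDimensional F (B₀ ⧸ q.asIdeal) := Module.finite_of_finrank_pos hf.pos
    exact hodd n F inferInstance _ inferInstance inferInstance t inferInstance hf hG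
  -- the standard primes
  let j₀ : E₀ →ₐ[Polynomial F] LaurentSeries F := jΩ.comp (ι₀.restrictScalars (Polynomial F))
  let qs : Ideal B₀ := RingHom.ker (cst j₀)
  have hcomp : ∀ b : B₀, cst jΩ (β₀ b) = cst j₀ b := by
    intro b
    show PowerSeries.constantCoeff (expand jΩ (β₀ b)) = PowerSeries.constantCoeff (expand j₀ b)
    refine congrArg _ (IsFractionRing.injective (PowerSeries F) (LaurentSeries F) ?_)
    rw [algebraMap_expand, algebraMap_expand]
    rfl
  haveI hqsmax : qs.IsMaximal := ker_cst_isMaximal j₀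
  haveI hqs : qs.LiesOver (pc (0 : F)) := ⟨by
    haveI := pc_isMaximal (0 : F)
    refine this.eq_of_le (Ideal.comap_ne_top _ hqsmax.ne_top) (Ideal.span_le.2 ?_)
    intro a ha
    rw [Set.mem_singleton_iff] at ha
    subst ha
    show algebraMap (Polynomial F) B₀ (Polynomial.X - Polynomial.C 0) ∈ qs
    rw [RingHom.mem_ker, cst_algebraMap]
    simp⟩
  haveI : (RingHom.ker (cst jΩ)).IsMaximal := ker_cst_isMaximal jΩ
  obtain ⟨Qs, hQs, hQsE⟩ := exists_over (A := Polynomial F) βM hβMinj (RingHom.ker (cst jΩ))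
  have hQs0 : Qs.comap β.toRingHom = qs := by
    ext b
    show βM.toRingHom (β₀ b) ∈ Qs ↔ _
    rw [← Ideal.mem_comap, hQsE, RingHom.mem_ker, RingHom.mem_ker, hcomp]
  -- the coordinates at the standard prime
  have hfrac : ∀ j, ∃ α δ : B, δ ∉ Qs ∧ Pm j * algebraMap B M δ = algebraMap B M α ∧
      α - algebraMap (Polynomial F) B (Polynomial.C (a₀ j)) * δ ∈ Qs := by
    intro j
    have hqE0 : RingHom.ker (cst jΩ) ≠ ⊥ := by
      intro h
      have hX : algebraMap (Polynomial F) BE Polynomial.X ∈ RingHom.ker (cst jΩ) := by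
        rw [RingHom.mem_ker, cst_algebraMap, Polynomial.eval_X]
      rw [h, Ideal.mem_bot] at hX
      exact X_notMem_sq jΩ (hX ▸ zero_mem _)
    let qE : HeightOneSpectrum BE := ⟨RingHom.ker (cst jΩ), inferInstance, hqE0⟩
    have hev : ∀ a d : BE, Pe j * algebraMap BE E d = algebraMap BE E a →
        cst jΩ a = a₀ j * cst jΩ d := by
      intro a d h
      have h1 : expand jΩ a = P j * expand jΩ d := by
        refine IsFractionRing.injective (PowerSeries F) (LaurentSeries F) ?_
        rw [map_mul, algebraMap_expand, algebraMap_expand, ← hPe, ← map_mul]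
        exact congrArg jΩ h.symm
      show PowerSeries.constantCoeff (expand jΩ a) = _
      rw [h1, map_mul, hP0]
      rfl
    have key : ∃ a d : BE, cst jΩ d ≠ 0 ∧ Pe j * algebraMap BE E d = algebraMap BE E a := by
      obtain ⟨a, d, h | h⟩ := qE.exists_primeCompl_mul_eq_or_mul_eq (Pe j)
      · exact ⟨a, d, d.2, h⟩
      · refine ⟨d, a, fun ha => d.2 ?_, h⟩
        show cst jΩ d = 0
        rw [hev _ _ h, ha, mul_zero]
    obtain ⟨a, d, hd, h⟩ := key
    refine ⟨βM a, βM d, fun h' => hd ?_, ?_, ?_⟩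
    · rw [← RingHom.mem_ker, ← hQsE]
      exact h'
    · show ιM (Pe j) * ιM (d : E) = ιM (a : E)
      rw [← map_mul]
      exact congrArg ιM h
    · rw [← βM.commutes, ← map_mul, ← map_sub]
      show a - algebraMap (Polynomial F) BE (Polynomial.C (a₀ j)) * d ∈ Qs.comap βM.toRingHom
      rw [hQsE, RingHom.mem_ker, map_sub, map_mul, cst_algebraMap, Polynomial.eval_C, hev a d h,
        sub_self]
  haveI : SMulCommClass Gal(M/K) (Polynomial F) M := ⟨fun s a x => by
    rw [Algebra.smul_def, Algebra.smul_def, smul_mul',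
      IsScalarTower.algebraMap_apply (Polynomial F) K M]
    congr 1
    exact s.commutes _⟩
  haveI : Algebra.IsInvariant (Polynomial F) B Gal(M/K) := ⟨fun b hb => by
    have hfix : ∀ s : Gal(M/K), s (b : M) = (b : M) := fun s => congrArg Subtype.val (hb s)
    obtain ⟨x, hx⟩ := IntermediateField.mem_bot.1
      ((IsGalois.mem_bot_iff_fixed (F := K) (b : M)).2 hfix)
    have hint : IsIntegral (Polynomial F) x := by
      refine (isIntegral_algebraMap_iff (algebraMap K M).injective).1 ?_
      rw [hx]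
      exact b.2
    obtain ⟨a, ha⟩ := IsIntegrallyClosed.algebraMap_eq_of_integral hint
    refine ⟨a, Subtype.ext ?_⟩
    show algebraMap (Polynomial F) M a = (b : M)
    rw [IsScalarTower.algebraMap_apply (Polynomial F) K M, ha, hx]⟩
  -- a prime over the origin with odd invariants is the standard one
  have uniq : ∀ q : HeightOneSpectrum B₀, q.asIdeal.LiesOver (pc (0 : F)) →
      Odd (Ideal.inertiaDeg' (pc (0 : F)) q.asIdeal) → q.asIdeal = qs := by
    intro q hlo hf
    haveI : q.asIdeal.IsMaximal := q.isMaximal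
    obtain ⟨Qi, hQi, hQq⟩ := exists_over (A := Polynomial F) β hβinj q.asIdeal
    have hunder : Qi.under (Polynomial F) = pc 0 := by
      rw [Ideal.under_def, hlo.over, Ideal.under_def, ← hQq, Ideal.comap_comap]
      congr 1
      exact (β.comp_algebraMap).symm
    have hsunder : Qs.under (Polynomial F) = pc 0 := by
      rw [Ideal.under_def, hqs.over, Ideal.under_def, ← hQs0, Ideal.comap_comap]
      congr 1
      exact (β.comp_algebraMap).symm
    have hQ0 : Qi ≠ ⊥ := fun h => pc_ne_bot (0 : F) <| by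
      rw [← hunder, h, Ideal.under_def, Ideal.comap_bot_of_injective]
      exact FaithfulSMul.algebraMap_injective _ _
    let Q : HeightOneSpectrum B := ⟨Qi, hQi.isPrime, hQ0⟩
    obtain ⟨hx, k, _, _, ν, y, hν, hy, hk, hzk⟩ := point 0 q hlo hf Q hQq.symm
    rw [map_zero] at hzk
    obtain ⟨a, ha, hay⟩ := horb k hk y hzk
    obtain ⟨σ, hσ⟩ := Algebra.IsInvariant.exists_smul_of_under_eq (Polynomial F) B Gal(M/K) Qs Qi
      (hsunder.trans hunder.symm)
    -- the signs
    let a' : Fin n → VR (M := M) Q := fun b => if a b = 1 then 1 else -1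
    have ha' : ∀ b, a' b ^ 2 = 1 := fun b => by simp only [a']; split_ifs <;> simp
    have haν : ∀ b, IsLocalRing.residue _ (a' b) = ν (a b) := fun b => by
      simp only [a']
      split_ifs with h
      · rw [h, map_one, map_one]
      · rw [(sq_eq_self_cases (ha b)).resolve_left h, map_neg, map_neg, map_one, map_one]
    let ψV : Polynomial F →+* VR (M := M) Q := (toVR Q).comp (algebraMap (Polynomial F) B)
    have hψ : ∀ p, β.toRingHom (algebraMap (Polynomial F) B₀ p) = algebraMap (Polynomial F) B p :=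
      β.commutes
    let ρ : F →+* IsLocalRing.ResidueField (VR (M := M) Q) :=
      (resB Q).comp ((algebraMap (Polynomial F) B).comp Polynomial.C)
    have hρ : ∀ s, ν (algebraMap F k s) = ρ s := fun s => by rw [hν, hψ]; rfl
    have hσfix : ∀ p : Polynomial F, σ (algebraMap (Polynomial F) M p) =
        algebraMap (Polynomial F) M p := fun p => by
      rw [IsScalarTower.algebraMap_apply (Polynomial F) K M]
      exact σ.commutes _
    -- the conjugate zero
    have hmemσ : ∀ j, σ (Pm j) ∈ VR (M := M) Q ∧ ∀ h, IsLocalRing.residue (VR (M := M) Q)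
        ⟨σ (Pm j), h⟩ = ρ (a₀ j) := by
      intro j
      obtain ⟨α, δ, hδ, hαδ, hc⟩ := hfrac j
      have h1 : σ (Pm j) * algebraMap B M (σ • δ) = algebraMap B M (σ • α) := by
        show σ (Pm j) * σ (δ : M) = σ (α : M)
        rw [← map_mul]
        exact congrArg σ hαδ
      have hδ' : σ • δ ∉ Q.asIdeal := fun h => hδ <| by
        rw [show Q.asIdeal = σ • Qs from hσ] at h
        exact Ideal.smul_mem_pointwise_smul_iff.1 h
      refine ⟨mem_VR_of_frac hδ' h1, fun h => ?_⟩
      have hc' : σ • α - algebraMap (Polynomial F) B (Polynomial.C (a₀ j)) * σ • δ ∈ Q.asIdeal := by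
        rw [show Q.asIdeal = σ • Qs from hσ]
        have h2 := Ideal.smul_mem_pointwise_smul σ _ _ hc
        rwa [smul_sub, smul_mul', show σ • algebraMap (Polynomial F) B (Polynomial.C (a₀ j)) =
          algebraMap (Polynomial F) B (Polynomial.C (a₀ j)) from Subtype.ext (hσfix _)] at h2
      have h3 := resB_frac (Q := Q) h h1
      rw [← resB_eq_zero_iff (M := M), map_sub, map_mul, sub_eq_zero] at hc'
      rw [hc'] at h3
      exact mul_right_cancel₀ (fun h0 => hδ' ((resB_eq_zero_iff _).1 h0)) h3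
    let xs : ι → VR (M := M) Q := fun j => ⟨σ (Pm j), (hmemσ j).1⟩
    let ys : ι → VR (M := M) Q := fun j => sg a' (ch j) * ⟨Pm j, hx j⟩
    have hsub : (VR (M := M) Q).subtype.comp ψV = (algebraMap B M).comp
        (β.toRingHom.comp (algebraMap (Polynomial F) B₀)) :=
      RingHom.ext fun p => by
        show algebraMap B M (algebraMap (Polynomial F) B p) = algebraMap B M (β _)
        rw [β.commutes]
    have hzxs : IsZeroAt f ψV xs := by
      refine isZeroAt_of_map (VR (M := M) Q).subtype Subtype.val_injective ?_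
      rw [hsub]
      have h := isZeroAt_map σ.toAlgHom.toRingHom hzM
      rwa [show σ.toAlgHom.toRingHom.comp
        ((algebraMap B M).comp (β.toRingHom.comp (algebraMap (Polynomial F) B₀))) =
        (algebraMap B M).comp (β.toRingHom.comp (algebraMap (Polynomial F) B₀)) from
        RingHom.ext fun p => by
          show σ (algebraMap B M (β (algebraMap _ B₀ p))) = algebraMap B M (β (algebraMap _ B₀ p))
          rw [β.commutes]
          exact hσfix p] at h
    have hzys : IsZeroAt f ψV ys :=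
      hequiv _ ψV (fun j => ⟨Pm j, hx j⟩) a' ha'
        (isZeroAt_of_map (VR (M := M) Q).subtype Subtype.val_injective (by rw [hsub]; exact hzM))
    have hres0 : ∀ j, IsLocalRing.residue _ (ys j) = ρ (a₀ j) := by
      intro j
      have hs : IsLocalRing.residue (VR (M := M) Q) (sg a' (ch j)) = ν (sg a (ch j)) := by
        rw [sg_map, sg_map]
        simp only [haν]
      simp only [ys, map_mul, hs, ← hy, hay]
      rw [hρ, ← mul_assoc, show (∏ b ∈ ch j, a b) = sg a (ch j) from rfl, ← map_mul,
        ← sq, sg_sq a ha, map_one, one_mul]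
    have hψV : (IsLocalRing.residue (VR (M := M) Q)).comp ψV = ρ.comp (Polynomial.evalRingHom 0) := by
      refine Polynomial.ringHom_ext (fun s => ?_) ?_
      · simp only [RingHom.comp_apply, Polynomial.coe_evalRingHom, Polynomial.eval_C]
        rfl
      · simp only [RingHom.comp_apply, Polynomial.coe_evalRingHom, Polynomial.eval_X, map_zero]
        refine (resB_eq_zero_iff (M := M) (Q := Q) _).2 ?_
        show algebraMap (Polynomial F) B Polynomial.X ∈ Qi
        rw [← Ideal.mem_comap, ← Ideal.under_def, hunder]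
        exact Ideal.subset_span (by simp)
    have heq : xs = ys := by
      refine zero_unique (fun k => MvPolynomial.map ψV (f k)) xs ys
        (fun k => by rw [MvPolynomial.eval_map]; exact hzxs k)
        (fun k => by rw [MvPolynomial.eval_map]; exact hzys k)
        (fun j => ?_) (fun i k => ψV (Polynomial.C (L i k))) (fun i j => ?_)
      · rw [← IsLocalRing.residue_eq_zero_iff, map_sub, hres0, (hmemσ j).2, sub_self]
      · rw [← IsLocalRing.residue_eq_zero_iff, map_sub, map_sum]
        have e : ∀ k, IsLocalRing.residue _ (ψV (Polynomial.C (L i k)) *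
            MvPolynomial.eval xs (MvPolynomial.pderiv j (MvPolynomial.map ψV (f k)))) =
            ρ (L i k * MvPolynomial.eval₂ (Polynomial.evalRingHom 0) a₀
              (MvPolynomial.pderiv j (f k))) := by
          intro k
          rw [map_mul, MvPolynomial.pderiv_map, MvPolynomial.eval_map, map_mul,
            MvPolynomial.eval₂_comp_left, hψV, MvPolynomial.eval₂_comp_left ρ]
          rw [show (⇑(IsLocalRing.residue (VR (M := M) Q)) ∘ xs) = ⇑ρ ∘ a₀ from
            funext fun l => (hmemσ l).2 _]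
          rfl
        rw [Finset.sum_congr rfl fun k _ => e k, ← map_sum, hL]
        split_ifs <;> simp
    -- so the conjugation fixes the invariant field
    let a'' : Fin n → M := fun b => (a' b : M)
    have ha'' : ∀ b, a'' b ^ 2 = 1 := fun b => congrArg Subtype.val (ha' b)
    have hσP : ∀ j, σ (Pm j) = sg a'' (ch j) * Pm j := fun j => by
      have h := congrArg Subtype.val (congrFun heq j)
      simp only [xs, ys, MulMemClass.coe_mul] at h
      rw [h]
      congr 1
      exact sg_map (VR (M := M) Q).subtype a' (ch j)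
    have hfix : σ.toAlgHom.comp φ₀ = φ₀ := by
      refine hgen _ _ (fun j => ?_) (fun b => ?_)
      · show σ (ιM (ι₀ (g j))) = ιM (ι₀ (g j))
        rw [hg]
        simp only [map_mul, map_prod]
        rw [show σ (ιM (Pe j)) = _ from hσP j, show σ (ιM (Pe (jb (top j)))) = _ from hσP _,
          Finset.prod_congr rfl (fun c _ => show σ (ιM (Pe (jb c))) = _ from hσP (jb c)),
          Finset.prod_mul_distrib, hSp j M a'' ha'']
        have h2 : (sg a'' (ch (jb (top j))) * ∏ c ∈ Sj j, sg a'' (ch (jb c))) ^ 2 = 1 := by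
          rw [← hSp j M a'' ha'', sg_sq a'' ha'']
        linear_combination (ιM (Pe j) * ιM (Pe (jb (top j))) * ∏ c ∈ Sj j, Pm (jb c)) * h2
      · show σ (ιM (ι₀ (w b))) = ιM (ι₀ (w b))
        rw [hw, map_pow, map_pow, show σ (ιM (Pe (jb b))) = _ from hσP _, mul_pow,
          sg_sq a'' ha'', one_mul]
    ext b
    have hb : σ • β.toRingHom b = β.toRingHom b :=
      Subtype.ext (DFunLike.congr_fun hfix (b : E₀))
    rw [← hQq, Ideal.mem_comap, hσ, ← hb, Ideal.smul_mem_pointwise_smul_iff, ← Ideal.mem_comap,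
      hQs0]
  -- parity
  have hsum : ∀ c : F, ∑ q ∈ IsDedekindDomain.primesOverFinset (pc c) B₀,
      Ideal.ramificationIdx' (pc c) q * Ideal.inertiaDeg' (pc c) q = Module.finrank K E₀ := by
    intro c
    haveI := pc_isMaximal c
    exact Ideal.sum_ramification_inertia B₀ K E₀ (pc_ne_bot c)
  have hmem : ∀ (c : F) (q : Ideal B₀), q ∈ IsDedekindDomain.primesOverFinset (pc c) B₀ ↔
      q ∈ (pc c).primesOver B₀ := fun c q => by
    haveI := pc_isMaximal c
    exact IsDedekindDomain.mem_primesOverFinset_iff (pc_ne_bot c) B₀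
  have hspec : ∀ (c : F) (q : Ideal B₀), q ∈ IsDedekindDomain.primesOverFinset (pc c) B₀ →
      ∃ q' : HeightOneSpectrum B₀, q'.asIdeal = q ∧ q'.asIdeal.LiesOver (pc c) := by
    intro c q hq
    obtain ⟨h1, h2⟩ := (hmem c q).1 hq
    refine ⟨⟨q, h1, fun h => pc_ne_bot c ?_⟩, rfl, h2⟩
    rw [h2.over, h, Ideal.under_def, Ideal.comap_bot_of_injective]
    exact FaithfulSMul.algebraMap_injective _ _
  have he : Ideal.ramificationIdx' (pc (0 : F)) qs = 1 := by
    refine Ideal.ramificationIdx'_spec ?_ ?_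
    · rw [pow_one, Ideal.map_le_iff_le_comap]
      exact hqs.over.le
    · intro h
      refine X_notMem_sq j₀ (h (Ideal.mem_map_of_mem _ ?_))
      exact Ideal.subset_span (by simp)
  have hfdeg : Ideal.inertiaDeg' (pc (0 : F)) qs = 1 := by
    rw [inertia_eq]
    letI : Algebra F (B₀ ⧸ qs) :=
      RingHom.toAlgebra (S := B₀ ⧸ qs)
        (((Ideal.Quotient.mk qs).comp (algebraMap (Polynomial F) B₀)).comp Polynomial.C)
    let e : F ≃ₗ[F] B₀ ⧸ qs := LinearEquiv.ofBijective (Algebra.linearMap F (B₀ ⧸ qs))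
      ⟨(algebraMap F (B₀ ⧸ qs)).injective, fun x => by
        obtain ⟨b, rfl⟩ := Ideal.Quotient.mk_surjective x
        refine ⟨cst j₀ b, Ideal.Quotient.eq.2 ?_⟩
        show algebraMap (Polynomial F) B₀ (Polynomial.C (cst j₀ b)) - b ∈ qs
        rw [RingHom.mem_ker, map_sub, cst_algebraMap, Polynomial.eval_C, sub_self]⟩
    rw [← e.finrank_eq, Module.finrank_self]
  have hodd0 : Odd (Module.finrank K E₀) := by
    rw [← hsum 0, Finset.odd_sum_iff_odd_card_odd, Finset.card_eq_one.2 ⟨qs, ?_⟩]
    · exact odd_one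
    refine Finset.eq_singleton_iff_unique_mem.2
      ⟨Finset.mem_filter.2 ⟨(hmem 0 qs).2 ⟨hqsmax.isPrime, hqs⟩, by rw [he, hfdeg]; exact odd_one⟩,
        fun q hq => ?_⟩
    obtain ⟨hq1, hq2⟩ := Finset.mem_filter.1 hq
    obtain ⟨q', rfl, hlo⟩ := hspec 0 q hq1
    exact uniq q' hlo (Nat.odd_mul.1 hq2).2
  obtain ⟨q, hq, hqodd⟩ : ∃ q ∈ IsDedekindDomain.primesOverFinset (pc (-1 : F)) B₀,
      Odd (Ideal.ramificationIdx' (pc (-1 : F)) q * Ideal.inertiaDeg' (pc (-1 : F)) q) := by
    rw [← hsum (-1), Finset.odd_sum_iff_odd_card_odd] at hodd0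
    obtain ⟨q, hq⟩ := Finset.card_pos.1 hodd0.pos
    exact ⟨q, (Finset.mem_filter.1 hq).1, (Finset.mem_filter.1 hq).2⟩
  obtain ⟨q', rfl, hlo⟩ := hspec (-1) q hq
  haveI : q'.asIdeal.IsMaximal := q'.isMaximal
  obtain ⟨Qi, hQi, hQq⟩ := exists_over (A := Polynomial F) β hβinj q'.asIdeal
  have hQ0 : Qi ≠ ⊥ := fun h => q'.ne_bot <| by
    rw [← hQq, h, Ideal.comap_bot_of_injective]
    exact hβinj
  obtain ⟨-, k, _, _, -, y, -, -, hk, hzk⟩ :=
    point (-1) q' hlo (Nat.odd_mul.1 hqodd).2 ⟨Qi, hQi.isPrime, hQ0⟩ hQq.symm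
  rw [map_neg, map_one] at hzk
  exact ⟨k, inferInstance, inferInstance, y, hk, hzk⟩

/-- The branch is algebraic and isolated. -/
lemma branch_algebraic (halg : NewtonAlgebraic) [CharZero F] {ι κ : Type} [Fintype ι] [Fintype κ]
    (a₀ : ι → F) (f : κ → MvPolynomial ι (Polynomial F)) (L : Matrix ι κ F)
    (hL : ∀ i j, ∑ k, L i k * MvPolynomial.eval₂ (Polynomial.evalRingHom 0) a₀
      (MvPolynomial.pderiv j (f k)) = if i = j then 1 else 0)
    (P : ι → PowerSeries F) (hP0 : ∀ j, PowerSeries.constantCoeff (P j) = a₀ j)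
    (hzero : IsZeroAt f (Polynomial.eval₂RingHom PowerSeries.C PowerSeries.X) P) (j : ι) :
    IsIntegral (RatFunc F) (algebraMap (PowerSeries F) (LaurentSeries F) (P j)) := by
  set φ : Polynomial F →+* PowerSeries F := Polynomial.eval₂RingHom PowerSeries.C PowerSeries.X
    with hφ
  haveI : CharZero (RatFunc F) :=
    charZero_of_injective_algebraMap (algebraMap F (RatFunc F)).injective
  set ιp := algebraMap (PowerSeries F) (LaurentSeries F) with hιp
  have hφΩ : ιp.comp φ = algebraMap (Polynomial F) (LaurentSeries F) := by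
    rw [hφ, ← algebraMap_polynomial_powerSeries]
    exact (IsScalarTower.algebraMap_eq _ _ _).symm
  have hev : ∀ p : MvPolynomial ι (Polynomial F),
      MvPolynomial.aeval (fun l => ιp (P l)) (p.map (algebraMap (Polynomial F) (RatFunc F))) =
        ιp (MvPolynomial.eval₂ φ P p) := fun p => by
    rw [MvPolynomial.aeval_map_algebraMap, MvPolynomial.aeval_def, MvPolynomial.eval₂_comp_left,
      hφΩ]
    rfl
  refine (halg (RatFunc F) inferInstance inferInstance (LaurentSeries F) inferInstance inferInstance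
    ι κ inferInstance (fun k => (f k).map (algebraMap (Polynomial F) (RatFunc F)))
    (fun l => ιp (P l)) (fun k => by rw [hev, hzero k, map_zero]) ?_ j).isIntegral
  intro v hv
  -- a left inverse of the Jacobian
  set N : Matrix ι ι (PowerSeries F) := fun i l =>
    ∑ k, PowerSeries.C (L i k) * MvPolynomial.eval₂ φ P (MvPolynomial.pderiv l (f k)) with hN
  have h0 : (PowerSeries.constantCoeff (R := F)).comp φ = Polynomial.evalRingHom 0 :=
    Polynomial.ringHom_ext (by simp [hφ]) (by simp [hφ])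
  have hN0 : N.map (PowerSeries.constantCoeff (R := F)) = 1 := by
    ext i l
    rw [Matrix.map_apply, hN, map_sum, Matrix.one_apply, ← hL i l]
    refine Finset.sum_congr rfl fun k _ => ?_
    rw [map_mul, PowerSeries.constantCoeff_C, MvPolynomial.eval₂_comp_left, h0,
      show ⇑(PowerSeries.constantCoeff (R := F)) ∘ P = a₀ from funext hP0]
  have hdet : (N.map ιp).det ≠ 0 := by
    rw [← RingHom.mapMatrix_apply, ← RingHom.map_det]
    refine (map_ne_zero_iff _ (IsFractionRing.injective (PowerSeries F) (LaurentSeries F))).2 ?_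
    intro hd
    have h1 := RingHom.map_det (PowerSeries.constantCoeff (R := F)) N
    rw [hd, RingHom.mapMatrix_apply, hN0, Matrix.det_one, map_zero] at h1
    exact zero_ne_one h1
  refine Matrix.eq_zero_of_mulVec_eq_zero hdet (funext fun i => ?_)
  have hNe : ∀ l, N.map ιp i l = ∑ k, ιp (PowerSeries.C (L i k)) *
      ιp (MvPolynomial.eval₂ φ P (MvPolynomial.pderiv l (f k))) := fun l => by
    show ιp (∑ k, PowerSeries.C (L i k) * MvPolynomial.eval₂ φ P (MvPolynomial.pderiv l (f k))) = _
    rw [map_sum]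
    exact Finset.sum_congr rfl fun k _ => map_mul _ _ _
  show ∑ l, N.map ιp i l * v l = 0
  simp only [hNe, Finset.sum_mul]
  rw [Finset.sum_comm]
  refine Finset.sum_eq_zero fun k _ => ?_
  have h2 := hv k
  simp only [MvPolynomial.pderiv_map, hev] at h2
  simp only [mul_assoc, ← Finset.mul_sum, h2, mul_zero]

set_option maxHeartbeats 400000 in
/-- The fields of the branch. -/
theorem fields (hodd : GoodOdd) (hsqrt : GoodSqrt) (hex : GoodExists)
    {n : ℕ} (t : Fin n → F) {ι κ : Type} [Fintype ι] [Fintype κ]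
    (ch : ι → Finset (Fin n)) (a₀ : ι → F) (f : κ → MvPolynomial ι (Polynomial F))
    (hG : Good n F t) (hne : ∀ j, (ch j).Nonempty)
    (hequiv : ∀ (R : Type) [CommRing R] [IsDomain R] (φ : Polynomial F →+* R) (x : ι → R)
      (a : Fin n → R), (∀ b, a b ^ 2 = 1) → IsZeroAt f φ x →
        IsZeroAt f φ fun j => (∏ b ∈ ch j, a b) * x j)
    (hsph : ∀ (R : Type) [CommRing R] [IsDomain R] (φ : Polynomial F →+* R) (x : ι → R),
      IsZeroAt f φ x → ∀ b : Fin n,
        ∑ j ∈ Finset.univ.filter (fun j => TopEq b (ch j)), x j ^ 2 = 1)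
    (horb : ∀ (k : Type) [Field k] [Algebra F k], Good n k (fun b => algebraMap F k (t b)) →
      ∀ x : ι → k, IsZeroAt f (Polynomial.eval₂RingHom (algebraMap F k) 0) x →
        ∃ a : Fin n → k, (∀ b, a b ^ 2 = 1) ∧
          ∀ j, x j = (∏ b ∈ ch j, a b) * algebraMap F k (a₀ j))
    (L : Matrix ι κ F)
    (hL : ∀ i j, ∑ k, L i k * MvPolynomial.eval₂ (Polynomial.evalRingHom 0) a₀
      (MvPolynomial.pderiv j (f k)) = if i = j then 1 else 0)
    {K Ω : Type} [Field K] [CharZero K] [Algebra (Polynomial F) K]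
    [IsFractionRing (Polynomial F) K] [Field Ω] [Algebra (Polynomial F) Ω] [Algebra K Ω]
    [IsScalarTower (Polynomial F) K Ω] (θ : Ω →ₐ[Polynomial F] LaurentSeries F)
    (P : ι → PowerSeries F) (hP0 : ∀ j, PowerSeries.constantCoeff (P j) = a₀ j)
    (hzero : IsZeroAt f (Polynomial.eval₂RingHom PowerSeries.C PowerSeries.X) P)
    (PΩ : ι → Ω) (hPΩ : ∀ j, θ (PΩ j) = algebraMap (PowerSeries F) (LaurentSeries F) (P j))
    (hint : ∀ j, IsIntegral K (PΩ j))
    (jb : Fin n → ι) (top : ι → Fin n) (htop : ∀ j, TopEq (top j) (ch j))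
    (hjb : ∀ b, top (jb b) = b) (hu : ∀ b, PΩ (jb b) ≠ 0)
    (Sj : ι → Finset (Fin n)) (hSj : ∀ j, ∀ c ∈ Sj j, c < top j)
    (hSp : ∀ j, ∀ (R : Type) [CommRing R] (a : Fin n → R), (∀ b, a b ^ 2 = 1) →
      sg a (ch j) = sg a (ch (jb (top j))) * ∏ c ∈ Sj j, sg a (ch (jb c))) :
    ∃ (k : Type) (_ : Field k) (_ : Algebra F k) (x : ι → k),
      Good n k (fun b => algebraMap F k (t b)) ∧
        IsZeroAt f (Polynomial.eval₂RingHom (algebraMap F k) (-1)) x := by
  let E := IntermediateField.adjoin K (Set.range PΩ)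
  haveI : Finite (Set.range PΩ) := Finite.Set.finite_range _
  haveI : FiniteDimensional K E :=
    IntermediateField.finiteDimensional_adjoin (by rintro _ ⟨j, rfl⟩; exact hint j)
  let Pe : ι → E := fun j => ⟨PΩ j, IntermediateField.subset_adjoin _ _ ⟨j, rfl⟩⟩
  have hu' : ∀ b, Pe (jb b) ≠ 0 := fun b h => hu b (congrArg Subtype.val h)
  let gE : ι → E := fun j => Pe j * (Pe (jb (top j)) * ∏ c ∈ Sj j, Pe (jb c))
  let wE : Fin n → E := fun b => Pe (jb b) ^ 2
  let E₀ : IntermediateField K E := IntermediateField.adjoin K (Set.range gE ∪ Set.range wE)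
  let g : ι → E₀ := fun j => ⟨gE j, IntermediateField.subset_adjoin _ _ (Or.inl ⟨j, rfl⟩)⟩
  let w : Fin n → E₀ := fun b => ⟨wE b, IntermediateField.subset_adjoin _ _ (Or.inr ⟨b, rfl⟩)⟩
  let M := IntermediateField.normalClosure K E (AlgebraicClosure E)
  let ιM : E →ₐ[K] M :=
    (IsScalarTower.toAlgHom K E (AlgebraicClosure E)).codRestrict M.toSubalgebra
      fun x => AlgHom.fieldRange_le_normalClosure _ ⟨x, rfl⟩
  have hgen : ∀ h₁ h₂ : E₀ →ₐ[K] M, (∀ j, h₁ (g j) = h₂ (g j)) →
      (∀ b, h₁ (w b) = h₂ (w b)) → h₁ = h₂ := by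
    intro h₁ h₂ hg' hw'
    refine AlgHom.ext fun ⟨x, hx⟩ => ?_
    induction hx using IntermediateField.adjoin_induction with
    | mem x hx =>
      rcases hx with ⟨j, rfl⟩ | ⟨b, rfl⟩
      · exact hg' j
      · exact hw' b
    | algebraMap r => exact (h₁.commutes r).trans (h₂.commutes r).symm
    | add x y hx hy ihx ihy =>
      show h₁ (⟨x, hx⟩ + ⟨y, hy⟩) = h₂ (⟨x, hx⟩ + ⟨y, hy⟩)
      rw [map_add, map_add, ihx, ihy]
    | mul x y hx hy ihx ihy =>
      show h₁ (⟨x, hx⟩ * ⟨y, hy⟩) = h₂ (⟨x, hx⟩ * ⟨y, hy⟩)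
      rw [map_mul, map_mul, ihx, ihy]
    | inv x hx ihx =>
      show h₁ (⟨x, hx⟩⁻¹) = h₂ (⟨x, hx⟩⁻¹)
      rw [map_inv₀, map_inv₀, ihx]
  haveI : IsGalois K M := ⟨⟩
  exact core hodd hsqrt hex t ch a₀ f hG hne hequiv hsph horb L hL E₀.val ιM
    (θ.comp (E.val.restrictScalars (Polynomial F))) P hP0 Pe (fun j => hPΩ j) hzero jb top htop
    hjb hu' Sj hSj hSp g (fun j => rfl) w (fun b => rfl) hgen

end Par

open scoped RatFunc in
set_option maxHeartbeats 400000 in
/-- M5: the parity step. -/
theorem parity : GoodOdd → GoodSqrt → GoodExists → NewtonUnique → NewtonAlgebraic → Parity := by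
  intro hodd hsqrt hex _ halg n F _ t ι κ _ _ ch a₀ f hG hne ha01 hequiv hsph horb hjac hP
  obtain ⟨P, hP0, hzero⟩ := hP
  haveI : IsFormallyReal F := (hex.1 n F _ t hG).1
  haveI : CharZero F := Par.charZero_of_formallyReal
  -- the reference has one nonzero coordinate at every bit
  have hjb : ∀ b, ∃ j, TopEq b (ch j) ∧ a₀ j = 1 := by
    intro b
    have hz := Par.isZeroAt_map (PowerSeries.constantCoeff (R := F)) hzero
    simp only [hP0] at hz
    have h1 := hsph F _ a₀ hz b
    by_contra hno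
    rw [Finset.sum_eq_zero] at h1
    · exact zero_ne_one h1
    · intro j hj
      rcases ha01 j with h | h
      · rw [h]; ring
      · exact absurd ⟨j, (Finset.mem_filter.1 hj).2, h⟩ hno
  choose jb hjbT hjb1 using hjb
  have htop : ∀ j, ∃ b, TopEq b (ch j) := fun j => Par.exists_top (hne j)
  choose top htop using htop
  have hjb' : ∀ b, top (jb b) = b := fun b =>
    le_antisymm ((hjbT b).2 _ (htop _).1) ((htop _).2 _ (hjbT b).1)
  have hspan : ∀ j, ∃ S : Finset (Fin n), (∀ c ∈ S, c < top j) ∧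
      ∀ (R : Type) [CommRing R] (a : Fin n → R), (∀ b, a b ^ 2 = 1) →
        Par.sg a (ch j) = Par.sg a (ch (jb (top j))) * ∏ c ∈ S, Par.sg a (ch (jb c)) := fun j =>
    Par.exists_span_top (fun b => ch (jb b)) hjbT (top j) (ch j) (htop j)
  choose Sj hSj hSp using hspan
  -- a left inverse of the Jacobian
  obtain ⟨L, hL⟩ : ∃ L : Matrix ι κ F, ∀ i j, ∑ k, L i k *
      MvPolynomial.eval₂ (Polynomial.evalRingHom 0) a₀ (MvPolynomial.pderiv j (f k)) =
        if i = j then 1 else 0 := by
    set J : Matrix κ ι F := fun k j =>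
      MvPolynomial.eval₂ (Polynomial.evalRingHom 0) a₀ (MvPolynomial.pderiv j (f k)) with hJ
    obtain ⟨g, hg⟩ := LinearMap.exists_leftInverse_of_injective (Matrix.toLin' J)
      (LinearMap.ker_eq_bot'.2 fun v hv => hjac v fun k => congrFun hv k)
    refine ⟨LinearMap.toMatrix' g, fun i j => ?_⟩
    have h := congrArg LinearMap.toMatrix' hg
    rw [LinearMap.toMatrix'_comp, LinearMap.toMatrix'_id, LinearMap.toMatrix'_toLin'] at h
    have h' := congrFun (congrFun h i) j
    rw [Matrix.mul_apply, Matrix.one_apply] at h'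
    exact h'
  -- the fields
  set PΩ : ι → LaurentSeries F := fun j => algebraMap (PowerSeries F) (LaurentSeries F) (P j)
    with hPΩ
  haveI : CharZero (RatFunc F) :=
    charZero_of_injective_algebraMap (algebraMap F (RatFunc F)).injective
  have hu : ∀ b, PΩ (jb b) ≠ 0 := fun b h => by
    rw [hPΩ] at h
    simp only [map_eq_zero_iff _ (IsFractionRing.injective (PowerSeries F) (LaurentSeries F))] at h
    have h2 := hP0 (jb b)
    rw [h, map_zero, hjb1] at h2
    exact zero_ne_one h2
  exact Par.fields hodd hsqrt hex t ch a₀ f hG hne hequiv hsph horb L hL (K := RatFunc F)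
    (AlgHom.id (Polynomial F) (LaurentSeries F)) P hP0 hzero PΩ (fun j => rfl)
    (Par.branch_algebraic halg a₀ f L hL P hP0 hzero) jb top htop hjb' hu Sj hSj hSp

end

end Vale.Agent.P199.Cex
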