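import Vale.Agent.P199.Cex.Main
import Vale.Agent.P199.Cex.Parity
import Vale.Agent.P199.Cex.GoodExtend

/-!
P199, counterexample: all modules together.
-/

namespace Vale.Agent.P199.Cex

/-- Kurosh's problem for division rings has a negative answer. -/
theorem counterexample : Counterexample :=
  counterexample_of_parity
    (parity goodOdd goodSqrt goodExists newton_unique_local newton_algebraic)

end Vale.Agent.P199.Cex
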