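import Vale.Agent.P199.Cex.GoodBasic

/-!
P199, counterexample, M2: sums of squares at valuations with formally real residue field.
-/

namespace Vale.Agent.P199.Cex

open IsLocalRing

noncomputable section

variable {F : Type*} [Field F] (O : ValuationSubring F) [IsFormallyReal (ResidueField O)]

/-- If a sum of squares is integral, so are its terms. -/
theorem real_mem {ι : Type*} {s : Finset ι} (x : ι → F) (h : ∑ i ∈ s, x i ^ 2 ∈ O) {i : ι}
    (hi : i ∈ s) : x i ∈ O := by
  by_contra hiO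
  have := formallyReal_iff.1 (inferInstance : IsFormallyReal (ResidueField O))
  have hx : ∃ j : s, x j ≠ 0 := ⟨⟨i, hi⟩, fun h0 => hiO (h0 ▸ O.zero_mem)⟩
  obtain ⟨g, i₀, y, hg, hy, hxy⟩ := exists_primitive O (fun j : s => x j) hx
  have hgO : g ∉ O := fun hgO => hiO <| by
    rw [show x i = g * y ⟨i, hi⟩ from hxy ⟨i, hi⟩]
    exact O.mul_mem _ _ hgO (y _).2
  have hinv : g⁻¹ ∈ O := (O.mem_or_inv_mem g).resolve_left hgO
  have hc : residue O ⟨g⁻¹, hinv⟩ = 0 := by
    rw [residue_eq_zero_iff, mem_maximalIdeal, mem_nonunits_iff]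
    intro hu
    obtain ⟨d, hd⟩ := hu.exists_right_inv
    have hd' : g⁻¹ * (d : F) = 1 := congrArg Subtype.val hd
    exact hgO ((by field_simp at hd'; exact hd' : (d : F) = g) ▸ d.2)
  have he : ∑ j, y j * y j = ⟨g⁻¹, hinv⟩ * ⟨g⁻¹, hinv⟩ * ⟨_, h⟩ := Subtype.ext <| by
    push_cast
    rw [← Finset.sum_attach s fun j => x j ^ 2, ← Finset.univ_eq_attach, Finset.mul_sum]
    exact Finset.sum_congr rfl fun j _ => by rw [hxy j]; field_simp
  have h0 : ∑ j, residue O (y j) * residue O (y j) = 0 := by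
    simp only [← map_mul, ← map_sum, he]
    rw [map_mul, map_mul, hc, zero_mul, zero_mul]
  have h1 := semireal_sq_sum_eq_zero Finset.univ _ h0 i₀ (Finset.mem_univ _)
  rw [hy, map_one] at h1
  exact one_ne_zero h1

/-- The residue of a sum of squares is a sum of squares. -/
theorem residue_isSumSq (a : O) (h : IsSumSq (a : F)) : IsSumSq (residue O a) := by
  obtain ⟨m, x, hx⟩ := sumSq_eq_sum h
  have hm : ∑ i, x i ^ 2 ∈ O := by simp only [sq, ← hx]; exact a.2
  have e : a = ∑ i, (⟨x i, real_mem O x hm (Finset.mem_univ i)⟩ : O) *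
      ⟨x i, real_mem O x hm (Finset.mem_univ i)⟩ := Subtype.ext (by push_cast; exact hx)
  rw [e]
  simp only [map_sum, map_mul]
  exact IsSumSq.sum_mul_self _ _

end

end Vale.Agent.P199.Cex
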