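import Vale.Agent.P199.Cex.Algebra

/-!
# P199: forgetting the top bit when its parameter vanishes

If the last parameter is zero, the multiquaternion algebra on `n + 1` bits is a square-zero
extension of the one on the first `n` bits.
-/

open scoped Classical

namespace Vale.Agent.P199.Cex

noncomputable section

namespace Qa

/-- Change of scalars, coefficient by coefficient. -/
def chg {n : ℕ} {F F' : Type*} [CommRing F] [CommRing F'] (f : F →+* F') (t : Fin n → F)
    (t' : Fin n → F') (h : ∀ b, f (t b) = t' b) : Qa t →+* Qa t' where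
  toFun a := mk fun X => f (a.coef X)
  map_one' := funext fun X => by
    change f (if X = ∅ then 1 else 0) = if X = ∅ then 1 else 0
    split <;> simp
  map_mul' a c := funext fun Z => by
    change f (∑ X, a.coef X * c.coef (symmDiff X Z) * fac t X (symmDiff X Z)) =
      ∑ X, f (a.coef X) * f (c.coef (symmDiff X Z)) * fac t' X (symmDiff X Z)
    rw [map_sum]
    refine Finset.sum_congr rfl fun X _ => ?_
    simp only [map_mul, fac, sgn, map_prod, h, apply_ite f, map_neg, map_one]
  map_zero' := funext fun X => map_zero f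
  map_add' a c := funext fun X => map_add f (a X) (c X)

theorem chg_coef {n : ℕ} {F F' : Type*} [CommRing F] [CommRing F'] (f : F →+* F') (t : Fin n → F)
    (t' : Fin n → F') (h : ∀ b, f (t b) = t' b) (a : Qa t) (X : Finset (Fin n)) :
    (chg f t t' h a).coef X = f (a.coef X) := rfl

variable {n : ℕ}

/-- A set of low bits among `n + 1` bits. -/
def upBit (X : Finset (Fin n)) : Finset (Fin (n + 1)) := X.map Fin.castSuccEmb

/-- The low bits of a set. -/
def down (Z : Finset (Fin (n + 1))) : Finset (Fin n) :=
  Finset.univ.filter fun b => b.castSucc ∈ Z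

theorem castSucc_mem_up {X : Finset (Fin n)} {b : Fin n} : b.castSucc ∈ upBit X ↔ b ∈ X := by
  simp [upBit]

theorem last_not_mem_up (X : Finset (Fin n)) : Fin.last n ∉ upBit X := by
  simp [upBit, Fin.castSucc_ne_last]

theorem down_up (X : Finset (Fin n)) : down (upBit X) = X := by
  ext b
  simp [down, castSucc_mem_up]

theorem up_down {Z : Finset (Fin (n + 1))} (h : Fin.last n ∉ Z) : upBit (down Z) = Z := by
  ext c
  refine Fin.lastCases ?_ ?_ c
  · simp [last_not_mem_up, h]
  · intro b
    simp [castSucc_mem_up, down]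

theorem up_injective : Function.Injective (upBit : Finset (Fin n) → Finset (Fin (n + 1))) :=
  Function.LeftInverse.injective down_up

theorem upBit_symmDiff (X Y : Finset (Fin n)) : upBit (symmDiff X Y) = symmDiff (upBit X) (upBit Y) := by
  ext c
  refine Fin.lastCases ?_ ?_ c
  · simp [Finset.mem_symmDiff, last_not_mem_up]
  · intro b
    simp [Finset.mem_symmDiff, castSucc_mem_up]

variable {F : Type*} [CommRing F] {s : Fin n → F} {t : Fin (n + 1) → F}

theorem fac_upBit (hs : ∀ b, t b.castSucc = s b) (X Y : Finset (Fin n)) :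
    fac t (upBit X) (upBit Y) = fac s X Y := by
  have h1 : upBit X ∩ upBit Y = upBit (X ∩ Y) := (Finset.map_inter ..).symm
  have h2 : ∏ b ∈ upBit (X ∩ Y), t b = ∏ b ∈ X ∩ Y, s b := by
    rw [upBit, Finset.prod_map]
    exact Finset.prod_congr rfl fun b _ => hs b
  have h3 : sgn (F := F) (upBit X) (upBit Y) = sgn X Y := by
    rw [sgn, Fin.prod_univ_castSucc, if_neg (fun h => last_not_mem_up X h.1), mul_one, sgn]
    refine Finset.prod_congr rfl fun b _ => if_congr ?_ rfl rfl
    simp only [castSucc_mem_up, Fin.val_castSucc]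
    refine and_congr_right fun _ => and_congr_right fun _ => ?_
    simp [upBit]
  rw [fac, fac, h1, h2, h3]

theorem fac_eq_zero (h0 : t (Fin.last n) = 0) {X Y : Finset (Fin (n + 1))}
    (hX : Fin.last n ∈ X) (hY : Fin.last n ∈ Y) : fac t X Y = 0 := by
  rw [fac, Finset.prod_eq_zero (Finset.mem_inter.2 ⟨hX, hY⟩) h0, mul_zero]

variable (hs : ∀ b, t b.castSucc = s b) (h0 : t (Fin.last n) = 0)

/-- The coefficients off the last bit. -/
def dropLast (t : Fin (n + 1) → F) (s : Fin n → F) : Qa t →ₗ[F] Qa s where
  toFun a := mk fun Y => a.coef (upBit Y)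
  map_add' _ _ := rfl
  map_smul' _ _ := rfl

/-- Extension by zero. -/
def addLast (s : Fin n → F) (t : Fin (n + 1) → F) : Qa s →ₗ[F] Qa t where
  toFun a := mk fun Z => if Fin.last n ∈ Z then 0 else a.coef (down Z)
  map_add' a c := funext fun Z => by
    change (if Fin.last n ∈ Z then (0 : F) else a.coef (down Z) + c.coef (down Z)) =
      (if Fin.last n ∈ Z then 0 else a.coef (down Z)) +
        (if Fin.last n ∈ Z then 0 else c.coef (down Z))
    split <;> simp
  map_smul' r a := funext fun Z => by
    change (if Fin.last n ∈ Z then (0 : F) else r * a.coef (down Z)) =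
      r * (if Fin.last n ∈ Z then 0 else a.coef (down Z))
    split <;> simp

theorem dropLast_coef (a : Qa t) (Y : Finset (Fin n)) :
    (dropLast t s a).coef Y = a.coef (upBit Y) := rfl

theorem addLast_coef (a : Qa s) (Z : Finset (Fin (n + 1))) :
    (addLast s t a).coef Z = if Fin.last n ∈ Z then 0 else a.coef (down Z) := rfl

theorem dropLast_addLast (a : Qa s) : dropLast t s (addLast s t a) = a :=
  Qa.ext fun Y => by rw [dropLast_coef, addLast_coef, if_neg (last_not_mem_up Y), down_up]

include hs h0 in
theorem dropLast_mul (a c : Qa t) :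
    dropLast t s (a * c) = dropLast t s a * dropLast t s c := by
  refine Qa.ext fun Y => ?_
  rw [dropLast_coef, coef_mul, coef_mul]
  refine ((Fintype.sum_of_injective upBit up_injective _ _ (fun X hX => ?_) fun X => ?_)).symm
  · have hl : Fin.last n ∈ X := by
      by_contra h
      exact hX ⟨down X, up_down h⟩
    rw [fac_eq_zero h0 hl, mul_zero]
    simp [Finset.mem_symmDiff, hl, last_not_mem_up]
  · rw [← upBit_symmDiff, fac_upBit hs, dropLast_coef, dropLast_coef]

include hs h0 in
theorem addLast_mul (a c : Qa s) :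
    addLast s t (a * c) = addLast s t a * addLast s t c := by
  refine Qa.ext fun Z => ?_
  rw [addLast_coef]
  split_ifs with hZ
  · rw [coef_mul]
    refine (Finset.sum_eq_zero fun X _ => ?_).symm
    rw [addLast_coef, addLast_coef]
    split_ifs with h1 h2
    · ring
    · ring
    · ring
    · rename_i h3
      exact absurd (Finset.mem_symmDiff.2 (Or.inr ⟨hZ, h1⟩)) h3
  · have := congrArg (fun e => e.coef (down Z)) (dropLast_mul hs h0 (addLast s t a) (addLast s t c))
    simp only [dropLast_coef, dropLast_addLast, up_down hZ] at this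
    exact this.symm

include h0 in
theorem mul_eq_zero_of_top {a c : Qa t} (ha : ∀ X, Fin.last n ∉ X → a.coef X = 0)
    (hc : ∀ X, Fin.last n ∉ X → c.coef X = 0) : a * c = 0 := by
  refine Qa.ext fun Z => ?_
  rw [coef_mul]
  refine Finset.sum_eq_zero fun X _ => ?_
  by_cases h1 : Fin.last n ∈ X
  · by_cases h2 : Fin.last n ∈ symmDiff X Z
    · rw [fac_eq_zero h0 h1 h2, mul_zero]
    · rw [hc _ h2, mul_zero, zero_mul]
  · rw [ha _ h1, zero_mul, zero_mul]

/-- Forgetting the last bit is an algebra homomorphism. -/
def dropHom : Qa t →ₐ[F] Qa s :=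
  AlgHom.ofLinearMap (dropLast t s) (Qa.ext fun Y => by
    change (if upBit Y = ∅ then (1 : F) else 0) = if Y = ∅ then 1 else 0
    simp [upBit]) (dropLast_mul hs h0)

/-- Extension by zero is an algebra homomorphism. -/
def addHom : Qa s →ₐ[F] Qa t :=
  AlgHom.ofLinearMap (addLast s t) (Qa.ext fun Z => by
    rw [addLast_coef]
    change (if Fin.last n ∈ Z then 0 else if down Z = ∅ then (1 : F) else 0) =
      if Z = ∅ then 1 else 0
    by_cases h : Fin.last n ∈ Z
    · rw [if_pos h, if_neg]
      rintro rfl
      simp at h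
    · rw [if_neg h]
      conv_rhs => rw [← up_down h]
      simp [upBit]) (addLast_mul hs h0)

end Qa

end

end Vale.Agent.P199.Cex
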