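import Vale.Agent.P199.Cex.Casimir
import Vale.Agent.P199.Cex.GrowthValued
import Vale.Agent.P199.Cex.GrowthTrunc

/-!
# P199, M6: the orthogonality conditions force growth

Induction on the number of bits. Modulo the valuation of the last parameter the algebra is a
square-zero extension; if the dimension did not grow the new part would be an inner derivation of
the old algebra, and orthogonality would contradict the sphere equation.
-/

open scoped Classical

namespace Vale.Agent.P199.Cex

noncomputable section

namespace Qa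

variable {n : ℕ} {F : Type*} [CommRing F] {t : Fin n → F}

theorem one_ne_zero' {F : Type*} [Field F] {t : Fin n → F} : (1 : Qa t) ≠ 0 := fun h => by
  have h' : (if (∅ : Finset (Fin n)) = ∅ then (1 : F) else 0) = 0 := congrFun h ∅
  simp at h'

/-- The product along a word. -/
def word (t : Fin n → F) (x : Fin 3 → Qa t) (w : List (Fin 3)) : Qa t :=
  w.foldr (fun a y => x a * y) 1

theorem word_eq_prod (x : Fin 3 → Qa t) (w : List (Fin 3)) : word t x w = (w.map x).prod := by
  induction w with
  | nil => rfl
  | cons a w ih =>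
    rw [List.map_cons, List.prod_cons, ← ih]
    rfl

theorem word_chg {F' : Type*} [CommRing F'] (f : F →+* F') (t' : Fin n → F')
    (h : ∀ b, f (t b) = t' b) (x : Fin 3 → Qa t) (w : List (Fin 3)) :
    chg f t t' h (word t x w) = word t' (fun a => chg f t t' h (x a)) w := by
  rw [word_eq_prod, word_eq_prod, map_list_prod, List.map_map]
  rfl

theorem mem_topEq_castSucc {b : Fin n} {Z : Finset (Fin (n + 1))} :
    TopEq b.castSucc Z ↔ ∃ X, TopEq b X ∧ upBit X = Z := by
  constructor
  · intro h
    have hl : Fin.last n ∉ Z := fun hl =>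
      absurd (h.2 _ hl) (not_le.2 (Fin.castSucc_lt_last b))
    refine ⟨down Z, ⟨by simp [down, h.1], fun c hc => ?_⟩, up_down hl⟩
    exact Fin.castSucc_le_castSucc_iff.1 (h.2 _ (by simpa [down] using hc))
  · rintro ⟨X, h, rfl⟩
    refine ⟨castSucc_mem_up.2 h.1, fun c hc => ?_⟩
    obtain ⟨e, he, rfl⟩ := Finset.mem_map.1 hc
    exact Fin.castSucc_le_castSucc_iff.2 (h.2 e he)

theorem sum_topEq_castSucc {M : Type*} [AddCommMonoid M] (b : Fin n)
    (f : Finset (Fin (n + 1)) → M) :
    ∑ X ∈ Finset.univ.filter (TopEq b.castSucc), f X =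
      ∑ X ∈ Finset.univ.filter (TopEq b), f (upBit X) := by
  rw [← Finset.sum_image (f := f) (g := upBit) fun X _ Y _ h => up_injective h]
  refine Finset.sum_congr ?_ fun _ _ => rfl
  ext Z
  simp [mem_topEq_castSucc]

theorem topEq_last {X : Finset (Fin (n + 1))} : TopEq (Fin.last n) X ↔ Fin.last n ∈ X :=
  ⟨fun h => h.1, fun h => ⟨h, fun c _ => Fin.le_last c⟩⟩

end Qa

open Qa

/-- The last bit adds to the dimension. -/
theorem finrank_dropLast_lt {n : ℕ} {K : Type} [Field K] [CharZero K] {s : Fin n → K}
    {t : Fin (n + 1) → K} (hs : ∀ b, t b.castSucc = s b) (h0 : t (Fin.last n) = 0)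
    (hdom : ∀ a b : Qa s, a ≠ 0 → b ≠ 0 → a * b ≠ 0)
    (z : Fin 3 → Finset (Fin (n + 1)) → K)
    (hS : ∑ a, ∑ X ∈ Finset.univ.filter (TopEq (Fin.last n)), z a X ^ 2 = 1) (hO : Orth t z) :
    Module.finrank K (genSpan s fun a => Qa.mk fun Y => z a (upBit Y)) <
      Module.finrank K (genSpan t fun a => Qa.mk (z a)) := by
  set x : Fin 3 → Qa t := fun a => Qa.mk (z a)
  set x' : Fin 3 → Qa s := fun a => Qa.mk fun Y => z a (upBit Y)
  set P := dropHom hs h0
  set B := Algebra.adjoin K (Set.range x)
  set D := Algebra.adjoin K (Set.range x')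
  have hPx : ∀ a, P (x a) = x' a := fun a => rfl
  have hmap : B.map P = D := by
    rw [AlgHom.map_adjoin, ← Set.range_comp]
    rfl
  rw [genSpan_eq_adjoin, genSpan_eq_adjoin]
  change Module.finrank K D < Module.finrank K B
  let f : B →ₐ[K] D := (P.comp B.val).codRestrict D fun b =>
    hmap ▸ Subalgebra.mem_map.2 ⟨b.1, b.2, rfl⟩
  have hf : Function.Surjective f := by
    rintro ⟨d, hd⟩
    rw [← hmap] at hd
    obtain ⟨b, hb, rfl⟩ := Subalgebra.mem_map.1 hd
    exact ⟨⟨b, hb⟩, rfl⟩
  have hle : Module.finrank K D ≤ Module.finrank K B :=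
    LinearMap.finrank_le_finrank_of_surjective (f := f.toLinearMap) hf
  refine lt_of_le_of_ne hle fun heq => ?_
  have hinj : Function.Injective f :=
    (LinearMap.injective_iff_surjective_of_finrank_eq_finrank (f := f.toLinearMap) heq.symm).2 hf
  let e : B ≃ₐ[K] D := AlgEquiv.ofBijective f ⟨hinj, hf⟩
  let σ : D →ₐ[K] Qa t := B.val.comp e.symm.toAlgHom
  let ι : D →ₐ[K] Qa t := (addHom hs h0).comp D.val
  have hPσ : ∀ d, P (σ d) = d := fun d => by
    exact congrArg Subtype.val (e.apply_symm_apply d)
  have hPι : ∀ d, P (ι d) = d := fun d => dropLast_addLast (t := t) _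
  have htop : ∀ y : Qa t, P y = 0 → ∀ X, Fin.last n ∉ X → y.coef X = 0 := fun y hy X hX => by
    have h1 := congrArg (fun v => v.coef (down X)) hy
    have h2 : y.coef (upBit (down X)) = 0 := h1
    rwa [up_down hX] at h2
  have hsq : ∀ a b, (σ a - ι a) * (σ b - ι b) = 0 := fun a b =>
    mul_eq_zero_of_top h0 (htop _ (by rw [map_sub, hPσ, hPι, sub_self]))
      (htop _ (by rw [map_sub, hPσ, hPι, sub_self]))
  have : Nontrivial (Qa s) := nontrivial_of_ne _ _ one_ne_zero'
  have hinv : ∀ a : D, a ≠ 0 → ∃ b, a * b = 1 := fun a ha => by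
    have hm : Function.Injective (LinearMap.mulLeft K a) := by
      rw [injective_iff_map_eq_zero]
      intro b hb
      by_contra hb0
      exact hdom a b (fun h => ha (Subtype.ext h)) (fun h => hb0 (Subtype.ext h))
        (congrArg Subtype.val hb)
    exact LinearMap.surjective_of_injective hm 1
  obtain ⟨U, hU, hder⟩ := exists_inner hinv ι σ hsq
  have hPU : P U = 0 := by
    clear hder
    induction hU using Submodule.span_induction with
    | mem y hy =>
      obtain ⟨p, rfl⟩ := hy
      rw [map_mul, map_sub, hPσ, hPι, sub_self, zero_mul]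
    | zero => exact map_zero P
    | add y y' _ _ h h' => rw [map_add, h, h', add_zero]
    | smul r y _ h => rw [map_smul, h, smul_zero]
  set l : Fin 3 → Qa t := fun a => Qa.mk (low (Fin.last n) (z a))
  have hkey : ∀ a, ∀ X, Fin.last n ∈ X → z a X = (U * l a - l a * U).coef X := fun a X hX => by
    let g : D := ⟨x' a, Algebra.subset_adjoin ⟨a, rfl⟩⟩
    have hσ : σ g = x a := by
      have : e.symm g = ⟨x a, Algebra.subset_adjoin ⟨a, rfl⟩⟩ :=
        e.symm_apply_eq.2 (Subtype.ext (hPx a).symm)
      exact congrArg Subtype.val this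
    have hι : ι g = l a := Qa.ext fun Z => by
      change (addLast s t (x' a)).coef Z = low (Fin.last n) (z a) Z
      rw [addLast_coef, low]
      by_cases hZ : Fin.last n ∈ Z
      · rw [if_pos hZ, if_neg fun h => lt_irrefl _ (h _ hZ)]
      · rw [if_neg hZ, if_pos fun c hc => lt_of_le_of_ne (Fin.le_last c) fun h => hZ (h ▸ hc)]
        change z a (upBit (down Z)) = z a Z
        rw [up_down hZ]
    rw [← hι, ← hder g, hσ, coef_sub, hι]
    change z a X = z a X - low (Fin.last n) (z a) X
    rw [low, if_neg fun h => lt_irrefl _ (h _ hX), sub_zero]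
  have hzero : ∑ a, ∑ X ∈ Finset.univ.filter (TopEq (Fin.last n)),
      (U * l a - l a * U).coef X * z a X = 0 := by
    have hexp : ∀ a X, (U * l a - l a * U).coef X =
        ∑ φ, U.coef φ * (E t φ * l a - l a * E t φ).coef X := fun a X => by
      conv_lhs => rw [← sum_coef_smul U]
      simp only [Finset.sum_mul, Finset.mul_sum, smul_mul_assoc, mul_smul_comm, coef_sub,
        coef_sum, coef_smul, mul_sub, Finset.sum_sub_distrib]
    simp only [hexp, Finset.sum_mul, mul_assoc]
    rw [Finset.sum_congr rfl fun a _ => Finset.sum_comm, Finset.sum_comm]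
    refine Finset.sum_eq_zero fun φ _ => ?_
    by_cases hφ : Fin.last n ∈ φ
    · simp only [← Finset.mul_sum]
      rw [hO _ φ (topEq_last.2 hφ), mul_zero]
    · refine Finset.sum_eq_zero fun a _ => Finset.sum_eq_zero fun X _ => ?_
      rw [htop U hPU φ hφ, zero_mul]
  refine one_ne_zero (α := K) ?_
  rw [← hS, ← hzero]
  refine Finset.sum_congr rfl fun a _ => Finset.sum_congr rfl fun X hX => ?_
  rw [pow_two, ← hkey a X (topEq_last.1 (Finset.mem_filter.1 hX).2)]

/-- Reduction modulo a valuation does not raise the dimension. -/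
theorem finrank_residue_le {n : ℕ} {F : Type} [Field F] (O : ValuationSubring F)
    (t' : Fin n → O) (t : Fin n → F) (ht : ∀ b, (t' b : F) = t b) (x : Fin 3 → Qa t') :
    Module.finrank (IsLocalRing.ResidueField O)
        (genSpan (fun b => IsLocalRing.residue O (t' b))
          fun a => chg (IsLocalRing.residue O) t' _ (fun _ => rfl) (x a)) ≤
      Module.finrank F (genSpan t fun a => chg O.subtype t' t ht (x a)) := by
  set K := IsLocalRing.ResidueField O
  set tb : Fin n → K := fun b => IsLocalRing.residue O (t' b)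
  set xb : Fin 3 → Qa tb := fun a => chg (IsLocalRing.residue O) t' tb (fun _ => rfl) (x a)
  set xF : Fin 3 → Qa t := fun a => chg O.subtype t' t ht (x a)
  obtain ⟨b, hb, hspan, hli⟩ :=
    exists_linearIndependent K (Set.range fun w : List (Fin 3) => word tb xb w)
  have : Fintype b := hli.setFinite.fintype
  have hrank : Module.finrank K (genSpan tb xb) = Fintype.card b := by
    rw [show genSpan tb xb = Submodule.span K (Set.range fun w => word tb xb w) from rfl,
      ← hspan, finrank_span_set_eq_card hli, Set.toFinset_card]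
  rw [hrank]
  choose w hw using fun i : b => hb i.2
  have hres : LinearIndependent K fun (i : b) (X : Finset (Fin n)) =>
      IsLocalRing.residue O ((word t' x (w i)).coef X) := by
    have : (fun (i : b) => chg (IsLocalRing.residue O) t' tb (fun _ => rfl) (word t' x (w i))) =
        Subtype.val := funext fun i => (word_chg _ _ _ _ _).trans (hw i)
    exact this ▸ hli
  have hF := linearIndependent_of_residue O _ hres
  let v : b → genSpan t xF := fun i => ⟨word t xF (w i), Submodule.subset_span ⟨w i, rfl⟩⟩
  have hv : LinearIndependent F v := by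
    refine LinearIndependent.of_comp (genSpan t xF).subtype ?_
    have : (genSpan t xF).subtype ∘ v = fun i => chg O.subtype t' t ht (word t' x (w i)) :=
      funext fun i => (word_chg _ _ _ _ _).symm
    rw [this]
    exact hF
  exact hv.fintype_card_le_finrank

theorem growth_aux (hdom : GoodDomain) (hreal : GoodExists) :
    ∀ (n : ℕ) (F : Type) (_ : Field F) (t : Fin n → F) (z : Fin 3 → Finset (Fin n) → F),
      Good n F t → Sphere z → Orth t z →
        n < Module.finrank F (genSpan t fun a => Qa.mk (z a))
  | 0, F, _, t, z, _, _, _ => by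
    refine Module.finrank_pos_iff_exists_ne_zero.2
      ⟨⟨1, Submodule.subset_span ⟨[], rfl⟩⟩, fun h => ?_⟩
    exact one_ne_zero' (congrArg Subtype.val h)
  | n + 1, F, _, t, z, hG, hS, hO => by
    obtain ⟨O, hdvr, t', ht, -, ⟨π, k, hπ, hassoc⟩, hG'⟩ := hG
    have := (hreal.1 n _ _ _ hG').1
    have : CharZero (IsLocalRing.ResidueField O) := charZero_of_formallyReal
    have hint : ∀ a X, z a X ∈ O := fun a X => by
      rcases X.eq_empty_or_nonempty with rfl | hX
      · rw [hS.1 a]
        exact O.zero_mem
      · have hb := hS.2 (X.max' hX)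
        rw [← Finset.sum_product'] at hb
        exact mem_of_sum_sq_eq_one O (x := fun p : Fin 3 × Finset (Fin (n + 1)) => z p.1 p.2) hb
          (i := (a, X)) (Finset.mem_product.2 ⟨Finset.mem_univ a, Finset.mem_filter.2
            ⟨Finset.mem_univ X, X.max'_mem hX, fun c hc => X.le_max' c hc⟩⟩)
    let zO : Fin 3 → Finset (Fin (n + 1)) → O := fun a X => ⟨z a X, hint a X⟩
    set zb : Fin 3 → Finset (Fin (n + 1)) → IsLocalRing.ResidueField O :=
      fun a X => IsLocalRing.residue O (zO a X)
    set tb : Fin (n + 1) → IsLocalRing.ResidueField O := fun b => IsLocalRing.residue O (t' b)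
    set sb : Fin n → IsLocalRing.ResidueField O := fun b => IsLocalRing.residue O (t' b.castSucc)
    have h0 : tb (Fin.last n) = 0 := by
      obtain ⟨u, hu⟩ := hassoc.symm
      change IsLocalRing.residue O (t' (Fin.last n)) = 0
      rw [← hu, map_mul, map_pow, (IsLocalRing.residue_eq_zero_iff π).2 hπ.not_isUnit,
        zero_pow (by omega), zero_mul]
    have hSb : ∀ b, ∑ a, ∑ X ∈ Finset.univ.filter (TopEq b), zb a X ^ 2 = 1 := fun b => by
      have h : ∑ a, ∑ X ∈ Finset.univ.filter (TopEq b), zO a X ^ 2 = 1 :=
        Subtype.ext (by push_cast; exact hS.2 b)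
      have := congrArg (IsLocalRing.residue O) h
      simpa only [map_sum, map_pow, map_one] using this
    have hlow : ∀ {R : Type} [CommRing R] (f : O →+* R) (t₂ : Fin (n + 1) → R)
        (h : ∀ b, f (t' b) = t₂ b) b a, chg f t' t₂ h (Qa.mk (low b (zO a))) =
          Qa.mk (low b fun X => f (zO a X)) := fun f t₂ h b a => funext fun X => by
      change f (low b (zO a) X) = low b (fun X => f (zO a X)) X
      simp only [low, apply_ite f, map_zero]
    have hE : ∀ {R : Type} [CommRing R] (f : O →+* R) (t₂ : Fin (n + 1) → R)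
        (h : ∀ b, f (t' b) = t₂ b) φ, chg f t' t₂ h (E t' φ) = E t₂ φ :=
      fun f t₂ h φ => funext fun X => by
        change f (if X = φ then 1 else 0) = if X = φ then 1 else 0
        split <;> simp
    have hOb : Orth tb zb := fun b φ hφ => by
      let S : O := ∑ a : Fin 3, ∑ X ∈ Finset.univ.filter (TopEq b),
        (E t' φ * Qa.mk (low b (zO a)) - Qa.mk (low b (zO a)) * E t' φ).coef X * zO a X
      have hpush : ∀ {R : Type} [CommRing R] (f : O →+* R) (t₂ : Fin (n + 1) → R)
          (h : ∀ b, f (t' b) = t₂ b), f S = ∑ a : Fin 3, ∑ X ∈ Finset.univ.filter (TopEq b),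
            (E t₂ φ * Qa.mk (low b fun X => f (zO a X)) -
              Qa.mk (low b fun X => f (zO a X)) * E t₂ φ).coef X * f (zO a X) := by
        intro R _ f t₂ h
        simp only [S, map_sum, map_mul, ← chg_coef f t' t₂ h, map_sub, hlow, hE]
      have h1 : O.subtype S = 0 := (hpush O.subtype t ht).trans (hO b φ hφ)
      have h2 : S = 0 := Subtype.ext h1
      have h3 := hpush (IsLocalRing.residue O) tb fun _ => rfl
      rw [h2, map_zero] at h3
      exact h3.symm
    set z' : Fin 3 → Finset (Fin n) → IsLocalRing.ResidueField O := fun a Y => zb a (upBit Y)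
    have hS' : Sphere z' := by
      refine ⟨fun a => ?_, fun b => ?_⟩
      · change IsLocalRing.residue O ⟨z a (upBit ∅), _⟩ = 0
        have : (⟨z a (upBit ∅), hint a (upBit ∅)⟩ : O) = 0 := Subtype.ext (hS.1 a)
        rw [this, map_zero]
      · rw [← hSb b.castSucc]
        exact Finset.sum_congr rfl fun a _ => (sum_topEq_castSucc b fun X => zb a X ^ 2).symm
    have hO' : Orth sb z' := fun b φ hφ => by
      have h := hOb b.castSucc (upBit φ) (mem_topEq_castSucc.2 ⟨φ, hφ, rfl⟩)
      simp only [sum_topEq_castSucc] at h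
      refine Eq.trans (Finset.sum_congr rfl fun a _ => Finset.sum_congr rfl fun X _ => ?_) h
      have hA : Qa.mk (low b.castSucc (zb a)) = addHom (s := sb) (t := tb) (fun _ => rfl) h0
          (Qa.mk (low b (z' a))) := Qa.ext fun Z => by
        change low b.castSucc (zb a) Z = (addLast sb tb (Qa.mk (low b (z' a)))).coef Z
        rw [addLast_coef, low]
        by_cases hZ : Fin.last n ∈ Z
        · rw [if_pos hZ, if_neg fun h => absurd (h _ hZ) (not_lt.2 (Fin.le_last _))]
        · rw [if_neg hZ]
          change _ = if ∀ c ∈ down Z, c < b then zb a (upBit (down Z)) else 0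
          rw [up_down hZ]
          refine if_congr ⟨fun h c hc => ?_, fun h c hc => ?_⟩ rfl rfl
          · exact Fin.castSucc_lt_castSucc_iff.1 (h _ (by simpa [down] using hc))
          · rw [← up_down hZ] at hc
            obtain ⟨e, he, rfl⟩ := Finset.mem_map.1 hc
            exact Fin.castSucc_lt_castSucc_iff.2 (h e he)
      have hB : E tb (upBit φ) = addHom (s := sb) (t := tb) (fun _ => rfl) h0 (E sb φ) :=
        Qa.ext fun Z => by
          change (if Z = upBit φ then 1 else 0) = (addLast sb tb (E sb φ)).coef Z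
          rw [addLast_coef]
          by_cases hZ : Fin.last n ∈ Z
          · rw [if_pos hZ, if_neg]
            rintro rfl
            exact last_not_mem_up φ hZ
          · rw [if_neg hZ]
            change _ = if down Z = φ then (1 : IsLocalRing.ResidueField O) else 0
            refine if_congr ⟨fun h => h ▸ down_up φ, fun h => h ▸ (up_down hZ).symm⟩ rfl rfl
      rw [hA, hB, ← map_mul, ← map_mul, ← map_sub]
      change _ = (addLast sb tb _).coef (upBit X) * zb a (upBit X)
      rw [addLast_coef, if_neg (last_not_mem_up X), down_up]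
    have ih := growth_aux hdom hreal n _ _ sb z' hG' hS' hO'
    have hlt := finrank_dropLast_lt (s := sb) (t := tb) (fun _ => rfl) h0
      (hdom n _ _ sb hG') zb (hSb _) hOb
    have hres := finrank_residue_le O t' t ht fun a => Qa.mk (zO a)
    exact lt_of_le_of_lt (Nat.succ_le_of_lt ih) (lt_of_lt_of_le hlt hres)

/-- M6. -/
theorem growth (hdom : GoodDomain) (hreal : GoodExists) : Growth := growth_aux hdom hreal

end

end Vale.Agent.P199.Cex
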