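import Vale.Agent.P199.Cex.Chart

/-!
P199, counterexample: both systems are non-degenerate at the reference point: over dual numbers
their only zero lying over it is the point itself (`NOTES.md`, section 4 (ii)).
-/

open scoped Classical symmDiff

namespace Vale.Agent.P199.Cex

noncomputable section

variable {n r : ℕ} {F : Type} [Field F]

/-- The constants among the dual numbers. -/
abbrev dIn (F : Type) [Field F] : F →+* DualNumber F := TrivSqZeroExt.inlHom F F

/-- The value of a dual number. -/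
abbrev dOut (F : Type) [Field F] : DualNumber F →+* F :=
  (TrivSqZeroExt.fstHom F F F).toRingHom

lemma dual_mul_eq_zero {x y : DualNumber F} (hx : x.fst = 0) (hy : y.fst = 0) : x * y = 0 := by
  apply TrivSqZeroExt.ext <;> simp [hx, hy]

variable {t : Fin n → F}

/-- The infinitesimal part. -/
def sndQ (a : Qa (fun b => dIn F (t b))) : Qa t := Qa.mk fun X => (a.coef X).snd

lemma eq_eps_smul {a : Qa (fun b => dIn F (t b))} (h : ∀ X, (a.coef X).fst = 0) :
    a = (DualNumber.eps : DualNumber F) • Qa.mapQ (dIn F) (sndQ a) := by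
  ext X <;> simp [sndQ, h]

lemma eps_smul_mapQ_eq_zero {a : Qa t}
    (h : (DualNumber.eps : DualNumber F) • Qa.mapQ (dIn F) a = 0) : a = 0 := by
  ext X
  simpa using congrArg (fun b => (Qa.coef b X).snd) h

lemma Zc_refPt {K : Type} [CommRing K] (a : Fin 3) (X : Finset (Fin n)) :
    Zc (refPt : Coord n r → K) a X = if a = 0 ∧ X.card = 1 then 1 else 0 := by
  by_cases h : a = 0 ∧ X.card = 1
  · rw [if_pos h, Zc_of_used _ (Or.inl h)]
    simp [refPt, h.1]
  · rw [if_neg h]
    unfold Zc
    split_ifs with hu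
    · rcases hu with hu | ⟨hu, -⟩ | ⟨hu, -⟩
      · exact absurd hu h
      · simp [refPt, show a = 1 from hu]
      · simp [refPt, show a = 2 from hu]
    · rfl

section Facts

variable [Algebra ℚ F] (hn : 2 * r + 2 ≤ n) (g : ℕ → TP) {z : Coord n r → DualNumber F}
  (hz : ∀ j, (z j).fst = refPt j)
  (hsph : ∀ b, eqs hn (fun b => dIn F (t b)) g 1 z (.inl b) = 0)
  (hort : ∀ p, eqs hn (fun b => dIn F (t b)) g 1 z (.inr (.inl p)) = 0)

omit [Algebra ℚ F] in
include hz in
lemma fst_Zc (a : Fin 3) (X : Finset (Fin n)) :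
    (Zc z a X).fst = if a = 0 ∧ X.card = 1 then 1 else 0 := by
  have h1 := Zc_map (dOut F) z a X
  rw [← Zc_refPt (r := r) (K := F) a X, show (refPt : Coord n r → F) = fun j => dOut F (z j) from
    funext fun j => (hz j).symm, h1]
  rfl

include hort in
lemma Zc_two_dual (φ : Finset (Fin n)) : Zc z 2 φ = 0 := by
  rcases φ.eq_empty_or_nonempty with rfl | hφ
  · exact Zc_empty z 2
  · obtain ⟨b, hb⟩ := exists_topEq hφ
    simpa [eqs, hb] using hort (b, φ)

include hz hsph in
lemma Zc_zero_dual (b : Fin n) : Zc z 0 {b} = 1 := by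
  have h1 := sub_eq_zero.1 (hsph b)
  rw [← Finset.sum_product', Finset.sum_eq_single ((0 : Fin 3), ({b} : Finset (Fin n)))] at h1
  · have h2 := congrArg TrivSqZeroExt.snd h1
    have hf : (Zc z 0 {b}).fst = 1 := by simpa using fst_Zc hz 0 {b}
    simp only [sq, DualNumber.snd_mul, hf, one_mul, mul_one, TrivSqZeroExt.snd_one] at h2
    refine TrivSqZeroExt.ext (by simpa using hf) ?_
    have hne : (2 : F) ≠ 0 := by
      rw [← map_ofNat (algebraMap ℚ F)]
      exact (map_ne_zero _).2 two_ne_zero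
    rw [TrivSqZeroExt.snd_one]
    exact (mul_eq_zero.1 (show (2 : F) * (Zc z 0 {b}).snd = 0 by linear_combination h2)).resolve_left
      hne
  · rintro ⟨a, X⟩ hX hne
    rw [sq]
    have hf : (Zc z a X).fst = 0 := by
      rw [fst_Zc hz, if_neg]
      rintro ⟨rfl, hc⟩
      obtain ⟨c, rfl⟩ := Finset.card_eq_one.1 hc
      have := ((Finset.mem_filter.1 (Finset.mem_product.1 hX).2).2).1
      exact hne (by rw [Finset.mem_singleton.1 this])
    exact dual_mul_eq_zero hf hf
  · intro h
    exact absurd (Finset.mem_product.2 ⟨Finset.mem_univ _, Finset.mem_filter.2 ⟨Finset.mem_univ _,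
      Finset.mem_singleton_self b, fun c hc => (Finset.mem_singleton.1 hc).le⟩⟩) h

/-- The perturbation of a reference constraint. -/
abbrev pert (z : Coord n r → DualNumber F) (i : Fin r) : Qa (fun b => dIn F (t b)) :=
  eps hn (fun b => dIn F (t b)) • slotPart hn (fun b => dIn F (t b)) z i

include hz hsph in
lemma kap_dual (i : ℕ) :
    kap (fun b => dIn F (t b)) z i = Qa.mapQ (dIn F) (Qa.kapA t (fun _ => 1) (i + 1)) := by
  rw [kap_eq, Qa.mapQ_kapA, map_one]
  congr 1
  exact funext (Zc_zero_dual hn g hz hsph)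

omit [Algebra ℚ F] in
include hz in
lemma fst_pert (i : Fin r) (X : Finset (Fin n)) : ((pert hn z i (t := t)).coef X).fst = 0 := by
  simp only [pert, slotPart, Qa.coef_smul, Qa.coef_mk]
  split_ifs <;> simp [fst_Zc hz]

include hz hsph in
lemma snd_pert {i : Fin r} {X : Finset (Fin n)} (hX : CC i.val X ∧ ¬ LL i.val X) :
    ((pert hn z i (t := t)).coef X).snd = eps hn t * (Zc z 1 (slot hn i X)).snd := by
  simp only [pert, slotPart, Qa.coef_smul, Qa.coef_mk, if_pos hX,
    Zc_zero_dual hn g hz hsph (vbit hn i), mul_one, DualNumber.snd_mul, eps]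
  simp

include hz hsph hort in
/-- If the slot parts vanish, all coordinates are the reference ones. -/
lemma snd_eq_zero (ht : eps hn t ≠ 0)
    (hp : ∀ i : Fin r, ∀ X, CC i.val X ∧ ¬ LL i.val X → ((pert hn z i (t := t)).coef X).snd = 0)
    (j : Coord n r) : (z j).snd = 0 := by
  obtain ⟨⟨a, X⟩, hj⟩ := j
  rw [← Zc_of_used z hj]
  rcases hj with ⟨ha, hc⟩ | ⟨ha, i, hi, hc⟩ | ⟨ha, hc⟩ <;> obtain rfl : a = _ := ha
  · obtain ⟨b, rfl⟩ := Finset.card_eq_one.1 hc
    simp [Zc_zero_dual hn g hz hsph b]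
  · obtain ⟨Z, hZ, hL, rfl⟩ := (show Code (⟨i, hi⟩ : Fin r).val X from hc).eq_slot hn
    have := hp ⟨i, hi⟩ Z ⟨hZ, hL⟩
    rw [snd_pert hn g hz hsph ⟨hZ, hL⟩] at this
    exact (mul_eq_zero.1 this).resolve_left ht
  · simp [Zc_two_dual hn g hort X]

end Facts

variable [Algebra ℚ F]

/-- The equations are non-degenerate at the reference point. -/
theorem eqs_dual (hn : 2 * r + 2 ≤ n) (g : ℕ → TP)
    (hdom : ∀ a b : Qa t, a ≠ 0 → b ≠ 0 → a * b ≠ 0) (ht : eps hn t ≠ 0)
    {z : Coord n r → DualNumber F} (hz : ∀ j, (z j).fst = refPt j)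
    (h : eqs hn (fun b => dIn F (t b)) g 1 z = 0) (j : Coord n r) : (z j).snd = 0 := by
  have hsph := fun b => congrFun h (Sum.inl b)
  have hort := fun p => congrFun h (Sum.inr (Sum.inl p))
  refine snd_eq_zero hn g hz hsph hort ht (fun i X _ => ?_) j
  have h1 : npol Qa.tau (2 ^ (i.val + 1)) (refG hn (fun b => dIn F (t b)) z i) = 0 :=
    Qa.ext fun Y => by simpa [eqs, hval_one] using congrFun h (.inr (.inr (i, Y)))
  have hc : eps hn (fun b => dIn F (t b)) • slotPart hn (fun b => dIn F (t b)) z i =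
      (DualNumber.eps : DualNumber F) • Qa.mapQ (dIn F) (sndQ (pert hn z i (t := t))) :=
    eq_eps_smul (fst_pert hn hz i (t := t))
  rw [npol_refG hn z i fun X Y =>
      dual_mul_eq_zero (fst_pert hn hz i X) (fst_pert hn hz i Y),
    kap_dual hn g hz hsph,
    ← dpol_map (dIn F) (Qa.mapQ _) (Qa.mapQ_smul _) (τ := Qa.tau) (τ' := Qa.tau) (Qa.tau_mapQ _),
    hc, mul_smul_comm, ← map_mul] at h1
  have hU := Qa.isUnit_dpol_kapA hdom (s := i.val + 1) (by omega) (fun _ => (1 : F))
    fun _ _ => one_ne_zero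
  simpa [sndQ] using congrArg (fun a => Qa.coef a X)
    (hU.mul_right_eq_zero.1 (eps_smul_mapQ_eq_zero h1))

/-- The square system is non-degenerate at the reference point. -/
theorem chart_dual (hn : 2 * r + 2 ≤ n) (g : ℕ → TP)
    (hdom : ∀ a b : Qa t, a ≠ 0 → b ≠ 0 → a * b ≠ 0) (ht : eps hn t ≠ 0)
    {v : Var n r → DualNumber F} (hv : ∀ w, (v w).fst = Sum.elim refPt 0 w)
    (h : ∀ w, chartEq hn (fun b => dIn F (t b)) g 1 v w = 0) (w : Var n r) : (v w).snd = 0 := by
  obtain ⟨hsph, hort, hchart⟩ := chartEq_zero hn _ h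
  set z : Coord n r → DualNumber F := fun c => v (.inl c)
  have hz : ∀ j, (z j).fst = refPt j := fun j => hv (.inl j)
  have key : ∀ (i : Fin r) (X : Finset (Fin n)),
      ((pert hn z i (t := t)).coef X).snd = 0 ∧
        ((auxU (fun b => dIn F (t b)) (fun p => v (.inr p)) i).coef X).snd = 0 ∧
          ((auxM (fun b => dIn F (t b)) (fun p => v (.inr p)) i).coef X).snd = 0 := by
    intro i
    set U := auxU (fun b => dIn F (t b)) (fun p => v (.inr p)) i with hU
    set M := auxM (fun b => dIn F (t b)) (fun p => v (.inr p)) i with hM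
    set c := pert hn z i (t := t) with hc
    set κ := Qa.kapA t (fun _ => (1 : F)) (i.val + 1) with hκ
    have hcf : ∀ X, (c.coef X).fst = 0 := fst_pert hn hz i (t := t)
    have hUf : ∀ X, (U.coef X).fst = 0 := fun X => by
      simp only [hU, auxU, Qa.coef_mk]
      split_ifs <;> simp [hv]
    have hMf : ∀ X, (M.coef X).fst = 0 := fun X => by
      simp only [hM, auxM, Qa.coef_mk]
      split_ifs <;> simp [hv]
    have hcU : c * U = 0 := Qa.mul_eq_zero_of_coef fun X Y => dual_mul_eq_zero (hcf X) (hUf Y)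
    have hUM : U * M = 0 := Qa.mul_eq_zero_of_coef fun X Y => dual_mul_eq_zero (hUf X) (hMf Y)
    have h1 : chartQ hn (fun b => dIn F (t b)) g 1 v i =
        c + Qa.mapQ (dIn F) κ * U - U * Qa.mapQ (dIn F) κ - M := by
      rw [chartQ, hval_one, refG, kap_dual hn g hz hsph i.val]
      change (Qa.mapQ (dIn F) κ + c) * (1 + U) - (1 + U) * (Qa.mapQ (dIn F) κ + M) = _
      simp only [mul_add, add_mul, mul_one, one_mul, hcU, hUM]
      abel
    rw [hchart i, eq_eps_smul hcf, eq_eps_smul hUf, eq_eps_smul hMf, mul_smul_comm,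
      smul_mul_assoc, ← map_mul, ← map_mul, ← smul_add, ← smul_sub, ← smul_sub, ← map_add,
      ← map_sub, ← map_sub] at h1
    have h2 := eps_smul_mapQ_eq_zero h1.symm
    set U1 := sndQ U with hU1
    have hU0 : ∀ X, CC i.val X → U1.coef X = 0 := fun X hX => by
      simp [hU1, sndQ, hU, auxU, hX]
    have hM0 : ∀ X, ¬ LL i.val X → (sndQ M).coef X = 0 := fun X hX => by
      simp [sndQ, hM, auxM, hX]
    have hc0 : ∀ X, ¬ (CC i.val X ∧ ¬ LL i.val X) → (sndQ c).coef X = 0 := fun X hX => by
      by_contra hne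
      refine hX (slotPart_supp hn (t := fun b => dIn F (t b)) z i (eps hn fun b => dIn F (t b)) X
        fun e => hne ?_)
      show (c.coef X).snd = 0
      rw [show c.coef X = 0 from e, TrivSqZeroExt.snd_zero]
    have hcomm : ∀ X, CC i.val X → (κ * U1 - U1 * κ).coef X = 0 := fun X hX => by
      simp only [hκ, Qa.kapA, Finset.sum_mul, Finset.mul_sum, Qa.coef_sub, Qa.coef_sum,
        smul_mul_assoc, mul_smul_comm, Qa.coef_smul, Qa.coef_E_mul, Qa.coef_mul_E]
      rw [Finset.sum_eq_zero fun b hb => ?_, Finset.sum_eq_zero fun b hb => ?_, sub_zero]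
      all_goals
        rw [hU0 ({b} ∆ X) fun d hd hodd => ?_]
        · simp
        simp only [Qa.evenBits, Finset.mem_filter] at hb
        rcases Finset.mem_symmDiff.1 hd with ⟨hd, -⟩ | ⟨hd, -⟩
        · obtain rfl := Finset.mem_singleton.1 hd
          omega
        · exact hX d hd hodd
    have h3 : ∀ X, (sndQ c).coef X + (κ * U1 - U1 * κ).coef X - (sndQ M).coef X = 0 := fun X => by
      have := congrArg (fun a => Qa.coef a X) h2
      simp only [Qa.coef_sub, Qa.coef_add, Qa.coef_zero] at this ⊢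
      linear_combination this
    have hU2 : U1 = 0 := Qa.eq_zero_of_commute hdom (fun _ => 1) (fun _ _ => one_ne_zero) hU0
      (sub_eq_zero.1 (Qa.ext fun X => by
        rw [Qa.coef_zero]
        by_cases hX : CC i.val X
        · exact hcomm X hX
        · have := h3 X
          rwa [hc0 X fun e => hX e.1, hM0 X fun e => hX e.cc, zero_add, sub_zero] at this))
    intro X
    have := h3 X
    rw [hU2, mul_zero, zero_mul, sub_zero, Qa.coef_zero, add_zero] at this
    refine ⟨?_, congrArg (fun a => Qa.coef a X) hU2, ?_⟩ <;> by_cases hL : LL i.val X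
    · exact hc0 X fun e => e.2 hL
    · rwa [hM0 X hL, sub_zero] at this
    · rwa [hc0 X fun e => e.2 hL, zero_sub, neg_eq_zero] at this
    · exact hM0 X hL
  rcases w with j | ⟨⟨i, X⟩, hp⟩
  · exact snd_eq_zero hn g hz hsph hort ht (fun i X _ => (key i X).1) j
  · rcases hp with hp | hp
    · have h0 := (key i X).2.1
      simp only [auxU, Qa.coef_mk, dif_pos hp] at h0
      exact h0
    · have h0 := (key i X).2.2
      simp only [auxM, Qa.coef_mk, dif_pos hp] at h0
      exact h0

end

end Vale.Agent.P199.Cex
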