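import Vale.Agent.P199.Cex.Defs

/-!
P199: from a family of finite stages to a finitely generated algebraic division algebra of
infinite dimension (ultraproduct, and descent from the centre to the field of trace values).
-/

open scoped Classical
open Filter

namespace Vale.Agent.P199.Cex

noncomputable section

section Centre

variable {k D : Type} [Field k] [DivisionRing D] [Algebra k D]

/-- The action of `k` factors through the centre. -/
def toCentre (k D : Type) [Field k] [DivisionRing D] [Algebra k D] : k →+* Subring.center D :=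
  (algebraMap k D).codRestrict (Subring.center D) fun r =>
    Subring.mem_center_iff.2 fun x => (Algebra.commutes r x).symm

/-- A finitely generated algebraic algebra that is finite over a larger field of scalars is
finite. -/
theorem finite_of_finite_over {Z : Type} [Field Z] [Algebra k Z] [Algebra Z D] [IsScalarTower k Z D]
    [Algebra.IsAlgebraic k Z] (S : Finset D) (hS : Algebra.adjoin k (S : Set D) = ⊤)
    [Module.Finite Z D] : Module.Finite k D := by
  let b := Module.Free.chooseBasis Z D
  let c : Finset Z :=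
    (Finset.univ.image fun i => b.repr 1 i) ∪
      ((S ×ˢ Finset.univ ×ˢ Finset.univ).image fun p => b.repr (p.1 * b p.2.1) p.2.2)
  let k' : IntermediateField k Z := IntermediateField.adjoin k (c : Set Z)
  have : FiniteDimensional k k' :=
    IntermediateField.finiteDimensional_adjoin fun z _ =>
      (Algebra.IsAlgebraic.isAlgebraic z).isIntegral
  let M : Submodule k' D := Submodule.span k' (Set.range b)
  have hrepr : ∀ v : D, (∀ i, b.repr v i ∈ k') → v ∈ M := by
    intro v hv
    rw [← b.sum_repr v]
    exact Submodule.sum_mem _ fun i _ =>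
      M.smul_mem (⟨b.repr v i, hv i⟩ : k') (Submodule.subset_span ⟨i, rfl⟩)
  have hone : (1 : D) ∈ M := hrepr 1 fun i => IntermediateField.subset_adjoin k _
    (Finset.mem_union_left _ (Finset.mem_image_of_mem _ (Finset.mem_univ i)))
  have hmul : ∀ x : D, ∀ v ∈ M, x * v ∈ M := by
    intro x
    have hx : x ∈ Algebra.adjoin k (S : Set D) := hS ▸ Algebra.mem_top
    induction hx using Algebra.adjoin_induction with
    | mem x hx =>
      intro v hv
      induction hv using Submodule.span_induction with
      | mem v hv =>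
        obtain ⟨i, rfl⟩ := hv
        exact hrepr _ fun j => IntermediateField.subset_adjoin k _
          (Finset.mem_union_right _ (Finset.mem_image.2 ⟨(x, i, j), by simpa using hx, rfl⟩))
      | zero => simp
      | add v w _ _ hv hw => rw [mul_add]; exact M.add_mem hv hw
      | smul r v _ hv => rw [mul_smul_comm]; exact M.smul_mem r hv
    | algebraMap r =>
      intro v hv
      rw [← Algebra.smul_def, ← algebraMap_smul k' r v]
      exact M.smul_mem _ hv
    | add x y _ _ hx hy => intro v hv; rw [add_mul]; exact M.add_mem (hx v hv) (hy v hv)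
    | mul x y _ _ hx hy => intro v hv; rw [mul_assoc]; exact hx _ (hy v hv)
  have hM : M = ⊤ := eq_top_iff.2 fun x _ => mul_one x ▸ hmul x 1 hone
  have : Module.Finite k' D := ⟨hM ▸ Submodule.fg_span (Set.finite_range b)⟩
  exact Module.Finite.trans k' D

/-- A finitely generated algebraic division algebra that is finite over its centre is finite. -/
theorem finite_of_finite_centre [Algebra.IsAlgebraic k D] (S : Finset D)
    (hS : Algebra.adjoin k (S : Set D) = ⊤) (hfin : Module.Finite (Subring.center D) D) :
    Module.Finite k D := by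
  let := (toCentre k D).toAlgebra
  have : IsScalarTower k (Subring.center D) D := IsScalarTower.of_algebraMap_eq fun _ => rfl
  have : Algebra.IsAlgebraic k (Subring.center D) :=
    ⟨fun z => (isAlgebraic_algHom_iff (IsScalarTower.toAlgHom k (Subring.center D) D)
      Subtype.val_injective).1 (Algebra.IsAlgebraic.isAlgebraic (z : D))⟩
  exact finite_of_finite_over (Z := Subring.center D) S hS

/-- Algebraicity passes to a larger field of scalars. -/
theorem isAlgebraic_of_larger {Z : Type} [Field Z] [Algebra k Z] [Algebra Z D]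
    [IsScalarTower k Z D] [Algebra.IsAlgebraic k D] : Algebra.IsAlgebraic Z D :=
  ⟨fun x => (Algebra.IsAlgebraic.isAlgebraic (R := k) x).tower_top _⟩

/-- Generation passes to a larger field of scalars. -/
theorem adjoin_eq_top_of_larger {Z : Type} [Field Z] [Algebra k Z] [Algebra Z D]
    [IsScalarTower k Z D] (s : Set D) (hs : Algebra.adjoin k s = ⊤) : Algebra.adjoin Z s = ⊤ := by
  refine eq_top_iff.2 fun x _ => ?_
  have hle : Algebra.adjoin k s ≤ (Algebra.adjoin Z s).restrictScalars k :=
    Algebra.adjoin_le Algebra.subset_adjoin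
  rw [hs] at hle
  exact hle (Algebra.mem_top : x ∈ (⊤ : Subalgebra k D))

/-- Descent from a central subfield to the centre. -/
theorem counterexample_of_algebra [Algebra.IsAlgebraic k D] (S : Finset D)
    (hS : Algebra.adjoin k (S : Set D) = ⊤) (hinf : ¬ Module.Finite k D) : Counterexample := by
  let := (toCentre k D).toAlgebra
  have : IsScalarTower k (Subring.center D) D := IsScalarTower.of_algebraMap_eq fun _ => rfl
  refine ⟨D, inferInstance, S, ?_, ?_, fun h => hinf (finite_of_finite_centre S hS h),
    k, inferInstance, inferInstance, inferInstance, ⟨⟨S, hS⟩⟩, hinf⟩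
  · exact isAlgebraic_of_larger (k := k) (Z := Subring.center D)
  · exact adjoin_eq_top_of_larger (k := k) (Z := Subring.center D) (S : Set D) hS

end Centre

section Inner

variable {k U : Type} [Field k] [DivisionRing U] [Algebra k U]

/-- A finitely generated algebraic subalgebra of a division ring, of infinite dimension. -/
theorem counterexample_of_subalgebra (S : Finset U)
    (halg : ∀ x ∈ Algebra.adjoin k (S : Set U), IsIntegral k x)
    (hinf : ¬ Module.Finite k (Algebra.adjoin k (S : Set U))) : Counterexample := by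
  let A := Algebra.adjoin k (S : Set U)
  have hu : ∀ a : A, IsUnit a ∨ a = 0 := by
    intro a
    by_cases h0 : a = 0
    · exact Or.inr h0
    · have hinv : (a : U)⁻¹ ∈ A := (halg _ a.2).inv_mem a.2
      have hne : (a : U) ≠ 0 := fun h => h0 (Subtype.ext h)
      exact Or.inl ⟨⟨a, ⟨_, hinv⟩, Subtype.ext (mul_inv_cancel₀ hne),
        Subtype.ext (inv_mul_cancel₀ hne)⟩, rfl⟩
  let : DivisionRing A := DivisionRing.ofIsUnitOrEqZero hu
  have : Algebra.IsAlgebraic k A :=
    ⟨fun a => (isAlgebraic_algHom_iff A.val Subtype.val_injective).1 (halg _ a.2).isAlgebraic⟩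
  refine counterexample_of_algebra (k := k) (D := A)
    (S.preimage Subtype.val Subtype.val_injective.injOn) ?_ hinf
  rw [Finset.coe_preimage]
  exact Algebra.adjoin_adjoin_coe_preimage

end Inner

section Ultra

variable (A : ℕ → Type) [∀ n, DivisionRing (A n)] (U : Ultrafilter ℕ)

/-- Equality almost everywhere. -/
def ultraCon : RingCon (∀ n, A n) where
  r f g := ∀ᶠ n in (U : Filter ℕ), f n = g n
  iseqv := ⟨fun _ => Eventually.of_forall fun _ => rfl, fun h => h.mono fun _ e => e.symm,
    fun h h' => (h.and h').mono fun _ e => e.1.trans e.2⟩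
  mul' h h' := (h.and h').mono fun _ e => by simp only [Pi.mul_apply, e.1, e.2]
  add' h h' := (h.and h').mono fun _ e => by simp only [Pi.add_apply, e.1, e.2]

/-- The ultraproduct. -/
abbrev Ultra : Type := (ultraCon A U).Quotient

theorem ultra_eq_iff (f g : ∀ n, A n) :
    (ultraCon A U).mk' f = (ultraCon A U).mk' g ↔ ∀ᶠ n in (U : Filter ℕ), f n = g n :=
  RingCon.eq _

instance : Nontrivial (Ultra A U) := by
  refine ⟨⟨(ultraCon A U).mk' 0, (ultraCon A U).mk' 1, fun h => ?_⟩⟩
  obtain ⟨n, hn⟩ := ((ultra_eq_iff A U 0 1).1 h).exists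
  exact zero_ne_one hn

theorem ultra_isUnit_or_zero (x : Ultra A U) : IsUnit x ∨ x = 0 := by
  obtain ⟨f, rfl⟩ := Quotient.mk''_surjective x
  rcases U.em fun n => f n = 0 with h | h
  · exact Or.inr ((ultra_eq_iff A U f 0).2 h)
  · refine Or.inl ⟨⟨(ultraCon A U).mk' f, (ultraCon A U).mk' (fun n => (f n)⁻¹), ?_, ?_⟩, rfl⟩
    · rw [← map_mul, ← map_one (ultraCon A U).mk', ultra_eq_iff]
      exact h.mono fun n hn => mul_inv_cancel₀ hn
    · rw [← map_mul, ← map_one (ultraCon A U).mk', ultra_eq_iff]
      exact h.mono fun n hn => inv_mul_cancel₀ hn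

instance : DivisionRing (Ultra A U) := DivisionRing.ofIsUnitOrEqZero (ultra_isUnit_or_zero A U)

end Ultra

section Fractions

variable {R B T k : Type} [CommRing R] [Ring B] [Algebra R B] [DivisionRing T] [Field k]
  [Algebra k T]

/-- The algebra generated over a field of scalar quotients: either it gives the counterexample,
or every image is, up to a scalar, a combination of finitely many fixed images. -/
theorem exists_coordinates_of_frac (gens : Finset B)
    (hgen : Algebra.adjoin R (gens : Set B) = ⊤) (Φ : B →+* T) (ψk : R →+* k)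
    (hψk : ∀ r, algebraMap k T (ψk r) = Φ (algebraMap R B r))
    (hfrac : ∀ c : k, ∃ a d : R, ψk d ≠ 0 ∧ c * ψk d = ψk a)
    (halg : ∀ b : B, ∃ P : Polynomial R, P.Monic ∧ Φ (Polynomial.aeval b P) = 0)
    (hno : ¬ Counterexample) :
    ∃ (N : ℕ) (bw : Fin N → B), ∀ b : B, ∃ d : R, ∃ r : Fin N → R,
      Φ (algebraMap R B d) ≠ 0 ∧
        Φ (algebraMap R B d * b) = Φ (∑ i, algebraMap R B (r i) * bw i) := by
  let S : Finset T := gens.image Φ
  let D := Algebra.adjoin k (S : Set T)
  -- every element of `D` is an image divided by a scalar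
  have hD : ∀ x ∈ D, ∃ b : B, ∃ d : R, ψk d ≠ 0 ∧ ψk d • x = Φ b := by
    intro x hx
    induction hx using Algebra.adjoin_induction with
    | mem x hx =>
      obtain ⟨b, -, rfl⟩ := Finset.mem_image.1 (Finset.mem_coe.1 hx)
      exact ⟨b, 1, by simp, by simp⟩
    | algebraMap c =>
      obtain ⟨a, d, hd, hcd⟩ := hfrac c
      exact ⟨algebraMap R B a, d, hd, by rw [Algebra.smul_def, ← map_mul, mul_comm, hcd, hψk]⟩
    | add x y _ _ hx hy =>
      obtain ⟨b, d, hd, e⟩ := hx
      obtain ⟨b', d', hd', e'⟩ := hy
      refine ⟨d' • b + d • b', d * d', by rw [map_mul]; exact mul_ne_zero hd hd', ?_⟩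
      rw [map_mul, map_add, Algebra.smul_def d', Algebra.smul_def d, map_mul, map_mul, ← hψk,
        ← hψk, ← Algebra.smul_def, ← Algebra.smul_def, ← e, ← e', smul_smul, smul_smul, smul_add,
        mul_comm (ψk d') (ψk d)]
    | mul x y _ _ hx hy =>
      obtain ⟨b, d, hd, e⟩ := hx
      obtain ⟨b', d', hd', e'⟩ := hy
      refine ⟨b * b', d * d', by rw [map_mul]; exact mul_ne_zero hd hd', ?_⟩
      rw [map_mul, map_mul, ← e, ← e', smul_mul_smul_comm]
  have himg : ∀ b, Φ b ∈ D := by
    intro b
    have hb : b ∈ Algebra.adjoin R (gens : Set B) := hgen ▸ Algebra.mem_top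
    induction hb using Algebra.adjoin_induction with
    | mem b hb =>
      exact Algebra.subset_adjoin (Finset.mem_coe.2 (Finset.mem_image_of_mem _ (Finset.mem_coe.1 hb)))
    | algebraMap r => rw [← hψk]; exact D.algebraMap_mem _
    | add x y _ _ hx hy => rw [map_add]; exact D.add_mem hx hy
    | mul x y _ _ hx hy => rw [map_mul]; exact D.mul_mem hx hy
  have hint : ∀ x ∈ D, IsIntegral k x := by
    intro x hx
    obtain ⟨b, d, hd, e⟩ := hD x hx
    obtain ⟨P, hP, hev⟩ := halg b
    have hb : IsIntegral k (Φ b) := by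
      refine ⟨P.map ψk, hP.map _, ?_⟩
      rw [Polynomial.eval₂_map, show (algebraMap k T).comp ψk = Φ.comp (algebraMap R B) from
        RingHom.ext hψk, ← Polynomial.hom_eval₂]
      exact hev
    rw [← inv_smul_smul₀ hd x, e]
    exact hb.smul _
  have hfin : Module.Finite k D := by
    by_contra h
    exact hno (counterexample_of_subalgebra (k := k) S hint h)
  obtain ⟨N, w, hw⟩ := Module.Finite.exists_fin (R := k) (M := D)
  choose bw dw hdw hew using fun i => hD (w i : T) (w i).2
  refine ⟨N, bw, fun b => ?_⟩
  obtain ⟨c, hc⟩ := (Submodule.mem_span_range_iff_exists_fun k).1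
    (hw ▸ Submodule.mem_top : (⟨Φ b, himg b⟩ : D) ∈ Submodule.span k (Set.range w))
  have hc' : ∑ i, c i • (w i : T) = Φ b := by
    simpa using congrArg Subtype.val hc
  choose ca cd hcd hca using fun i => hfrac (c i)
  let d := ∏ i, cd i * dw i
  have hd : ψk d ≠ 0 := by
    simp only [d, map_prod, map_mul]
    exact Finset.prod_ne_zero_iff.2 fun i _ => mul_ne_zero (hcd i) (hdw i)
  refine ⟨d, fun i => ca i * ∏ j ∈ Finset.univ.erase i, cd j * dw j,
    by rw [← hψk]; simpa using hd, ?_⟩
  rw [map_mul, ← hψk, ← Algebra.smul_def, ← hc', Finset.smul_sum, map_sum]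
  refine Finset.sum_congr rfl fun i _ => ?_
  rw [map_mul, ← hψk, ← Algebra.smul_def, ← hew i, smul_smul, smul_smul]
  congr 1
  simp only [map_mul, ← hca i, d, ← Finset.mul_prod_erase _ _ (Finset.mem_univ i), map_prod]
  ring

/-- The same for a division ring in which the scalars are central. -/
theorem exists_coordinates (gens : Finset B) (hgen : Algebra.adjoin R (gens : Set B) = ⊤)
    (Φ : B →+* T) (hcomm : ∀ r, Φ (algebraMap R B r) ∈ Subring.center T)
    (halg : ∀ b : B, ∃ P : Polynomial R, P.Monic ∧ Φ (Polynomial.aeval b P) = 0)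
    (hno : ¬ Counterexample) :
    ∃ (N : ℕ) (bw : Fin N → B), ∀ b : B, ∃ d : R, ∃ r : Fin N → R,
      Φ (algebraMap R B d) ≠ 0 ∧
        Φ (algebraMap R B d * b) = Φ (∑ i, algebraMap R B (r i) * bw i) := by
  let ψ : R →+* Subring.center T := (Φ.comp (algebraMap R B)).codRestrict _ hcomm
  let K : Subfield (Subring.center T) := Subfield.closure (Set.range ψ)
  let := ((Subring.center T).subtype.comp K.subtype).toAlgebra'
    fun c x => (Subring.mem_center_iff.1 (c : Subring.center T).2 x).symm
  let ψk : R →+* K := ψ.codRestrict K fun r => Subfield.subset_closure ⟨r, rfl⟩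
  refine exists_coordinates_of_frac (k := K) gens hgen Φ ψk (fun r => rfl) (fun c => ?_) halg hno
  -- every element of `K` is a quotient of two scalars
  obtain ⟨y, hy, z, hz, hyz⟩ := Subfield.mem_closure_iff.1 c.2
  rw [← RingHom.coe_range, Subring.closure_eq] at hy hz
  obtain ⟨a, rfl⟩ := hy
  obtain ⟨d, rfl⟩ := hz
  by_cases hd : ψ d = 0
  · refine ⟨0, 1, by simp, ?_⟩
    rw [hd, div_zero] at hyz
    have hc : c = 0 := Subtype.ext hyz.symm
    simp [hc]
  · refine ⟨a, d, fun h => hd (congrArg Subtype.val h), Subtype.ext ?_⟩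
    show (c : Subring.center T) * ψ d = ψ a
    rw [← hyz, div_mul_cancel₀ _ hd]

end Fractions

/-- **The limit.** Stages `φ n : B → A n` of a finitely generated algebra with scalars in `F n`,
each element eventually killed by a fixed monic polynomial over the scalars, the image eventually
not spanned by any given number of vectors, give the counterexample. -/
theorem counterexample_of_stages {R B : Type} [CommRing R] [Ring B] [Algebra R B]
    (gens : Finset B) (hgen : Algebra.adjoin R (gens : Set B) = ⊤)
    (A : ℕ → Type) [∀ n, DivisionRing (A n)] (F : ℕ → Type) [∀ n, Field (F n)]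
    [∀ n, Algebra (F n) (A n)] (φ : ∀ n, B →+* A n)
    (hscal : ∀ n r, φ n (algebraMap R B r) ∈ (algebraMap (F n) (A n)).range)
    (halg : ∀ b : B, ∃ P : Polynomial R, P.Monic ∧
      ∀ᶠ n in atTop, φ n (Polynomial.aeval b P) = 0)
    (hbig : ∀ N : ℕ, ∀ᶠ n in atTop, ∀ v : Fin N → A n,
      ∃ b : B, φ n b ∉ Submodule.span (F n) (Set.range v)) :
    Counterexample := by
  by_contra hno
  let U := hyperfilter ℕ
  have hU : ∀ {p : ℕ → Prop}, (∀ᶠ n in atTop, p n) → ∀ᶠ n in (U : Filter ℕ), p n :=
    fun hp => Nat.hyperfilter_le_atTop hp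
  let Φ : B →+* Ultra A U := (ultraCon A U).mk'.comp (RingHom.pi φ)
  have hΦ : ∀ b c, Φ b = Φ c ↔ ∀ᶠ n in (U : Filter ℕ), φ n b = φ n c :=
    fun b c => ultra_eq_iff A U _ _
  have hΦ0 : ∀ b, Φ b = 0 ↔ ∀ᶠ n in (U : Filter ℕ), φ n b = 0 := fun b => by
    simpa using hΦ b 0
  have hcomm : ∀ r, Φ (algebraMap R B r) ∈ Subring.center (Ultra A U) := by
    intro r
    refine Subring.mem_center_iff.2 fun x => ?_
    obtain ⟨f, rfl⟩ := Quotient.mk''_surjective x
    show (ultraCon A U).mk' f * (ultraCon A U).mk' (RingHom.pi φ (algebraMap R B r)) =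
      (ultraCon A U).mk' (RingHom.pi φ (algebraMap R B r)) * (ultraCon A U).mk' f
    rw [← map_mul, ← map_mul, ultra_eq_iff]
    refine Eventually.of_forall fun n => ?_
    obtain ⟨s, hs⟩ := hscal n r
    show f n * φ n (algebraMap R B r) = φ n (algebraMap R B r) * f n
    rw [← hs]
    exact (Algebra.commutes s (f n)).symm
  obtain ⟨N, bw, hspan⟩ := exists_coordinates gens hgen Φ hcomm (fun b => by
    obtain ⟨P, hP, hev⟩ := halg b
    exact ⟨P, hP, (hΦ0 _).2 (hU hev)⟩) hno
  choose dd rr hdd hev using hspan
  -- the finitely many products needed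
  let need : Finset B := insert 1 ((gens ×ˢ Finset.univ).image fun p => p.1 * bw p.2)
  have h1 : ∀ᶠ n in (U : Filter ℕ), ∀ b ∈ need, φ n (algebraMap R B (dd b)) ≠ 0 ∧
      φ n (algebraMap R B (dd b) * b) = φ n (∑ i, algebraMap R B (rr b i) * bw i) := by
    refine (Finset.eventually_all need).2 fun b _ => Eventually.and ?_ ((hΦ _ _).1 (hev b))
    exact Ultrafilter.eventually_not.2 fun h0 => hdd b ((hΦ0 _).2 h0)
  obtain ⟨n, hn, hn'⟩ := (h1.and (hU (hbig N))).exists
  let M := Submodule.span (F n) (Set.range fun i => φ n (bw i))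
  have hscalM : ∀ r : R, ∀ v ∈ M, φ n (algebraMap R B r) * v ∈ M := by
    intro r v hv
    obtain ⟨s, hs⟩ := hscal n r
    rw [← hs, ← Algebra.smul_def]
    exact M.smul_mem s hv
  have hmem : ∀ b ∈ need, φ n b ∈ M := by
    intro b hb
    obtain ⟨hd0, he⟩ := hn b hb
    obtain ⟨s, hs⟩ := hscal n (dd b)
    have h2 : φ n (algebraMap R B (dd b)) * φ n b ∈ M := by
      rw [← map_mul, he, map_sum]
      exact Submodule.sum_mem _ fun i _ => by
        rw [map_mul]; exact hscalM _ _ (Submodule.subset_span ⟨i, rfl⟩)
    have hs0 : s ≠ 0 := fun h => hd0 (by rw [← hs, h, map_zero])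
    rw [← hs, ← Algebra.smul_def] at h2
    simpa [smul_smul, inv_mul_cancel₀ hs0] using M.smul_mem s⁻¹ h2
  have hall : ∀ b : B, ∀ v ∈ M, φ n b * v ∈ M := by
    intro b
    have hb : b ∈ Algebra.adjoin R (gens : Set B) := hgen ▸ Algebra.mem_top
    induction hb using Algebra.adjoin_induction with
    | mem b hb =>
      intro v hv
      induction hv using Submodule.span_induction with
      | mem v hv =>
        obtain ⟨i, rfl⟩ := hv
        rw [← map_mul]
        exact hmem _ (Finset.mem_insert_of_mem (Finset.mem_image.2 ⟨(b, i), by simpa using hb, rfl⟩))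
      | zero => simp
      | add v w _ _ hv hw => rw [mul_add]; exact M.add_mem hv hw
      | smul r v _ hv => rw [mul_smul_comm]; exact M.smul_mem r hv
    | algebraMap r => exact hscalM r
    | add x y _ _ hx hy => intro v hv; rw [map_add, add_mul]; exact M.add_mem (hx v hv) (hy v hv)
    | mul x y _ _ hx hy => intro v hv; rw [map_mul, mul_assoc]; exact hx _ (hy v hv)
  obtain ⟨b, hb⟩ := hn' fun i => φ n (bw i)
  refine hb ?_
  have := hall b 1 (by simpa using hmem 1 (Finset.mem_insert_self _ _))
  rwa [mul_one] at this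

section Stages

/-- Polynomial expressions in finitely many traces are countable. -/
theorem countable_TP : Countable TP := by
  have : Countable TS := Countable.of_equiv _ (AddMonoidAlgebra.coeffEquiv
    (R := ℚ) (M := List (Fin 3) →₀ ℕ)).symm
  have : Countable (FreeMonoid (Fin 3)) := inferInstanceAs (Countable (List (Fin 3)))
  exact Countable.of_equiv _ (FreeAlgebra.basisFreeMonoid TS (Fin 3)).repr.toEquiv.symm

/-- The symbolic trace. -/
def traceTP : TP →ₗ[TS] TS :=
  (FreeAlgebra.basisFreeMonoid TS (Fin 3)).constr TS fun w => MvPolynomial.X w.toList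

/-- The monic polynomial in the symbolic traces of the powers of `g`. -/
def charTP (e : ℕ) (g : TP) : Polynomial TS :=
  ∑ k ∈ Finset.range (e + 1),
    Polynomial.C (coeffs (fun l => (e : TS) * traceTP (g ^ l)) k) * Polynomial.X ^ (e - k)

theorem charTP_monic (e : ℕ) (g : TP) : (charTP e g).Monic := by
  rw [charTP, Finset.sum_range_succ']
  simp only [coeffs, map_one, one_mul, Nat.sub_zero]
  rw [add_comm]
  refine Polynomial.monic_X_pow_add (lt_of_le_of_lt (Polynomial.degree_sum_le _ _) ?_)
  refine (Finset.sup_lt_iff (WithBot.bot_lt_coe _)).2 fun k hk => ?_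
  refine lt_of_le_of_lt (Polynomial.degree_C_mul_X_pow_le _ _) ?_
  rw [Finset.mem_range] at hk
  exact_mod_cast (show e - (k + 1) < e by omega)

theorem map_coeffs {K L : Type*} [CommRing K] [Algebra ℚ K] [CommRing L] [Algebra ℚ L]
    (f : K →+* L) (P : ℕ → K) (k : ℕ) : f (coeffs P k) = coeffs (fun l => f (P l)) k := by
  induction k using Nat.strong_induction_on with
  | _ k ih =>
    cases k with
    | zero => simp [coeffs]
    | succ k =>
      rw [coeffs, coeffs, map_neg, map_rat_smul f, map_sum]
      refine congrArg Neg.neg (congrArg _ (Finset.sum_congr rfl fun j _ => ?_))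
      rw [map_mul, ih _ (by omega)]

variable {K A : Type} [CommRing K] [Algebra ℚ K] [Ring A] [Algebra K A] (τ : A → K)
  (x : Fin 3 → A)

/-- The evaluation as a ring homomorphism. -/
def evHom : TP →+* A :=
  letI : Algebra TS A :=
    ((algebraMap K A).comp (evS τ x)).toAlgebra' fun c a => Algebra.commutes (evS τ x c) a
  (FreeAlgebra.lift TS x : TP →ₐ[TS] A).toRingHom

theorem evHom_apply (g : TP) : evHom τ x g = evP τ x g := rfl

theorem evHom_algebraMap (c : TS) :
    evHom τ x (algebraMap TS TP c) = algebraMap K A (evS τ x c) := by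
  let : Algebra TS A :=
    ((algebraMap K A).comp (evS τ x)).toAlgebra' fun c a => Algebra.commutes (evS τ x c) a
  exact AlgHom.commutes (FreeAlgebra.lift TS x : TP →ₐ[TS] A) c

theorem evHom_ι (i : Fin 3) : evHom τ x (FreeAlgebra.ι TS i) = x i := by
  let : Algebra TS A :=
    ((algebraMap K A).comp (evS τ x)).toAlgebra' fun c a => Algebra.commutes (evS τ x c) a
  exact FreeAlgebra.lift_ι_apply x i

theorem evHom_smul (c : TS) (g : TP) : evHom τ x (c • g) = evS τ x c • evHom τ x g := by
  rw [Algebra.smul_def, map_mul, evHom_algebraMap, ← Algebra.smul_def]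

theorem evS_traceTP (τ : A →ₗ[K] K) (g : TP) :
    evS τ x (traceTP g) = τ (evHom τ x g) := by
  let b := FreeAlgebra.basisFreeMonoid TS (Fin 3)
  have hb : ∀ w : FreeMonoid (Fin 3), evHom τ x (b w) = (w.toList.map x).prod := by
    intro w
    have e : b w = (w.toList.map (FreeAlgebra.ι TS)).prod := by
      simp [b, FreeAlgebra.basisFreeMonoid, FreeAlgebra.equivMonoidAlgebraFreeMonoid,
        FreeMonoid.lift_apply]
    rw [e, map_list_prod, List.map_map]
    exact congrArg List.prod (List.map_congr_left fun i _ => evHom_ι _ _ i)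
  induction (b.mem_span g) using Submodule.span_induction with
  | mem v hv =>
    obtain ⟨w, rfl⟩ := hv
    rw [hb, traceTP, Module.Basis.constr_basis]
    simp [evS]
  | zero => simp
  | add u v _ _ hu hv => simp [hu, hv]
  | smul c v _ hv => rw [map_smul, smul_eq_mul, map_mul, hv, evHom_smul, map_smul, smul_eq_mul]

theorem evHom_charTP (τ : A →ₗ[K] K) (e : ℕ) (g : TP) :
    evHom τ x (Polynomial.aeval g (charTP e g)) = npol τ e (evP τ x g) := by
  rw [charTP, map_sum, map_sum, npol]
  refine Finset.sum_congr rfl fun k _ => ?_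
  rw [map_mul, Polynomial.aeval_C, map_pow, Polynomial.aeval_X, ← Algebra.smul_def, evHom_smul,
    map_coeffs, map_pow, ← evHom_apply]
  simp only [map_mul, map_natCast, evS_traceTP, map_pow]

end Stages

/-- **M7.** The points give the counterexample. -/
theorem counterexample_of_points (hP : Points) : Counterexample := by
  have := countable_TP
  obtain ⟨g, hg⟩ := exists_surjective_nat TP
  choose F iF iF0 A iA iFA τ x hτ hkill hdim using fun n => hP g (2 * n + 2) n le_rfl
  refine counterexample_of_stages (R := TS) (B := TP)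
    (Finset.univ.image (FreeAlgebra.ι TS)) ?_ A F (fun n => evHom (τ n) (x n))
    (fun n c => ⟨evS (τ n) (x n) c, (evHom_algebraMap _ _ c).symm⟩) (fun b => ?_) fun N => ?_
  · rw [Finset.coe_image, Finset.coe_univ, Set.image_univ]
    exact FreeAlgebra.adjoin_range_ι TS (Fin 3)
  · obtain ⟨i, rfl⟩ := hg b
    exact ⟨charTP (2 ^ (i + 1)) (g i), charTP_monic _ _, eventually_atTop.2
      ⟨i + 1, fun n hn => (evHom_charTP _ _ _ _).trans (hkill n i (by omega))⟩⟩
  · refine eventually_atTop.2 ⟨N, fun n hn v => ?_⟩
    by_contra hcon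
    push Not at hcon
    have hle : (Algebra.adjoin (F n) (Set.range (x n))).toSubmodule ≤
        Submodule.span (F n) (Set.range v) := by
      rw [Algebra.adjoin_eq_span, Submodule.span_le]
      intro a ha
      have h : Submonoid.closure (Set.range (x n)) ≤
          MonoidHom.mrange (evHom (τ n) (x n)).toMonoidHom := Submonoid.closure_le.2 (by
        rintro _ ⟨i, rfl⟩
        exact ⟨FreeAlgebra.ι TS i, evHom_ι _ _ i⟩)
      obtain ⟨b, rfl⟩ := h ha
      exact hcon b
    have := FiniteDimensional.span_of_finite (F n) (Set.finite_range v)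
    have h1 := (Submodule.finrank_mono hle).trans (finrank_range_le_card v)
    rw [Fintype.card_fin, Subalgebra.finrank_toSubmodule] at h1
    have h2 := hdim n
    omega

end

end Vale.Agent.P199.Cex
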