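import Vale.Agent.P199.Cex.Defs

/-!
# Newton's method in several variables, and finiteness from an invertible Jacobian

* `newton_exists`, `newton_unique`, `newton_existsUnique`: a square polynomial system over an
  adically complete ring whose Jacobian at an approximate zero is invertible modulo the ideal
  has exactly one zero congruent to the approximate one.
* `finite_of_jac`: the coordinates of a zero, in a field extension, of a system with injective
  Jacobian generate a finite extension.
* `newton_exists_powerSeries`, `newton_unique_local`, `newton_algebraic`: the frozen statements.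
* `snd_aeval_dualPoint`: the Jacobian is read off from evaluation at dual numbers.
-/

open MvPolynomial
open scoped Matrix

namespace Vale.Agent.P199.Cex

section Jac

variable {R S : Type*} [CommRing R] [CommRing S] [Algebra R S] {σ τ : Type*}

/-- The Jacobian matrix of a polynomial system at a point. -/
noncomputable def jac (F : τ → MvPolynomial σ R) (x : σ → S) : Matrix τ σ S :=
  fun i j => aeval x (pderiv j (F i))

theorem jac_algHom {T : Type*} [CommRing T] [Algebra R T] (φ : S →ₐ[R] T)
    (F : τ → MvPolynomial σ R) (x : σ → S) :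
    jac F (fun j => φ (x j)) = (jac F x).map φ := by
  ext i j
  exact (congrArg (fun ψ : MvPolynomial σ R →ₐ[R] T => ψ (pderiv j (F i)))
    (comp_aeval x φ)).symm

theorem aeval_algHom {T : Type*} [CommRing T] [Algebra R T] (φ : S →ₐ[R] T)
    (p : MvPolynomial σ R) (x : σ → S) :
    aeval (fun j => φ (x j)) p = φ (aeval x p) :=
  (congrArg (fun ψ : MvPolynomial σ R →ₐ[R] T => ψ p) (comp_aeval x φ)).symm

theorem det_jac_algHom {T : Type*} [CommRing T] [Algebra R T] [Fintype σ] [DecidableEq σ]
    (φ : S →ₐ[R] T) (F : σ → MvPolynomial σ R) (x : σ → S) :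
    (jac F (fun j => φ (x j))).det = φ (jac F x).det := by
  rw [jac_algHom]
  exact (φ.map_det _).symm

theorem jac_map_base {R' : Type*} [CommRing R'] [Algebra R R'] [Algebra R' S]
    [IsScalarTower R R' S] (F : τ → MvPolynomial σ R) (x : σ → S) :
    jac (fun i => MvPolynomial.map (algebraMap R R') (F i)) x = jac F x := by
  ext i j
  simp [jac, pderiv_map, aeval_map_algebraMap]

variable [Fintype σ] [DecidableEq σ]

omit [Fintype σ] in
theorem aeval_pderiv_mul_X (x : σ → S) (p : MvPolynomial σ R) (i j : σ) :
    aeval x (pderiv j (p * X i))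
      = aeval x (pderiv j p) * x i + (if i = j then aeval x p else 0) := by
  rw [pderiv_mul]
  rcases eq_or_ne i j with rfl | hij
  · simp
  · simp [pderiv_X_of_ne hij, hij]

theorem sum_pderiv_mul_X (x h : σ → S) (p : MvPolynomial σ R) (i : σ) :
    (∑ j, aeval x (pderiv j (p * X i)) * h j)
      = (∑ j, aeval x (pderiv j p) * h j) * x i + aeval x p * h i := by
  simp only [aeval_pderiv_mul_X, add_mul, ite_mul, zero_mul, Finset.sum_add_distrib,
    Finset.sum_ite_eq, Finset.mem_univ, if_true, Finset.sum_mul]
  congr 1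
  exact Finset.sum_congr rfl fun j _ => by ring

/-- First order Taylor expansion with remainder in the square of an ideal. -/
theorem aeval_add_taylor (D : Ideal S) (a h : σ → S) (hh : ∀ j, h j ∈ D)
    (p : MvPolynomial σ R) :
    aeval (fun j => a j + h j) p - aeval a p - ∑ j, aeval a (pderiv j p) * h j ∈ D * D := by
  induction p using MvPolynomial.induction_on with
  | C c => simp
  | add p q hp hq =>
    convert add_mem hp hq using 1
    simp only [map_add, add_mul, Finset.sum_add_distrib]
    ring
  | mul_X p i hp =>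
    have hL : (∑ j, aeval a (pderiv j p) * h j) ∈ D :=
      sum_mem fun j _ => D.mul_mem_left _ (hh j)
    rw [sum_pderiv_mul_X, map_mul, map_mul, aeval_X, aeval_X]
    convert add_mem ((D * D).mul_mem_right (a i + h i) hp) (Ideal.mul_mem_mul hL (hh i)) using 1
    ring

theorem aeval_sub_mem (D : Ideal S) (a b : σ → S) (hab : ∀ j, b j - a j ∈ D)
    (p : MvPolynomial σ R) : aeval b p - aeval a p ∈ D := by
  have h1 := Ideal.mul_le_left (aeval_add_taylor D a (fun j => b j - a j) hab p)
  have h2 : (∑ j, aeval a (pderiv j p) * (b j - a j)) ∈ D :=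
    sum_mem fun j _ => D.mul_mem_left _ (hab j)
  have h3 := add_mem h1 h2
  simp only [add_sub_cancel, sub_add_cancel] at h3
  exact h3

omit [Fintype σ] [DecidableEq σ] in
theorem mulVec_mem {m : Type*} [Fintype m] (D : Ideal S) (M : Matrix σ m S) (v : m → S)
    (hv : ∀ k, v k ∈ D) (i : σ) : (M *ᵥ v) i ∈ D :=
  sum_mem fun k _ => D.mul_mem_left _ (hv k)

theorem mem_of_mulVec_mem (D : Ideal S) {M : Matrix σ σ S} (hM : IsUnit M.det) (v : σ → S)
    (hv : ∀ i, (M *ᵥ v) i ∈ D) (i : σ) : v i ∈ D := by
  have h : M⁻¹ *ᵥ (M *ᵥ v) = v := by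
    rw [Matrix.mulVec_mulVec, Matrix.nonsing_inv_mul M hM, Matrix.one_mulVec]
  have h' := mulVec_mem D M⁻¹ _ hv i
  rwa [h] at h'

theorem det_jac_sub_mem (I : Ideal S) (F : σ → MvPolynomial σ R) (a b : σ → S)
    (hab : ∀ j, b j - a j ∈ I) :
    Ideal.Quotient.mk I (jac F b).det = Ideal.Quotient.mk I (jac F a).det := by
  rw [RingHom.map_det, RingHom.map_det]
  congr 1
  ext i j
  exact Ideal.Quotient.eq.2 (aeval_sub_mem I a b hab _)

theorem isUnit_det_jac (I : Ideal S) [IsAdicComplete I S] (F : σ → MvPolynomial σ R)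
    (a b : σ → S) (hab : ∀ j, b j - a j ∈ I)
    (hJ : IsUnit (Ideal.Quotient.mk I (jac F a).det)) : IsUnit (jac F b).det := by
  have hl := isLocalHom_of_le_jacobson_bot I (IsAdicComplete.le_jacobson_bot I)
  apply IsUnit.of_map (Ideal.Quotient.mk I)
  rwa [det_jac_sub_mem I F a b hab]

/-- Existence in Newton's lemma. -/
theorem newton_exists (I : Ideal S) [IsAdicComplete I S] (F : σ → MvPolynomial σ R)
    (a : σ → S) (h0 : ∀ i, aeval a (F i) ∈ I)
    (hJ : IsUnit (Ideal.Quotient.mk I (jac F a).det)) :
    ∃ b : σ → S, (∀ i, b i - a i ∈ I) ∧ ∀ i, aeval b (F i) = 0 := by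
  have hu : IsUnit (jac F a).det := isUnit_det_jac I F a a (by simp) hJ
  let step : (σ → S) → (σ → S) := fun c j =>
    c j + (-((jac F a)⁻¹ *ᵥ fun i => aeval c (F i))) j
  let c : ℕ → σ → S := fun n => step^[n] a
  have hc : ∀ n, c (n + 1) = step (c n) := fun n => Function.iterate_succ_apply' step n a
  have key : ∀ n, (∀ j, c n j - a j ∈ I) ∧ ∀ i, aeval (c n) (F i) ∈ I ^ (n + 1) := by
    intro n
    induction n with
    | zero => exact ⟨fun j => by simp [c], fun i => by simpa [c] using h0 i⟩
    | succ n ih =>
      set h : σ → S := -((jac F a)⁻¹ *ᵥ fun i => aeval (c n) (F i)) with hh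
      have hmem : ∀ j, h j ∈ I ^ (n + 1) := fun j => by
        rw [hh, Pi.neg_apply]
        exact neg_mem (mulVec_mem _ _ _ ih.2 j)
      have hnext : c (n + 1) = fun j => c n j + h j := hc n
      refine ⟨fun j => ?_, fun i => ?_⟩
      · rw [hnext]
        have := add_mem (ih.1 j) (Ideal.pow_le_self (Nat.succ_ne_zero n) (hmem j))
        convert this using 1
        ring
      · rw [hnext]
        have htay := aeval_add_taylor (I ^ (n + 1)) (c n) h hmem (F i)
        rw [← pow_add] at htay
        have htay' := Ideal.pow_le_pow_right (by omega : n + 2 ≤ n + 1 + (n + 1)) htay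
        have hdiff : (∑ j, (aeval (c n) (pderiv j (F i)) - aeval a (pderiv j (F i))) * h j)
            ∈ I ^ (n + 2) := by
          refine sum_mem fun j _ => ?_
          rw [pow_succ']
          exact Ideal.mul_mem_mul (aeval_sub_mem I a (c n) ih.1 _) (hmem j)
        have hJh : (∑ j, aeval a (pderiv j (F i)) * h j) = -aeval (c n) (F i) := by
          have e : (jac F a *ᵥ h) i = -aeval (c n) (F i) := by
            rw [hh, Matrix.mulVec_neg, Matrix.mulVec_mulVec, Matrix.mul_nonsing_inv _ hu,
              Matrix.one_mulVec]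
            rfl
          exact e
        simp only [sub_mul, Finset.sum_sub_distrib, hJh] at hdiff
        convert add_mem htay' hdiff using 1
        ring
  have hcauchy : ∀ {m n : ℕ}, m ≤ n → ∀ j, c n j - c m j ∈ I ^ m := by
    intro m n hmn
    induction n, hmn using Nat.le_induction with
    | base => simp
    | succ n hn ih =>
      intro j
      have h1 : c (n + 1) j - c n j ∈ I ^ m := by
        rw [hc n]
        simp only [step, add_sub_cancel_left, Pi.neg_apply]
        exact neg_mem (mulVec_mem _ _ _
          (fun i => Ideal.pow_le_pow_right (by omega : m ≤ n + 1) ((key n).2 i)) j)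
      have := add_mem h1 (ih j)
      rwa [sub_add_sub_cancel] at this
  have hlim : ∀ j, ∃ L : S, ∀ n, c n j ≡ L [SMOD (I ^ n • ⊤ : Ideal S)] := fun j =>
    IsPrecomplete.prec inferInstance (fun {m n} hmn => by
      rw [SModEq.sub_mem, smul_eq_mul, Ideal.mul_top, ← neg_mem_iff, neg_sub]
      exact hcauchy hmn j)
  choose b hb using hlim
  have hb' : ∀ n j, b j - c n j ∈ I ^ n := fun n j => by
    have := hb j n
    rw [SModEq.sub_mem, smul_eq_mul, Ideal.mul_top, ← neg_mem_iff, neg_sub] at this
    exact this
  refine ⟨b, fun j => ?_, fun i => ?_⟩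
  · have h1 := hb' 1 j
    rw [pow_one] at h1
    have := add_mem h1 ((key 1).1 j)
    rwa [sub_add_sub_cancel] at this
  · refine IsHausdorff.haus (I := I) inferInstance _ fun n => ?_
    rw [SModEq.zero, smul_eq_mul, Ideal.mul_top]
    have h1 := aeval_sub_mem (I ^ n) (c n) b (hb' n) (F i)
    have h2 := Ideal.pow_le_pow_right (Nat.le_succ n) ((key n).2 i)
    have := add_mem h1 h2
    rwa [sub_add_cancel] at this

/-- Uniqueness in Newton's lemma: it needs separatedness only. -/
theorem newton_unique (I : Ideal S) [IsHausdorff I S] (F : σ → MvPolynomial σ R) (b c : σ → S)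
    (hb : ∀ i, aeval b (F i) = 0) (hc : ∀ i, aeval c (F i) = 0)
    (hbc : ∀ i, c i - b i ∈ I) (hJ : IsUnit (jac F b).det) : b = c := by
  have key : ∀ n j, c j - b j ∈ I ^ n := by
    intro n
    induction n with
    | zero => simp
    | succ n ih =>
      rcases Nat.eq_zero_or_pos n with rfl | hn
      · simpa using hbc
      refine mem_of_mulVec_mem _ hJ _ fun i => ?_
      have h := aeval_add_taylor (I ^ n) b (fun j => c j - b j) ih (F i)
      simp only [add_sub_cancel, hb, hc, sub_zero, zero_sub, neg_mem_iff, ← pow_add] at h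
      exact Ideal.pow_le_pow_right (by omega : n + 1 ≤ n + n) h
  funext j
  refine (sub_eq_zero.1 (IsHausdorff.haus (I := I) inferInstance _ fun n => ?_)).symm
  rw [SModEq.zero, smul_eq_mul, Ideal.mul_top]
  exact key n j

/-- Newton's lemma. -/
theorem newton_existsUnique (I : Ideal S) [IsAdicComplete I S] (F : σ → MvPolynomial σ R)
    (a : σ → S) (h0 : ∀ i, aeval a (F i) ∈ I)
    (hJ : IsUnit (Ideal.Quotient.mk I (jac F a).det)) :
    ∃! b : σ → S, (∀ i, b i - a i ∈ I) ∧ ∀ i, aeval b (F i) = 0 := by
  obtain ⟨b, hb, hb0⟩ := newton_exists I F a h0 hJ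
  refine ⟨b, ⟨hb, hb0⟩, fun c hc => ?_⟩
  refine (newton_unique I F b c hb0 hc.2 (fun i => ?_) (isUnit_det_jac I F a b hb hJ)).symm
  have := sub_mem (hc.1 i) (hb i)
  rwa [sub_sub_sub_cancel_right] at this

theorem isUnit_mk_of_notMem {T : Type*} [CommRing T] (I : Ideal T) [I.IsMaximal] {d : T}
    (hd : d ∉ I) : IsUnit (Ideal.Quotient.mk I d) := by
  let := Ideal.Quotient.field I
  exact isUnit_iff_ne_zero.2 fun h => hd (Ideal.Quotient.eq_zero_iff_mem.1 h)

/-- Newton's lemma at a maximal ideal. -/
theorem newton_existsUnique_maximal (I : Ideal S) [I.IsMaximal] [IsAdicComplete I S]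
    (F : σ → MvPolynomial σ R) (a : σ → S) (h0 : ∀ i, aeval a (F i) ∈ I)
    (hJ : (jac F a).det ∉ I) :
    ∃! b : σ → S, (∀ i, b i - a i ∈ I) ∧ ∀ i, aeval b (F i) = 0 :=
  newton_existsUnique I F a h0 (isUnit_mk_of_notMem I hJ)

/-- Newton's lemma with a residue map onto a field. -/
theorem newton_existsUnique_residue {L : Type*} [Field L] [Algebra R L] (I : Ideal S)
    [IsAdicComplete I S] (φ : S →ₐ[R] L) (hφ : Function.Surjective φ)
    (hker : ∀ s, φ s = 0 ↔ s ∈ I) (F : σ → MvPolynomial σ R) (x : σ → L)
    (hx : ∀ i, aeval x (F i) = 0) (hJ : (jac F x).det ≠ 0) :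
    ∃! b : σ → S, (∀ i, φ (b i) = x i) ∧ ∀ i, aeval b (F i) = 0 := by
  choose a ha using fun j => hφ (x j)
  have hax : (fun j => φ (a j)) = x := funext ha
  have hI : I = RingHom.ker φ.toRingHom := by
    ext s
    exact (hker s).symm
  have : I.IsMaximal := hI ▸ RingHom.ker_isMaximal_of_surjective φ.toRingHom hφ
  have h0 : ∀ i, aeval a (F i) ∈ I := fun i => by
    rw [← hker, ← aeval_algHom, hax]
    exact hx i
  have hd : (jac F a).det ∉ I := fun h => hJ (by
    rw [← hax, det_jac_algHom, (hker _).2 h])
  refine (existsUnique_congr fun b => ?_).1 (newton_existsUnique_maximal I F a h0 hd)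
  refine and_congr_left fun _ => forall_congr' fun i => ?_
  rw [← hker, map_sub, sub_eq_zero, ha]

/-- The point `x + ε h` in dual numbers. -/
noncomputable def dualPoint (x h : σ → S) : σ → DualNumber S :=
  fun j => TrivSqZeroExt.inl (x j) + TrivSqZeroExt.inr (h j)

theorem aeval_dualPoint (x h : σ → S) (p : MvPolynomial σ R) :
    aeval (dualPoint x h) p = TrivSqZeroExt.inl (aeval x p)
      + TrivSqZeroExt.inr (∑ j, aeval x (pderiv j p) * h j) := by
  induction p using MvPolynomial.induction_on with
  | C c =>
    rw [aeval_C, aeval_C, IsScalarTower.algebraMap_apply R S (DualNumber S)]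
    simp [TrivSqZeroExt.algebraMap_eq_inl]
  | add p q hp hq =>
    simp only [map_add, hp, hq, add_mul, Finset.sum_add_distrib, TrivSqZeroExt.inl_add,
      TrivSqZeroExt.inr_add]
    abel
  | mul_X p i hp =>
    rw [map_mul, hp, aeval_X]
    apply TrivSqZeroExt.ext
    · simp [dualPoint]
    · simp only [dualPoint, DualNumber.snd_mul, TrivSqZeroExt.fst_add, TrivSqZeroExt.fst_inl,
        TrivSqZeroExt.fst_inr, TrivSqZeroExt.snd_add, TrivSqZeroExt.snd_inl,
        TrivSqZeroExt.snd_inr, map_mul, aeval_X, sum_pderiv_mul_X]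
      ring

theorem snd_aeval_dualPoint (x h : σ → S) (F : τ → MvPolynomial σ R) (i : τ) :
    (aeval (dualPoint x h) (F i)).snd = (jac F x *ᵥ h) i := by
  rw [aeval_dualPoint]
  simp [jac, Matrix.mulVec, dotProduct]

theorem fst_aeval_dualPoint (x h : σ → S) (p : MvPolynomial σ R) :
    (aeval (dualPoint x h) p).fst = aeval x p := by
  rw [aeval_dualPoint]
  simp

/-- Over a domain the determinant is nonzero once the first order system has only the zero
solution. -/
theorem det_jac_ne_zero [IsDomain S] (F : σ → MvPolynomial σ R) (x : σ → S)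
    (H : ∀ h : σ → S, (∀ i, (aeval (dualPoint x h) (F i)).snd = 0) → h = 0) :
    (jac F x).det ≠ 0 := by
  intro hd
  obtain ⟨v, hv, hv0⟩ := Matrix.exists_mulVec_eq_zero_iff.2 hd
  exact hv (H v fun i => by rw [snd_aeval_dualPoint, hv0]; rfl)

end Jac

section Finite

variable {K L : Type*} [Field K] [Field L] [Algebra K L] {σ : Type*} [Fintype σ] [DecidableEq σ]

theorem derivation_aeval {E M : Type*} [CommRing E] [Algebra K E] [AddCommGroup M] [Module E M]
    [Module K M] [IsScalarTower K E M] (D : Derivation K E M) (y : σ → E)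
    (p : MvPolynomial σ K) :
    D (aeval y p) = ∑ j, aeval y (pderiv j p) • D (y j) := by
  induction p using MvPolynomial.induction_on with
  | C c => simp
  | add p q hp hq => simp [map_add, hp, hq, add_smul, Finset.sum_add_distrib]
  | mul_X p i hp =>
    rw [map_mul, aeval_X, D.leibniz, hp, Finset.smul_sum]
    simp only [aeval_pderiv_mul_X, add_smul, Finset.sum_add_distrib, ite_smul, zero_smul,
      Finset.sum_ite_eq, Finset.mem_univ, if_true, smul_smul]
    rw [add_comm]
    congr 1
    exact Finset.sum_congr rfl fun j _ => by rw [mul_comm]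

theorem exists_row_combination {k : Type*} [Field k] {κ : Type*} (M : κ → σ → k)
    (H : ∀ v : σ → k, (∀ i, ∑ j, M i j * v j = 0) → v = 0) (l : σ) :
    ∃ (s : Finset κ) (c : κ → k), ∀ j, ∑ i ∈ s, c i * M i j = if l = j then 1 else 0 := by
  have hmem : (fun j => if l = j then (1 : k) else 0) ∈ Submodule.span k (Set.range M) := by
    by_contra hl
    obtain ⟨φ, hφ0, hφ⟩ := Submodule.exists_dual_map_eq_bot_of_lt_top
      (p := Submodule.span k (Set.range M))
      (lt_top_iff_ne_top.2 fun h => hl (h.symm ▸ Submodule.mem_top)) inferInstance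
    have hexp : ∀ w : σ → k, φ w = ∑ j, w j * φ (Pi.single j 1) := fun w => by
      conv_lhs => rw [pi_eq_sum_univ' w]
      simp [map_sum]
    have hv := H (fun j => φ (Pi.single j 1)) fun i => by
      rw [← hexp]
      have h1 : φ (M i) ∈ (Submodule.span k (Set.range M)).map φ :=
        Submodule.mem_map_of_mem (Submodule.subset_span (Set.mem_range_self i))
      rwa [hφ, Submodule.mem_bot] at h1
    exact hφ0 (LinearMap.ext fun w => by
      rw [hexp w, LinearMap.zero_apply]
      exact Finset.sum_eq_zero fun j _ => by rw [congrFun hv j, Pi.zero_apply, mul_zero])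
  obtain ⟨c, hc⟩ := Finsupp.mem_span_range_iff_exists_finsupp.1 hmem
  refine ⟨c.support, c, fun j => ?_⟩
  have h := congrFun hc j
  simpa [Finsupp.sum, Finset.sum_apply] using h

theorem formallyUnramified_adjoin {κ : Type*} (F : κ → MvPolynomial σ K) (x : σ → L)
    (hx : ∀ i, aeval x (F i) = 0)
    (hJ : ∀ v : σ → L, (∀ i, ∑ j, aeval x (pderiv j (F i)) * v j = 0) → v = 0) :
    Algebra.FormallyUnramified K (IntermediateField.adjoin K (Set.range x)) := by
  set E := IntermediateField.adjoin K (Set.range x) with hE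
  let y : σ → E := fun j => ⟨x j, IntermediateField.subset_adjoin K _ ⟨j, rfl⟩⟩
  have hval : ∀ p : MvPolynomial σ K, ((aeval y p : E) : L) = aeval x p :=
    fun p => (aeval_algHom E.val p y).symm
  have hy : ∀ i, aeval y (F i) = 0 := fun i => Subtype.ext ((hval _).trans (hx i))
  have hJy : ∀ v : σ → E, (∀ i, ∑ j, aeval y (pderiv j (F i)) * v j = 0) → v = 0 := by
    intro v hv
    have h := hJ (fun j => (v j : L)) fun i => by
      have := congrArg (fun e : E => (e : L)) (hv i)
      simpa [hval] using this
    funext j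
    exact Subtype.ext (congrFun h j)
  let D := KaehlerDifferential.D K E
  have hD : ∀ l, D (y l) = 0 := by
    intro l
    obtain ⟨s, c, hc⟩ := exists_row_combination _ hJy l
    have h2 : ∑ i ∈ s, c i • ∑ j, aeval y (pderiv j (F i)) • D (y j) = 0 := by
      refine Finset.sum_eq_zero fun i _ => ?_
      rw [← derivation_aeval, hy i, map_zero, smul_zero]
    simp only [Finset.smul_sum, smul_smul] at h2
    rw [Finset.sum_comm] at h2
    simp only [← Finset.sum_smul, hc, ite_smul, one_smul, zero_smul, Finset.sum_ite_eq,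
      Finset.mem_univ, if_true] at h2
    exact h2
  have hall : ∀ e : E, D e = 0 := by
    rintro ⟨e, he⟩
    induction he using IntermediateField.adjoin_induction with
    | mem z hz =>
      obtain ⟨j, rfl⟩ := hz
      exact hD j
    | algebraMap c => exact D.map_algebraMap c
    | add z w hz hw ihz ihw =>
      exact (D.map_add ⟨z, hz⟩ ⟨w, hw⟩).trans (by rw [ihz, ihw, add_zero])
    | inv z hz ihz =>
      exact (D.leibniz_inv ⟨z, hz⟩).trans (by rw [ihz, smul_zero])
    | mul z w hz hw ihz ihw =>
      exact (D.leibniz ⟨z, hz⟩ ⟨w, hw⟩).trans (by rw [ihz, ihw, smul_zero, smul_zero, add_zero])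
  rw [Algebra.formallyUnramified_iff]
  refine ⟨fun u v => ?_⟩
  have hbot : (⊤ : Submodule E (Ω[E⁄K])) ≤ ⊥ := by
    rw [← KaehlerDifferential.span_range_derivation K E, Submodule.span_le]
    rintro _ ⟨e, rfl⟩
    exact hall e
  rw [(Submodule.mem_bot E).1 (hbot (Submodule.mem_top (x := u))),
    (Submodule.mem_bot E).1 (hbot (Submodule.mem_top (x := v)))]

/-- The coordinates of a zero with injective Jacobian generate a finite extension. -/
theorem finite_of_jac {κ : Type*} (F : κ → MvPolynomial σ K) (x : σ → L)
    (hx : ∀ i, aeval x (F i) = 0)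
    (hJ : ∀ v : σ → L, (∀ i, ∑ j, aeval x (pderiv j (F i)) * v j = 0) → v = 0) :
    FiniteDimensional K (IntermediateField.adjoin K (Set.range x)) := by
  have := formallyUnramified_adjoin F x hx hJ
  have : Algebra.EssFiniteType K (IntermediateField.adjoin K (Set.range x)) :=
    IntermediateField.essFiniteType_iff.2
      (IntermediateField.fg_adjoin_of_finite (Set.finite_range x))
  exact Algebra.FormallyUnramified.finite_of_free K _

end Finite

section Frozen

theorem newton_exists_powerSeries : NewtonExists := by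
  intro F _ ι _ _ f a h0 hJ
  let a' : ι → PowerSeries F := fun i => PowerSeries.C (a i)
  have hmap : ∀ p : MvPolynomial ι (PowerSeries F),
      PowerSeries.constantCoeff (eval a' p) = eval a (p.map PowerSeries.constantCoeff) := by
    intro p
    rw [eval_map]
    induction p using MvPolynomial.induction_on with
    | C c => simp
    | add p q hp hq => simp [hp, hq]
    | mul_X p i hp => simp [hp, a']
  let I : Ideal (PowerSeries F) := Ideal.span {PowerSeries.X}
  have hI : ∀ s, s ∈ I ↔ PowerSeries.constantCoeff s = 0 := fun s => by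
    rw [Ideal.mem_span_singleton, PowerSeries.X_dvd_iff]
  have hu : IsUnit (jac f a').det := by
    rw [PowerSeries.isUnit_iff_constantCoeff, RingHom.map_det, isUnit_iff_ne_zero]
    refine fun h => hJ (Eq.trans ?_ h)
    congr 1
    ext i j
    simp only [RingHom.mapMatrix_apply, Matrix.map_apply, Matrix.of_apply, jac, aeval_eq_eval,
      hmap, pderiv_map]
  obtain ⟨b, hb, hb0⟩ := newton_exists I f a' (fun i => (hI _).2 (by rw [aeval_eq_eval, hmap]; exact h0 i))
    (hu.map (Ideal.Quotient.mk I))
  refine ⟨b, fun i => ?_, fun i => ?_⟩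
  · rw [← hb0 i]
    simp [aeval_eq_eval]
  · simpa [a', sub_eq_zero] using (hI _).1 (hb i)

theorem newton_unique_local : NewtonUnique := by
  intro R _ _ _ _ ι κ _ f x y hx hy hxy hJ
  classical
  let m := IsLocalRing.maximalIdeal R
  have key : ∀ n j, y j - x j ∈ m ^ n := by
    intro n
    induction n with
    | zero => simp
    | succ n ih =>
      rcases Nat.eq_zero_or_pos n with rfl | hn
      · intro j
        rw [pow_one, ← neg_mem_iff, neg_sub]
        exact hxy j
      intro l
      obtain ⟨s, c, hc⟩ := exists_row_combination _ hJ l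
      choose c' hc' using fun i => IsLocalRing.residue_surjective (c i)
      have h1 : ∀ k, ∑ j, eval x (pderiv j (f k)) * (y j - x j) ∈ m ^ (n + 1) := fun k => by
        have h := aeval_add_taylor (m ^ n) x (fun j => y j - x j) ih (f k)
        simp only [add_sub_cancel, aeval_eq_eval, hx, hy, sub_zero, zero_sub, neg_mem_iff,
          ← pow_add] at h
        exact Ideal.pow_le_pow_right (by omega : n + 1 ≤ n + n) h
      have h2 : ∑ j, ((∑ k ∈ s, c' k * eval x (pderiv j (f k))) - if l = j then 1 else 0)
          * (y j - x j) ∈ m ^ (n + 1) := by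
        refine sum_mem fun j _ => ?_
        rw [pow_succ']
        refine Ideal.mul_mem_mul ?_ (ih j)
        rw [← IsLocalRing.residue_eq_zero_iff]
        simp [map_sum, hc', hc j, apply_ite (IsLocalRing.residue R)]
      have h3 : ∑ j, (∑ k ∈ s, c' k * eval x (pderiv j (f k))) * (y j - x j) ∈ m ^ (n + 1) := by
        simp only [Finset.sum_mul]
        rw [Finset.sum_comm]
        refine sum_mem fun k _ => ?_
        simp only [mul_assoc, ← Finset.mul_sum]
        exact Ideal.mul_mem_left _ _ (h1 k)
      have h4 := sub_mem h3 h2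
      simpa [sub_mul, Finset.sum_sub_distrib, ite_mul] using h4
  funext j
  have hmem : y j - x j ∈ (⨅ n : ℕ, m ^ n : Ideal R) := Ideal.mem_iInf.2 fun n => key n j
  rw [Ideal.iInf_pow_eq_bot_of_isLocalRing m (IsLocalRing.maximalIdeal.isMaximal R).ne_top,
    Ideal.mem_bot, sub_eq_zero] at hmem
  exact hmem.symm

theorem newton_algebraic : NewtonAlgebraic := by
  intro K _ _ E _ _ ι κ _ f x hx hJ i
  classical
  have := finite_of_jac f x hx hJ
  have h := Algebra.IsAlgebraic.isAlgebraic (R := K)
    (⟨x i, IntermediateField.subset_adjoin K _ ⟨i, rfl⟩⟩ :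
      IntermediateField.adjoin K (Set.range x))
  exact (IntermediateField.isAlgebraic_iff).1 h

end Frozen

end Vale.Agent.P199.Cex
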