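import Vale.Agent.P199.Cex.Defs

/-!
P199, counterexample: the parity step in abstract form (`NOTES.md`, section 4).
-/

open scoped Classical

namespace Vale.Agent.P199.Cex

noncomputable section

/-- The point `x` is a zero of the system `f`, whose coefficients are mapped by `φ`. -/
def IsZeroAt {F R : Type} [Field F] [CommRing R] {ι κ : Type}
    (f : κ → MvPolynomial ι (Polynomial F)) (φ : Polynomial F →+* R) (x : ι → R) : Prop :=
  ∀ k, MvPolynomial.eval₂ φ x (f k) = 0

/-- The parity step: a system in the parameter `X`, equivariant under sign changes, with unit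
spheres at every bit, one orbit of zeros at `X = 0` over good fields, a simple one, has a zero
at `X = -1` over a good field. -/
def Parity : Prop :=
  ∀ (n : ℕ) (F : Type) (_ : Field F) (t : Fin n → F) (ι κ : Type) (_ : Fintype ι) (_ : Fintype κ)
    (ch : ι → Finset (Fin n)) (a₀ : ι → F) (f : κ → MvPolynomial ι (Polynomial F)),
    Good n F t →
    (∀ j, (ch j).Nonempty) → (∀ j, a₀ j = 0 ∨ a₀ j = 1) →
    -- equivariance
    (∀ (R : Type) [CommRing R] [IsDomain R] (φ : Polynomial F →+* R) (x : ι → R)
      (a : Fin n → R), (∀ b, a b ^ 2 = 1) → IsZeroAt f φ x →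
        IsZeroAt f φ fun j => (∏ b ∈ ch j, a b) * x j) →
    -- spheres
    (∀ (R : Type) [CommRing R] [IsDomain R] (φ : Polynomial F →+* R) (x : ι → R),
      IsZeroAt f φ x → ∀ b : Fin n,
        ∑ j ∈ Finset.univ.filter (fun j => TopEq b (ch j)), x j ^ 2 = 1) →
    -- the zeros at the parameter 0 over good fields form the orbit of `a₀`
    (∀ (k : Type) [Field k] [Algebra F k], Good n k (fun b => algebraMap F k (t b)) →
      ∀ x : ι → k, IsZeroAt f (Polynomial.eval₂RingHom (algebraMap F k) 0) x →
        ∃ a : Fin n → k, (∀ b, a b ^ 2 = 1) ∧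
          ∀ j, x j = (∏ b ∈ ch j, a b) * algebraMap F k (a₀ j)) →
    -- the Jacobian there is injective
    (∀ v : ι → F, (∀ k, ∑ j, MvPolynomial.eval₂ (Polynomial.evalRingHom 0) a₀
      (MvPolynomial.pderiv j (f k)) * v j = 0) → v = 0) →
    -- the branch through `a₀`
    (∃ P : ι → PowerSeries F, (∀ j, PowerSeries.constantCoeff (P j) = a₀ j) ∧
      IsZeroAt f (Polynomial.eval₂RingHom PowerSeries.C PowerSeries.X) P) →
    ∃ (k : Type) (_ : Field k) (_ : Algebra F k) (x : ι → k),
      Good n k (fun b => algebraMap F k (t b)) ∧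
        IsZeroAt f (Polynomial.eval₂RingHom (algebraMap F k) (-1)) x

end

end Vale.Agent.P199.Cex
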