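import Vale.Agent.P199.Cex.Jacobian
import Vale.Agent.P199.Cex.Newton
import Vale.Agent.P199.Cex.ParityDefs
import Vale.Agent.P199.Cex.Growth
import Vale.Agent.P199.Cex.Limit

/-!
P199, counterexample: the polynomial system, its branch through the reference point, and the
points from the parity step.
-/

open scoped Classical

namespace Vale.Agent.P199.Cex

noncomputable section

variable {n r : ℕ}

section Ref

variable {K : Type} [CommRing K] [Algebra ℚ K] (hn : 2 * r + 2 ≤ n) (t : Fin n → K) (g : ℕ → TP)

/-- The reference point is a zero at the parameter one. -/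
lemma eqs_refPt (k : Eqn n r) : eqs hn t g 1 (refPt : Coord n r → K) k = 0 := by
  rcases k with b | ⟨b, φ⟩ | ⟨i, X⟩
  · simp only [eqs, Zc_refPt]
    rw [← Finset.sum_product', Finset.sum_eq_single ((0 : Fin 3), ({b} : Finset (Fin n)))]
    · simp
    · rintro ⟨a, Y⟩ hY hne
      rw [if_neg, zero_pow two_ne_zero]
      rintro ⟨ha, hc⟩
      obtain ⟨c, rfl⟩ := Finset.card_eq_one.1 hc
      have := ((Finset.mem_filter.1 (Finset.mem_product.1 hY).2).2).1
      exact hne (by rw [Finset.mem_singleton.1 this]; simp [show a = 0 from ha])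
    · intro h
      exact absurd (Finset.mem_product.2 ⟨Finset.mem_univ _, Finset.mem_filter.2
        ⟨Finset.mem_univ _, Finset.mem_singleton_self b,
          fun c hc => (Finset.mem_singleton.1 hc).le⟩⟩) h
  · simp [eqs, Zc_refPt]
  · simp only [eqs, hval_one]
    rw [refG, show slotPart hn t (refPt : Coord n r → K) i = 0 from Qa.ext fun Y => by
      simp [slotPart, Zc_refPt], smul_zero, add_zero,
      Qa.npol_span (by omega) _ fun Y hY b hb => ?_]
    · rfl
    by_contra hb'
    exact hY (by simp [kap, show ¬ LL i.val Y from fun hL => hb' (hL b hb)])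

/-- The reference point is a zero of the square system. -/
lemma chartEq_refPt (w : Var n r) :
    chartEq hn t g 1 (Sum.elim refPt 0) w = 0 := by
  have hq : ∀ i, chartQ hn t g 1 (Sum.elim refPt 0 : Var n r → K) i = 0 := by
    intro i
    have hU : auxU t (fun p : Aux n r => (0 : K)) i = 0 := Qa.ext fun Y => by simp [auxU]
    have hM : auxM t (fun p : Aux n r => (0 : K)) i = 0 := Qa.ext fun Y => by simp [auxM]
    have hs : slotPart hn t (refPt : Coord n r → K) i = 0 := Qa.ext fun Y => by
      simp [slotPart, Zc_refPt]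
    simp only [chartQ, Sum.elim_inl, Sum.elim_inr, Pi.zero_apply, hU, hM, hval_one, refG, hs,
      smul_zero, add_zero, mul_one, one_mul, sub_self]
  rcases w with j | p <;> simp only [chartEq, hq, Qa.coef_zero, Sum.elim_inl, eqs_refPt hn t g,
    Finset.sum_const_zero, ite_self]

end Ref

section System

variable {F : Type} [Field F] [CharZero F] (hn : 2 * r + 2 ≤ n) (t : Fin n → F) (g : ℕ → TP)

/-- The equations as polynomials with coefficients in `F[X]`, at the parameter `1 + X`. -/
def fPoly (k : Eqn n r) : MvPolynomial (Coord n r) (Polynomial F) :=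
  eqs hn (fun b => MvPolynomial.C (Polynomial.C (t b))) g (MvPolynomial.C (1 + Polynomial.X))
    MvPolynomial.X k

/-- The square system as polynomials over power series. -/
def cPoly (w : Var n r) : MvPolynomial (Var n r) (PowerSeries F) :=
  chartEq hn (fun b => MvPolynomial.C (PowerSeries.C (t b))) g
    (MvPolynomial.C (1 + PowerSeries.X)) MvPolynomial.X w

lemma eval₂_fPoly {R : Type} [CommRing R] [Algebra ℚ R] (φ : Polynomial F →+* R)
    (x : Coord n r → R) (k : Eqn n r) : MvPolynomial.eval₂ φ x (fPoly hn t g k) =
      eqs hn (fun b => φ (Polynomial.C (t b))) g (φ (1 + Polynomial.X)) x k := by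
  rw [fPoly, ← MvPolynomial.coe_eval₂Hom, eqs_map]
  simp

lemma eval₂_cPoly {R : Type} [CommRing R] [Algebra ℚ R] (φ : PowerSeries F →+* R)
    (x : Var n r → R) (w : Var n r) : MvPolynomial.eval₂ φ x (cPoly hn t g w) =
      chartEq hn (fun b => φ (PowerSeries.C (t b))) g (φ (1 + PowerSeries.X)) x w := by
  rw [cPoly, ← MvPolynomial.coe_eval₂Hom, chartEq_map]
  simp

variable {t}

/-- The Jacobian of the equations at the reference point is injective. -/
lemma jac_fPoly (hG : Good n F t) (v : Coord n r → F)
    (hv : ∀ k, ∑ j, MvPolynomial.eval₂ (Polynomial.evalRingHom 0) refPt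
      (MvPolynomial.pderiv j (fPoly hn t g k)) * v j = 0) : v = 0 := by
  let P : Eqn n r → MvPolynomial (Coord n r) F := fun k =>
    (fPoly hn t g k).map (Polynomial.evalRingHom 0)
  let d : Coord n r → DualNumber F := dualPoint refPt v
  have hd : ∀ k, MvPolynomial.aeval d (P k) = eqs hn (fun b => dIn F (t b)) g 1 d k := fun k => by
    rw [MvPolynomial.aeval_def, MvPolynomial.eval₂_map, eval₂_fPoly]
    simp [TrivSqZeroExt.algebraMap_eq_inl, TrivSqZeroExt.inlHom]
  have h0 : eqs hn (fun b => dIn F (t b)) g 1 d = 0 := funext fun k => by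
    rw [← hd k]
    refine TrivSqZeroExt.ext ?_ ?_
    · rw [fst_aeval_dualPoint, MvPolynomial.aeval_def, MvPolynomial.eval₂_map, eval₂_fPoly]
      simpa using eqs_refPt hn t g k
    · rw [aeval_dualPoint]
      simp only [TrivSqZeroExt.snd_add, TrivSqZeroExt.snd_inl, TrivSqZeroExt.snd_inr, zero_add,
        Pi.zero_apply, TrivSqZeroExt.snd_zero]
      rw [← hv k]
      refine Finset.sum_congr rfl fun j _ => ?_
      rw [MvPolynomial.pderiv_map, MvPolynomial.aeval_def, MvPolynomial.eval₂_map]
      simp
  funext j
  simpa [d, dualPoint] using eqs_dual hn g (goodDomain n F _ t hG)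
    ((goodExists.1 n F _ t hG).2 _) (fun j => by simp [d, dualPoint]) h0 j

/-- The branch through the reference point. -/
lemma branch (hG : Good n F t) : ∃ P : Coord n r → PowerSeries F,
    (∀ j, PowerSeries.constantCoeff (P j) = refPt j) ∧
      IsZeroAt (fPoly hn t g) (Polynomial.eval₂RingHom PowerSeries.C PowerSeries.X) P := by
  let a : Var n r → F := Sum.elim refPt 0
  let Q : Var n r → MvPolynomial (Var n r) F := fun w =>
    (cPoly hn t g w).map PowerSeries.constantCoeff
  have hQ : ∀ w, MvPolynomial.eval a (Q w) = 0 := fun w => by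
    rw [MvPolynomial.eval_map, eval₂_cPoly]
    simpa using chartEq_refPt hn t g w
  have hdet : (jac Q a).det ≠ 0 := det_jac_ne_zero Q a fun v hv => by
    let d : Var n r → DualNumber F := dualPoint a v
    have hd : ∀ w, MvPolynomial.aeval d (Q w) = chartEq hn (fun b => dIn F (t b)) g 1 d w :=
      fun w => by
        rw [MvPolynomial.aeval_def, MvPolynomial.eval₂_map, eval₂_cPoly]
        simp [TrivSqZeroExt.algebraMap_eq_inl, TrivSqZeroExt.inlHom]
    funext w
    simpa [d, dualPoint] using chart_dual (v := d) hn g (goodDomain n F _ t hG)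
      ((goodExists.1 n F _ t hG).2 _) (fun w => by simp [d, dualPoint, a]) (fun w => by
        rw [← hd w]
        refine TrivSqZeroExt.ext ?_ (hv w)
        rw [fst_aeval_dualPoint, MvPolynomial.aeval_eq_eval, TrivSqZeroExt.fst_zero]
        exact hQ w) w
  obtain ⟨b, hb, hb0⟩ := newton_exists_powerSeries F _ (Var n r) inferInstance
    inferInstance (cPoly hn t g) a hQ (by
      refine fun h => hdet (Eq.trans ?_ h)
      congr 1)
  refine ⟨fun j => b (.inl j), fun j => hb0 (.inl j), fun k => ?_⟩
  have hz : ∀ w, chartEq hn (fun c => PowerSeries.C (t c)) g (1 + PowerSeries.X) b w = 0 :=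
    fun w => by
      have := hb w
      rw [← MvPolynomial.eval₂_id, eval₂_cPoly] at this
      simpa using this
  have : IsLocalHom (PowerSeries.constantCoeff : PowerSeries F →+* F) :=
    ⟨fun x hx => PowerSeries.isUnit_iff_constantCoeff.2 hx⟩
  have hu : ∀ i, IsUnit (1 + auxU (fun c => PowerSeries.C (t c)) (fun p => b (.inr p)) i) :=
    fun i => Qa.isUnit_of_map PowerSeries.constantCoeff (Qa.ext fun Y => by
      have h0 : ∀ p, PowerSeries.constantCoeff (b (.inr p)) = 0 := fun p => hb0 (.inr p)
      simp only [Qa.coef_mapQ, Qa.coef_add, Qa.coef_one, auxU, Qa.coef_mk, map_add]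
      split_ifs <;> simp [h0])
  rw [eval₂_fPoly]
  simpa using congrFun (eqs_of_chart hn _ hz hu) k

end System

/-- The points from the parity step. -/
theorem points_of_parity (hP : Parity) : Points := by
  intro g n r hn
  obtain ⟨F, hF, t, hG⟩ := goodExists.2 n
  have := (goodExists.1 n F hF t hG).1
  have : CharZero F := charZero_of_formallyReal
  obtain ⟨k, hk, hA, x, hGk, hx⟩ := hP n F hF t (Coord n r) (Eqn n r) inferInstance inferInstance
    chC refPt (fPoly hn t g) hG (fun j => j.2.nonempty)
    (fun j => by unfold refPt; split_ifs <;> simp)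
    (fun R _ _ φ x a ha hx k => by
      let : Algebra ℚ R := (φ.comp (algebraMap ℚ (Polynomial F))).toAlgebra
      rw [eval₂_fPoly]
      exact congrFun (eqs_flipC hn _ g _ x ha
        (funext fun k => (eval₂_fPoly hn t g φ x k).symm.trans (hx k))) k)
    (fun R _ _ φ x hx b => by
      let : Algebra ℚ R := (φ.comp (algebraMap ℚ (Polynomial F))).toAlgebra
      rw [sum_coord]
      exact (eqs_zero_sphere hn _ g _
        (funext fun k => (eval₂_fPoly hn t g φ x k).symm.trans (hx k))).2 b)
    (fun k _ _ hGk x hx => by
      have : CharZero k := charZero_of_injective_ringHom (algebraMap F k).injective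
      obtain ⟨a, ha, hz⟩ := refOrbit hn hGk g (z := x) (funext fun e => by
        have h := hx e
        rw [eval₂_fPoly] at h
        simpa using h)
      refine ⟨a, ha, fun j => ?_⟩
      rw [hz, flipC, Qa.chr]
      congr 1
      unfold refPt
      split_ifs <;> simp)
    (jac_fPoly hn g hG) (branch hn g hG)
  have : CharZero k := charZero_of_injective_ringHom (algebraMap F k).injective
  set tk : Fin n → k := fun b => algebraMap F k (t b)
  have h0 : eqs hn tk g 0 x = 0 := funext fun e => by
    have h := hx e
    rw [eval₂_fPoly] at h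
    simpa using h
  have hdom := goodDomain n k hk tk hGk
  have : NoZeroDivisors (Qa tk) := ⟨fun {p q} h => by
    by_contra hne
    exact hdom p q (not_or.1 hne).1 (not_or.1 hne).2 h⟩
  have : Nontrivial (Qa tk) :=
    ⟨0, 1, fun e => by simpa using congrArg (fun a => Qa.coef a ∅) e⟩
  have : IsDomain (Qa tk) := NoZeroDivisors.to_isDomain _
  refine ⟨k, hk, inferInstance, Qa tk, divisionRingOfFiniteDimensional k (Qa tk),
    (inferInstance : Algebra k (Qa tk)), Qa.tauL, gen tk x, Qa.tau_one, fun i hi => ?_, ?_⟩
  · exact eqs_zero_npol hn tk g h0 ⟨i, hi⟩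
  · have h1 := growth goodDomain goodExists n k hk tk (Zc x) hGk (eqs_zero_sphere hn tk g 0 h0)
      (eqs_zero_orth hn tk g h0)
    rw [Qa.genSpan_eq_adjoin, Subalgebra.finrank_toSubmodule] at h1
    exact h1

/-- The counterexample from the parity step. -/
theorem counterexample_of_parity (hP : Parity) : Counterexample :=
  counterexample_of_points (points_of_parity hP)

end

end Vale.Agent.P199.Cex
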