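import Vale.Agent.P199.Cex.Algebra

/-!
P199, counterexample, module M1: the polynomial with prescribed power sums. It is the product of
`X - α i` when the power sums are those of the `α i`; so it annihilates every element supported on
commuting even bits, whose roots are its sign conjugates.
-/

open scoped symmDiff Classical
open Finset

namespace Vale.Agent.P199.Cex

noncomputable section

universe u v

variable {K L : Type*} [CommRing K] [Algebra ℚ K] [CommRing L] [Algebra ℚ L]

lemma coeffs_succ (P : ℕ → K) (k : ℕ) :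
    coeffs P (k + 1) =
      -((k + 1 : ℚ)⁻¹ • ∑ j : Fin (k + 1), P (j + 1) * coeffs P (k - j)) := by
  rw [coeffs]

lemma coeffs_zero (P : ℕ → K) : coeffs P 0 = 1 := by rw [coeffs]

lemma coeffs_map (f : K →+* L) (P : ℕ → K) (k : ℕ) :
    f (coeffs P k) = coeffs (fun l => f (P l)) k := by
  induction k using Nat.strong_induction_on with
  | _ k ih =>
    cases k with
    | zero => simp [coeffs_zero]
    | succ k =>
      rw [coeffs_succ, coeffs_succ, map_neg, map_rat_smul, map_sum]
      refine congrArg Neg.neg (congrArg _ (Finset.sum_congr rfl fun j _ => ?_))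
      rw [map_mul, ih (k - j) (by omega)]

lemma coeffs_congr {P Q : ℕ → K} (h : ∀ l, 1 ≤ l → P l = Q l) (k : ℕ) :
    coeffs P k = coeffs Q k := by
  induction k using Nat.strong_induction_on with
  | _ k ih =>
    cases k with
    | zero => simp [coeffs_zero]
    | succ k =>
      rw [coeffs_succ, coeffs_succ]
      refine congrArg Neg.neg (congrArg _ (Finset.sum_congr rfl fun j _ => ?_))
      rw [h _ (by omega), ih (k - j) (by omega)]

variable {ι : Type*} [Fintype ι]

/-- Newton: with power sums those of the `α i`, the coefficients are the signed elementary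
symmetric functions. -/
lemma coeffs_esymm (α : ι → L) (k : ℕ) :
    coeffs (fun l => ∑ i, α i ^ l) k = (-1) ^ k * (univ.val.map α).esymm k := by
  induction k using Nat.strong_induction_on with
  | _ k ih =>
    cases k with
    | zero => simp [coeffs_zero, Multiset.esymm]
    | succ k =>
      have hN := congrArg (MvPolynomial.aeval (R := L) α) (MvPolynomial.mul_esymm_eq_sum ι L (k + 1))
      simp only [map_mul, map_natCast, map_pow, map_neg, map_one, map_sum,
        MvPolynomial.aeval_esymm_eq_multiset_esymm, MvPolynomial.psum, MvPolynomial.aeval_X] at hN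
      have hsum : ∑ a ∈ antidiagonal (k + 1) with a.1 < k + 1,
          (-1 : L) ^ a.1 * (univ.val.map α).esymm a.1 * ∑ i, α i ^ a.2 =
            ∑ j : Fin (k + 1), (∑ i, α i ^ (j.val + 1)) * coeffs (fun l => ∑ i, α i ^ l) (k - j) := by
        refine (Finset.sum_bij' (fun (j : Fin (k + 1)) _ => (k - j.val, j.val + 1))
          (fun a _ => ⟨k - a.1, by omega⟩) (fun j _ => ?_) (fun a _ => Finset.mem_univ _)
          (fun j _ => ?_) (fun a ha => ?_) (fun j _ => ?_)).symm
        · simp only [Finset.mem_filter, Finset.HasAntidiagonal.mem_antidiagonal]; omega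
        · ext; simp only; omega
        · simp only [Finset.mem_filter, Finset.HasAntidiagonal.mem_antidiagonal] at ha
          ext <;> simp only <;> omega
        · rw [ih (k - j) (by omega)]; ring
      rw [hsum] at hN
      rw [coeffs_succ]
      set S := ∑ j : Fin (k + 1), (∑ i, α i ^ (j.val + 1)) *
        coeffs (fun l => ∑ i, α i ^ l) (k - j)
      have h1 : (-1 : L) ^ (k + 1) * ((-1) ^ (k + 1 + 1) * S) = -S := by
        rw [pow_succ (-1 : L) (k + 1), ← mul_assoc, ← mul_assoc, ← mul_pow]
        simp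
      have h2 : ((k : ℚ) + 1) • ((-1 : L) ^ (k + 1) * (univ.val.map α).esymm (k + 1)) = -S := by
        rw [← h1, ← hN, Algebra.smul_def, map_add, map_natCast, map_one]
        push_cast
        ring
      rw [← smul_neg, ← h2, inv_smul_smul₀ (Nat.cast_add_one_ne_zero k)]

/-- The polynomial with the power sums of the `α i`, evaluated at `y`. -/
lemma sum_coeffs_mul_pow {e : ℕ} (he : Fintype.card ι = e) (α : ι → L) (y : L) :
    ∑ k ∈ range (e + 1), coeffs (fun l => ∑ i, α i ^ l) k * y ^ (e - k) = ∏ i, (y - α i) := by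
  have h := congrArg (Polynomial.eval y) (Multiset.prod_X_sub_X_eq_sum_esymm (univ.val.map α))
  rw [Polynomial.eval_multiset_prod, Multiset.map_map, Multiset.map_map] at h
  simp only [Multiset.card_map, Finset.card_val, Finset.card_univ, he,
    Polynomial.eval_finsetSum] at h
  refine Eq.trans ?_ (Eq.trans h.symm ?_)
  · refine Finset.sum_congr rfl fun k _ => ?_
    rw [coeffs_esymm]
    simp [mul_assoc]
  · exact congrArg Multiset.prod (Multiset.map_congr rfl fun i _ => by simp)

/-- The same as polynomials. -/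
lemma sum_coeffs_X_pow {e : ℕ} (he : Fintype.card ι = e) (α : ι → L) :
    ∑ k ∈ range (e + 1),
      Polynomial.C (coeffs (fun l => ∑ i, α i ^ l) k) * Polynomial.X ^ (e - k) =
        ∏ i, (Polynomial.X - Polynomial.C (α i)) := by
  rw [← sum_coeffs_mul_pow he (fun i => Polynomial.C (α i)) Polynomial.X]
  refine Finset.sum_congr rfl fun k _ => ?_
  rw [coeffs_map (Polynomial.C : L →+* Polynomial L)]
  simp only [map_sum, map_pow]

/-! ### `npol` along maps -/

section maps

variable {A A' : Type*} [Ring A] [Algebra K A] [Ring A'] [Algebra L A']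

lemma npol_map (f : K →+* L) (φ : A →+* A') (hsmul : ∀ c a, φ (c • a) = f c • φ a)
    {τ : A → K} {τ' : A' → L} (hτ : ∀ a, τ' (φ a) = f (τ a)) (e : ℕ) (h : A) :
    φ (npol τ e h) = npol τ' e (φ h) := by
  simp only [npol, map_sum, hsmul, map_pow, coeffs_map f, map_mul, map_natCast]
  simp only [← map_pow, hτ]

end maps

section conj

variable {A : Type*} [Ring A] [Algebra K A]

lemma conj_pow {u v : A} (huv : u * v = 1) (hvu : v * u = 1) (h : A) (l : ℕ) :
    (u * h * v) ^ l = u * h ^ l * v := by
  induction l with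
  | zero => simp [huv]
  | succ l ih =>
    rw [pow_succ, pow_succ, ih]
    calc u * h ^ l * v * (u * h * v) = u * h ^ l * (v * u) * (h * v) := by
          simp only [mul_assoc]
      _ = u * (h ^ l * h) * v := by rw [hvu, mul_one]; simp only [mul_assoc]

lemma npol_conj {τ : A → K} (hτ : ∀ a b, τ (a * b) = τ (b * a)) {u v : A} (huv : u * v = 1)
    (hvu : v * u = 1) (e : ℕ) (h : A) :
    npol τ e (u * h * v) = u * npol τ e h * v := by
  have ht : ∀ l, τ ((u * h * v) ^ l) = τ (h ^ l) := fun l => by
    rw [conj_pow huv hvu, hτ, ← mul_assoc, hvu, one_mul]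
  simp only [npol, ht]
  simp only [Finset.mul_sum, Finset.sum_mul, conj_pow huv hvu, mul_smul_comm, smul_mul_assoc]

/-- The same for a unit intertwining two elements. -/
lemma npol_intertwine {τ : A → K} (hτ : ∀ a b, τ (a * b) = τ (b * a)) {h h' u : A}
    (hu : IsUnit u) (hh : h * u = u * h') :
    (∀ l, τ (h ^ l) = τ (h' ^ l)) ∧ ∀ e, npol τ e h * u = u * npol τ e h' := by
  obtain ⟨u, rfl⟩ := hu
  have e1 : h = u * h' * (↑u⁻¹ : A) := by rw [← hh]; simp
  refine ⟨fun l => ?_, fun e => ?_⟩
  · rw [e1, conj_pow u.mul_inv u.inv_mul, hτ, ← mul_assoc, u.inv_mul, one_mul]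
  · rw [e1, npol_conj hτ u.mul_inv u.inv_mul, mul_assoc, u.inv_mul, mul_one]

end conj

/-! ### Naturality of trace polynomials -/

section evP

variable {A A' : Type*} [Ring A] [Algebra K A] [Ring A'] [Algebra L A']

lemma evS_map (f : K →+* L) (φ : A →+* A') {τ : A → K} {τ' : A' → L}
    (hτ : ∀ a, τ' (φ a) = f (τ a)) (x : Fin 3 → A) (c : TS) :
    f (evS τ x c) = evS τ' (fun i => φ (x i)) c := by
  induction c using MvPolynomial.induction_on with
  | C q => simp [evS]
  | add p q hp hq => simp only [map_add, hp, hq]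
  | mul_X p w hp =>
    rw [map_mul, map_mul, map_mul, hp]
    congr 1
    simp only [evS, AlgHom.toRingHom_eq_coe, RingHom.coe_coe, MvPolynomial.aeval_X, ← hτ,
      map_list_prod, List.map_map]
    rfl

lemma evP_map (f : K →+* L) (φ : A →+* A') (hsmul : ∀ c a, φ (c • a) = f c • φ a)
    {τ : A → K} {τ' : A' → L} (hτ : ∀ a, τ' (φ a) = f (τ a)) (x : Fin 3 → A) (g : TP) :
    φ (evP τ x g) = evP τ' (fun i => φ (x i)) g := by
  let _ : Algebra TS A :=
    ((algebraMap K A).comp (evS τ x)).toAlgebra' fun c a => Algebra.commutes (evS τ x c) a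
  let _ : Algebra TS A' :=
    ((algebraMap L A').comp (evS τ' fun i => φ (x i))).toAlgebra' fun c a =>
      Algebra.commutes (evS τ' (fun i => φ (x i)) c) a
  show φ (FreeAlgebra.lift TS x g) = FreeAlgebra.lift TS (fun i => φ (x i)) g
  induction g using FreeAlgebra.induction with
  | grade0 c =>
    rw [AlgHom.commutes, AlgHom.commutes]
    show φ (algebraMap K A (evS τ x c)) = algebraMap L A' (evS τ' (fun i => φ (x i)) c)
    rw [Algebra.algebraMap_eq_smul_one, Algebra.algebraMap_eq_smul_one, hsmul, map_one,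
      evS_map f φ hτ]
  | grade1 i => simp
  | mul a b ha hb => simp only [map_mul, ha, hb]
  | add a b ha hb => simp only [map_add, ha, hb]

end evP

/-! ### Commuting even bits -/

namespace Qa

variable {n : ℕ} {F : Type*} [CommRing F] {t : Fin n → F}

/-- The even bits below `2 s`. -/
def evenBits (n s : ℕ) : Finset (Fin n) :=
  Finset.univ.filter fun b => b.val % 2 = 0 ∧ b.val < 2 * s

lemma card_evenBits {n s : ℕ} (h : 2 * s ≤ n) : (evenBits n s).card = s := by
  have e : evenBits n s =
      (Finset.univ : Finset (Fin s)).image fun j => (⟨2 * j.val, by omega⟩ : Fin n) := by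
    ext b
    simp only [evenBits, Finset.mem_filter, Finset.mem_univ, true_and, Finset.mem_image, Fin.ext_iff]
    exact ⟨fun hb => ⟨⟨b.val / 2, by omega⟩, by simp only; omega⟩,
      fun ⟨j, hj⟩ => by omega⟩
  rw [e, Finset.card_image_of_injective _ fun i j hij => ?_, Finset.card_univ, Fintype.card_fin]
  simp only [Fin.ext_iff] at hij
  ext; omega

lemma sgn_of_even {X Y : Finset (Fin n)} (hX : ∀ b ∈ X, b.val % 2 = 0) : (sgn X Y : F) = 1 :=
  Finset.prod_eq_one fun b _ => if_neg fun h => by have := hX b h.1; omega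

variable (t) in
/-- The elements supported on commuting even bits. -/
def evenSub (s : ℕ) : Subalgebra F (Qa t) where
  carrier := {a | ∀ X, a.coef X ≠ 0 → X ⊆ evenBits n s}
  mul_mem' := by
    intro a b ha hb Z hZ
    rw [coef_mul] at hZ
    obtain ⟨X, -, hX⟩ := Finset.exists_ne_zero_of_sum_ne_zero hZ
    have h1 := ha X fun e => hX (by simp [e])
    have h2 := hb (X ∆ Z) fun e => hX (by simp [e])
    intro c hc
    by_cases hcX : c ∈ X
    · exact h1 hcX
    · exact h2 (Finset.mem_symmDiff.2 (Or.inr ⟨hc, hcX⟩))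
  add_mem' := by
    intro a b ha hb X hX
    by_cases h : a.coef X = 0
    · exact hb X fun e => hX (by simp [h, e])
    · exact ha X h
  algebraMap_mem' := fun r X hX => by
    rw [coef_algebraMap] at hX
    split_ifs at hX with h
    · simp [h]
    · exact absurd rfl hX

lemma mem_evenSub {s : ℕ} {a : Qa t} :
    a ∈ evenSub t s ↔ ∀ X, a.coef X ≠ 0 → X ⊆ evenBits n s := Iff.rfl

lemma evenSub_comm {s : ℕ} {a b : Qa t} (ha : a ∈ evenSub t s) (hb : b ∈ evenSub t s) :
    a * b = b * a := by
  ext Z
  rw [coef_mul, coef_mul]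
  refine Finset.sum_bij' (fun X _ => X ∆ Z) (fun X _ => X ∆ Z) (by simp) (by simp)
    (fun X _ => symmDiff_symmDiff_cancel_right Z X) (fun X _ => symmDiff_symmDiff_cancel_right Z X)
    fun X _ => ?_
  rw [symmDiff_symmDiff_cancel_right]
  by_cases h1 : a.coef X = 0
  · simp [h1]
  by_cases h2 : b.coef (X ∆ Z) = 0
  · simp [h2]
  have e1 : ∀ c ∈ X, c.val % 2 = 0 := fun c hc => by
    have := ha X h1 hc; simp [evenBits] at this; exact this.1
  have e2 : ∀ c ∈ X ∆ Z, c.val % 2 = 0 := fun c hc => by
    have := hb _ h2 hc; simp [evenBits] at this; exact this.1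
  simp only [fac, sgn_of_even e1, sgn_of_even e2, Finset.inter_comm X]
  ring

instance (s : ℕ) : CommRing (evenSub t s) where
  mul_comm a b := Subtype.ext (evenSub_comm a.2 b.2)

lemma flip_mem_evenSub {s : ℕ} (a : Fin n → F) (ha : ∀ b, a b ^ 2 = 1) {x : Qa t}
    (hx : x ∈ evenSub t s) : flip a ha x ∈ evenSub t s := fun X hX =>
  hx X fun e => hX (by simp [e])

/-- The sign vector of a set of bits. -/
def sgnVec (A : Finset (Fin n)) : Fin n → F := fun b => if b ∈ A then -1 else 1

lemma sgnVec_sq (A : Finset (Fin n)) (b : Fin n) : (sgnVec A b : F) ^ 2 = 1 := by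
  unfold sgnVec; split_ifs <;> simp

lemma sum_chr_powerset {B X : Finset (Fin n)} (hX : X ⊆ B) :
    ∑ A ∈ B.powerset, (chr (sgnVec A) X : F) = if X = ∅ then (2 : F) ^ B.card else 0 := by
  have h := Finset.prod_add (fun b => if b ∈ X then (-1 : F) else 1) (fun _ => (1 : F)) B
  have hl : ∀ A ∈ B.powerset, (chr (sgnVec A) X : F) =
      (∏ b ∈ A, if b ∈ X then (-1 : F) else 1) * ∏ _b ∈ B \ A, (1 : F) := by
    intro A _
    simp only [chr, sgnVec, Finset.prod_const_one, mul_one, Finset.prod_ite, Finset.prod_const]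
    congr 1
    exact congrArg Finset.card (by ext b; simp [and_comm])
  rw [Finset.sum_congr rfl hl, ← h]
  split_ifs with hX0
  · subst hX0; norm_num
  · obtain ⟨b, hb⟩ := Finset.nonempty_iff_ne_empty.2 hX0
    exact Finset.prod_eq_zero (hX hb) (by simp [hb])

/-- The sum over the sign conjugates of an element of `evenSub` is `2 ^ s` times its trace. -/
lemma sum_flip {s : ℕ} (hs : 2 * s ≤ n) {x : Qa t} (hx : x ∈ evenSub t s) :
    ∑ A ∈ (evenBits n s).powerset, flip (sgnVec A) (sgnVec_sq A) x =
      algebraMap F (Qa t) (((2 : ℕ) ^ s : ℕ) * tau x) := by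
  ext Z
  simp only [coef_sum, coef_flip, coef_algebraMap, ← Finset.sum_mul]
  by_cases h : x.coef Z = 0
  · rw [h, mul_zero]
    split_ifs with hZ
    · rw [tau_eq, ← hZ, h, mul_zero]
    · rfl
  rw [sum_chr_powerset (hx Z h), card_evenBits hs]
  split_ifs with hZ <;> simp [tau_eq, hZ]

variable [Algebra ℚ F]

/-- On commuting even bits `npol` is the product over the sign conjugates. -/
lemma npol_eq_prod {s : ℕ} (hs : 2 * s ≤ n) (x : evenSub t s) :
    npol tau (2 ^ s) (x : Qa t) =
      ((∏ A : {A // A ∈ (evenBits n s).powerset},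
        (x - ⟨flip (sgnVec A.1) (sgnVec_sq A.1) x, flip_mem_evenSub _ _ x.2⟩) :
          evenSub t s) : Qa t) := by
  let _ : Algebra ℚ (evenSub t s) :=
    ((algebraMap F (evenSub t s)).comp (algebraMap ℚ F)).toAlgebra
  set α : {A // A ∈ (evenBits n s).powerset} → evenSub t s := fun A =>
    ⟨flip (sgnVec A.1) (sgnVec_sq A.1) x, flip_mem_evenSub _ _ x.2⟩ with hα
  have hcard : Fintype.card {A // A ∈ (evenBits n s).powerset} = 2 ^ s := by
    rw [Fintype.card_coe, Finset.card_powerset, card_evenBits hs]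
  have hP : ∀ l, algebraMap F (evenSub t s) ((((2 ^ s : ℕ)) : F) * tau ((x : Qa t) ^ l)) =
      ∑ A, α A ^ l := by
    intro l
    refine Subtype.ext ?_
    have h := sum_flip hs (pow_mem x.2 l)
    rw [Subalgebra.coe_algebraMap, ← h, AddSubmonoidClass.coe_finsetSum,
      ← Finset.sum_coe_sort]
    refine Finset.sum_congr rfl fun A _ => ?_
    simp [hα]
  rw [← sum_coeffs_mul_pow hcard α x, AddSubmonoidClass.coe_finsetSum, npol]
  refine Finset.sum_congr rfl fun k _ => ?_
  have hc : coeffs (fun l => ∑ A, α A ^ l) k =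
      algebraMap F (evenSub t s) (coeffs (fun l => ((2 ^ s : ℕ) : F) * tau ((x : Qa t) ^ l)) k) := by
    rw [coeffs_map]
    exact congrArg (coeffs · k) (funext fun l => (hP l).symm)
  rw [hc, Subalgebra.coe_mul, Subalgebra.coe_pow, Subalgebra.coe_algebraMap, Algebra.smul_def]

lemma npol_mapQ {G : Type*} [CommRing G] [Algebra ℚ G] (f : F →+* G) (e : ℕ) (h : Qa t) :
    mapQ f (npol tau e h) = npol tau e (mapQ f h) :=
  npol_map f (mapQ f) (mapQ_smul f) (tau_mapQ f) e h

lemma evP_mapQ {G : Type*} [CommRing G] [Algebra ℚ G] (f : F →+* G) (x : Fin 3 → Qa t) (g : TP) :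
    mapQ f (evP tau x g) = evP tau (fun i => mapQ f (x i)) g :=
  evP_map f (mapQ f) (mapQ_smul f) (tau_mapQ f) x g

lemma npol_flip (a : Fin n → F) (ha : ∀ b, a b ^ 2 = 1) (e : ℕ) (h : Qa t) :
    flip a ha (npol tau e h) = npol tau e (flip a ha h) :=
  npol_map (RingHom.id F) (flip a ha).toAlgHom.toRingHom
    (fun c x => map_smul (flip a ha) c x) (tau_flip a ha) e h

lemma evP_flip (a : Fin n → F) (ha : ∀ b, a b ^ 2 = 1) (x : Fin 3 → Qa t) (g : TP) :
    flip a ha (evP tau x g) = evP tau (fun i => flip a ha (x i)) g :=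
  evP_map (RingHom.id F) (flip a ha).toAlgHom.toRingHom
    (fun c x => map_smul (flip a ha) c x) (tau_flip a ha) x g

/-- The derivative of `npol` at an element of `evenSub` is the product over the other sign
conjugates. -/
theorem npol_deriv {s : ℕ} (hs : 2 * s ≤ n) (x : evenSub t s) :
    ∑ k ∈ range (2 ^ s), ((2 ^ s - k : ℕ) : F) •
        coeffs (fun l => ((2 ^ s : ℕ) : F) * tau ((x : Qa t) ^ l)) k • (x : Qa t) ^ (2 ^ s - k - 1) =
      ((∏ A ∈ (evenBits n s).powerset.erase ∅,
        (x - ⟨flip (sgnVec A) (sgnVec_sq A) x, flip_mem_evenSub _ _ x.2⟩) :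
          evenSub t s) : Qa t) := by
  let _ : Algebra ℚ (evenSub t s) :=
    ((algebraMap F (evenSub t s)).comp (algebraMap ℚ F)).toAlgebra
  set β : Finset (Fin n) → evenSub t s := fun A =>
    ⟨flip (sgnVec A) (sgnVec_sq A) x, flip_mem_evenSub _ _ x.2⟩ with hβ
  set α : {A // A ∈ (evenBits n s).powerset} → evenSub t s := fun A => β A.1 with hα
  have hcard : Fintype.card {A // A ∈ (evenBits n s).powerset} = 2 ^ s := by
    rw [Fintype.card_coe, Finset.card_powerset, card_evenBits hs]
  have hP : ∀ l, algebraMap F (evenSub t s) ((((2 ^ s : ℕ)) : F) * tau ((x : Qa t) ^ l)) =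
      ∑ A, α A ^ l := by
    intro l
    refine Subtype.ext ?_
    have h := sum_flip hs (pow_mem x.2 l)
    rw [Subalgebra.coe_algebraMap, ← h, AddSubmonoidClass.coe_finsetSum,
      ← Finset.sum_coe_sort]
    refine Finset.sum_congr rfl fun A _ => ?_
    simp [hα, hβ]
  have h := congrArg (fun p => (Polynomial.derivative p).eval x) (sum_coeffs_X_pow hcard α)
  have h0 : (⟨∅, Finset.empty_mem_powerset _⟩ : {A // A ∈ (evenBits n s).powerset}) ∈
      (Finset.univ : Finset {A // A ∈ (evenBits n s).powerset}) := Finset.mem_univ _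
  have hself : x - β ∅ = 0 := by
    refine Subtype.ext ?_
    ext Z
    simp [hβ, chr, sgnVec]
  simp only [Polynomial.derivative_sum, Polynomial.eval_finsetSum, Polynomial.derivative_C_mul,
    Polynomial.derivative_X_pow, Polynomial.eval_mul, Polynomial.eval_C, Polynomial.eval_pow,
    Polynomial.eval_X, Polynomial.derivative_prod_finset, Polynomial.derivative_sub,
    Polynomial.derivative_X, Polynomial.derivative_C, sub_zero, mul_one, Polynomial.eval_prod,
    Polynomial.eval_sub] at h
  rw [Finset.sum_eq_single_of_mem _ h0 fun A _ hA => Finset.prod_eq_zero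
    (Finset.mem_erase.2 ⟨Ne.symm hA, Finset.mem_univ _⟩) hself] at h
  have hL : ∀ k, coeffs (fun l => ∑ A, α A ^ l) k = algebraMap F (evenSub t s)
      (coeffs (fun l => ((2 ^ s : ℕ) : F) * tau ((x : Qa t) ^ l)) k) := fun k => by
    rw [coeffs_map]
    exact congrArg (coeffs · k) (funext fun l => (hP l).symm)
  rw [Finset.sum_range_succ, Nat.sub_self, Nat.cast_zero, zero_mul, mul_zero, add_zero] at h
  have h' : ∏ A ∈ (evenBits n s).powerset.erase ∅, (x - β A) =
      ∏ A ∈ Finset.univ.erase (⟨∅, Finset.empty_mem_powerset _⟩ :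
        {A // A ∈ (evenBits n s).powerset}), (x - α A) := by
    refine Finset.prod_bij (fun A hA => ⟨A, (Finset.mem_erase.1 hA).2⟩) (fun A hA => ?_)
      (fun A _ B _ e => congrArg Subtype.val e) (fun A hA => ?_) fun A hA => rfl
    · simpa [Subtype.ext_iff] using (Finset.mem_erase.1 hA).1
    · exact ⟨A.1, Finset.mem_erase.2 ⟨fun e => (Finset.mem_erase.1 hA).1 (Subtype.ext e), A.2⟩, rfl⟩
  show _ = ((∏ A ∈ (evenBits n s).powerset.erase ∅, (x - β A) : evenSub t s) : Qa t)
  rw [h', ← h, AddSubmonoidClass.coe_finsetSum]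
  refine Finset.sum_congr rfl fun k _ => ?_
  have hcast : ((((2 ^ s - k : ℕ)) : evenSub t s) : Qa t) = ((2 ^ s - k : ℕ) : Qa t) :=
    map_natCast (evenSub t s).val _
  rw [hL, Subalgebra.coe_mul, Subalgebra.coe_mul, Subalgebra.coe_algebraMap, Subalgebra.coe_pow,
    hcast, Algebra.smul_def, Algebra.smul_def, map_natCast, ← mul_assoc, ← mul_assoc,
    Nat.cast_comm]

/-- An element supported on commuting even bits is annihilated by `npol`. -/
theorem npol_span {s : ℕ} (hs : 2 * s ≤ n) (h : Qa t)
    (hh : ∀ X, h.coef X ≠ 0 → ∀ b ∈ X, b.val % 2 = 0 ∧ b.val < 2 * s) :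
    npol tau (2 ^ s) h = 0 := by
  have hm : h ∈ evenSub t s := fun X hX b hb => by simp [evenBits, hh X hX b hb]
  rw [show h = ((⟨h, hm⟩ : evenSub t s) : Qa t) from rfl, npol_eq_prod hs]
  rw [Finset.prod_eq_zero (Finset.mem_univ ⟨∅, Finset.empty_mem_powerset _⟩) ?_, ZeroMemClass.coe_zero]
  refine Subtype.ext ?_
  ext Z
  simp [chr, sgnVec]

end Qa

end

end Vale.Agent.P199.Cex
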