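import Vale.Agent.P199.Cex.ParityDefs

/-!
P199, counterexample: lemmas for the parity step. Sign characters, zeros of systems, uniqueness
of a simple zero in a local ring, sums of squares in valuation rings with formally real residue
field, and adjunction of their square roots.
-/

open scoped Classical

namespace Vale.Agent.P199.Cex

noncomputable section

namespace Par

/-! ### Signs -/

/-- The sign of a character. -/
def sg {n : ℕ} {R : Type*} [CommRing R] (a : Fin n → R) (X : Finset (Fin n)) : R := ∏ b ∈ X, a b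

lemma sg_sq {n : ℕ} {R : Type*} [CommRing R] (a : Fin n → R) (ha : ∀ b, a b ^ 2 = 1)
    (X : Finset (Fin n)) : sg a X ^ 2 = 1 := by
  rw [sg, ← Finset.prod_pow]
  exact Finset.prod_eq_one fun b _ => ha b

lemma sg_symmDiff {n : ℕ} {R : Type*} [CommRing R] (a : Fin n → R) (ha : ∀ b, a b ^ 2 = 1)
    (X Y : Finset (Fin n)) : sg a (symmDiff X Y) = sg a X * sg a Y := by
  have hd : Disjoint (symmDiff X Y) (X ∩ Y) := disjoint_symmDiff_inf X Y
  have hu : symmDiff X Y ∪ X ∩ Y = X ∪ Y := by
    ext c
    simp only [Finset.mem_union, Finset.mem_symmDiff, Finset.mem_inter]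
    tauto
  calc sg a (symmDiff X Y)
      = sg a (symmDiff X Y) * sg a (X ∩ Y) ^ 2 := by rw [sg_sq a ha, mul_one]
    _ = sg a (symmDiff X Y ∪ X ∩ Y) * sg a (X ∩ Y) := by
        simp only [sg]
        rw [Finset.prod_union hd]
        ring
    _ = sg a X * sg a Y := by
        rw [hu]
        exact Finset.prod_union_inter

lemma sg_map {n : ℕ} {R S : Type*} [CommRing R] [CommRing S] (g : R →+* S) (a : Fin n → R)
    (X : Finset (Fin n)) : g (sg a X) = sg (fun b => g (a b)) X := map_prod g _ X

variable {n : ℕ}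

/-- A triangular family of characters generates all characters. -/
lemma exists_span (T : Fin n → Finset (Fin n)) (hT : ∀ b, TopEq b (T b)) :
    ∀ m : ℕ, ∀ X : Finset (Fin n), (∀ c ∈ X, c.val < m) → ∃ S : Finset (Fin n),
      (∀ c ∈ S, c.val < m) ∧ ∀ (R : Type) [CommRing R] (a : Fin n → R), (∀ b, a b ^ 2 = 1) →
        sg a X = ∏ b ∈ S, sg a (T b) := by
  intro m
  induction m with
  | zero =>
    intro X hX
    refine ⟨∅, by simp, fun R _ a _ => ?_⟩
    rw [show X = ∅ from Finset.eq_empty_of_forall_notMem fun c hc => Nat.not_lt_zero _ (hX c hc)]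
    simp [sg]
  | succ m ih =>
    intro X hX
    by_cases hm : ∃ b ∈ X, b.val = m
    · obtain ⟨b, hb, hbm⟩ := hm
      obtain ⟨S, hS, hSp⟩ := ih (symmDiff X (T b)) (fun c hc => by
        rcases Finset.mem_symmDiff.1 hc with ⟨h1, h2⟩ | ⟨h1, h2⟩
        · rcases Nat.lt_succ_iff_lt_or_eq.1 (hX c h1) with h | h
          · exact h
          · exact absurd ((Fin.ext (h.trans hbm.symm) : c = b) ▸ (hT b).1) h2
        · have hle : c.val ≤ b.val := (hT b).2 c h1
          rcases Nat.lt_or_eq_of_le (hle.trans hbm.le) with h | h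
          · exact h
          · exact absurd ((Fin.ext (h.trans hbm.symm) : c = b) ▸ hb) h2)
      have hbS : b ∉ S := fun h => absurd (hS b h) (by omega)
      refine ⟨insert b S, fun c hc => ?_, fun R _ a ha => ?_⟩
      · rcases Finset.mem_insert.1 hc with rfl | h
        · omega
        · exact Nat.lt_succ_of_lt (hS c h)
      · rw [Finset.prod_insert hbS, ← hSp R a ha, sg_symmDiff a ha]
        linear_combination (-(sg a X)) * sg_sq a ha (T b)
    · obtain ⟨S, hS, hSp⟩ := ih X (fun c hc => by
        have := hX c hc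
        have : c.val ≠ m := fun h => hm ⟨c, hc, h⟩
        omega)
      exact ⟨S, fun c hc => Nat.lt_succ_of_lt (hS c hc), hSp⟩

lemma exists_span_top (T : Fin n → Finset (Fin n)) (hT : ∀ b, TopEq b (T b)) (b : Fin n)
    (X : Finset (Fin n)) (hX : TopEq b X) : ∃ S : Finset (Fin n), (∀ c ∈ S, c < b) ∧
      ∀ (R : Type) [CommRing R] (a : Fin n → R), (∀ b, a b ^ 2 = 1) →
        sg a X = sg a (T b) * ∏ c ∈ S, sg a (T c) := by
  obtain ⟨S, hS, hSp⟩ := exists_span T hT b.val (symmDiff X (T b)) (fun c hc => by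
    rcases Finset.mem_symmDiff.1 hc with ⟨h1, h2⟩ | ⟨h1, h2⟩
    · exact lt_of_le_of_ne (Fin.le_def.1 (hX.2 c h1)) fun h => h2 ((Fin.ext h : c = b) ▸ (hT b).1)
    · exact lt_of_le_of_ne (Fin.le_def.1 ((hT b).2 c h1)) fun h => h2 ((Fin.ext h : c = b) ▸ hX.1))
  refine ⟨S, fun c hc => hS c hc, fun R _ a ha => ?_⟩
  rw [← hSp R a ha, sg_symmDiff a ha]
  linear_combination (-(sg a X)) * sg_sq a ha (T b)

lemma exists_top {X : Finset (Fin n)} (h : X.Nonempty) : ∃ b, TopEq b X :=
  ⟨X.max' h, X.max'_mem h, fun c hc => X.le_max' c hc⟩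

/-! ### Zeros -/

lemma isZeroAt_map {F : Type} [Field F] {R S : Type} [CommRing R] [CommRing S] {ι κ : Type}
    {f : κ → MvPolynomial ι (Polynomial F)} {φ : Polynomial F →+* R} {x : ι → R} (g : R →+* S)
    (h : IsZeroAt f φ x) : IsZeroAt f (g.comp φ) fun j => g (x j) := fun k => by
  have := congrArg g (h k)
  rw [MvPolynomial.eval₂_comp_left, map_zero] at this
  exact this

lemma isZeroAt_of_map {F : Type} [Field F] {R S : Type} [CommRing R] [CommRing S] {ι κ : Type}
    {f : κ → MvPolynomial ι (Polynomial F)} {φ : Polynomial F →+* R} {x : ι → R} (g : R →+* S)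
    (hg : Function.Injective g) (h : IsZeroAt f (g.comp φ) fun j => g (x j)) :
    IsZeroAt f φ x := fun k => hg <| by
  rw [MvPolynomial.eval₂_comp_left, map_zero]
  exact h k

/-- Sums of squares. -/
lemma isSumSq_inv {K : Type*} [Field K] {S : K} (h : IsSumSq S) : IsSumSq S⁻¹ := by
  rcases eq_or_ne S 0 with rfl | hS
  · simpa using IsSumSq.zero
  · rw [show S⁻¹ = S * (S⁻¹ * S⁻¹) by field_simp]
    exact IsSumSq.mul h (IsSumSq.mul_self _)

lemma charZero_of_formallyReal {K : Type*} [Field K] [IsFormallyReal K] : CharZero K := by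
  refine charZero_of_inj_zero fun k hk => ?_
  cases k with
  | zero => rfl
  | succ k =>
    exfalso
    have hs : ∀ i : ℕ, IsSumSq (i : K) := fun i => by
      induction i with
      | zero => simpa using IsSumSq.zero
      | succ i ih =>
        rw [Nat.cast_succ, add_comm, show (1 : K) = 1 * 1 by rw [mul_one]]
        exact ih.sq_add 1
    rw [Nat.cast_succ] at hk
    exact one_ne_zero (IsFormallyReal.eq_zero_of_add_left (hs k)
      (by simpa using IsSumSq.mul_self (1 : K)) hk)

lemma sq_eq_self_cases {K : Type*} [Field K] {a : K} (h : a ^ 2 = 1) : a = 1 ∨ a = -1 :=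
  sq_eq_one_iff.1 h

/-! ### A simple zero in a local ring -/

lemma taylor_one {R ι : Type*} [CommRing R] [Fintype ι] (f : MvPolynomial ι R) (x d : ι → R) :
    MvPolynomial.eval (x + d) f - MvPolynomial.eval x f -
      ∑ i, MvPolynomial.eval x (MvPolynomial.pderiv i f) * d i ∈
        Ideal.span (Set.range d) * Ideal.span (Set.range d) := by
  set I := Ideal.span (Set.range d) with hI
  induction f using MvPolynomial.induction_on with
  | C a => simp
  | add p q hp hq =>
    convert Ideal.add_mem _ hp hq using 1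
    simp only [map_add, add_mul, Finset.sum_add_distrib]
    ring
  | mul_X p i hp =>
    set D := MvPolynomial.eval (x + d) p - MvPolynomial.eval x p -
      ∑ j, MvPolynomial.eval x (MvPolynomial.pderiv j p) * d j with hD
    have hdi : d i ∈ I := Ideal.subset_span ⟨i, rfl⟩
    have hS : (∑ j, MvPolynomial.eval x (MvPolynomial.pderiv j p) * d j) ∈ I :=
      Ideal.sum_mem _ fun j _ => Ideal.mul_mem_left _ _ (Ideal.subset_span ⟨j, rfl⟩)
    have hsum : ∑ j, MvPolynomial.eval x (MvPolynomial.pderiv j (p * MvPolynomial.X i)) * d j =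
        (∑ j, MvPolynomial.eval x (MvPolynomial.pderiv j p) * d j) * x i +
          MvPolynomial.eval x p * d i := by
      simp only [MvPolynomial.pderiv_mul, map_add, map_mul, MvPolynomial.eval_X, add_mul,
        Finset.sum_add_distrib, Finset.sum_mul]
      congr 1
      · exact Finset.sum_congr rfl fun j _ => by ring
      · simp [MvPolynomial.pderiv_X, Pi.single_apply, mul_assoc, ite_mul]
    have : MvPolynomial.eval (x + d) (p * MvPolynomial.X i) -
        MvPolynomial.eval x (p * MvPolynomial.X i) -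
        ∑ j, MvPolynomial.eval x (MvPolynomial.pderiv j (p * MvPolynomial.X i)) * d j =
        D * (x i + d i) + (∑ j, MvPolynomial.eval x (MvPolynomial.pderiv j p) * d j) * d i := by
      rw [hsum]
      simp only [map_mul, MvPolynomial.eval_X, Pi.add_apply, hD]
      ring
    rw [this]
    exact Ideal.add_mem _ (Ideal.mul_mem_right _ _ hp) (Ideal.mul_mem_mul hS hdi)

/-- Two congruent zeros agree when a left inverse of the Jacobian exists in the residue field. -/
lemma zero_unique {R : Type*} [CommRing R] [IsLocalRing R] {ι κ : Type*} [Fintype ι] [Fintype κ]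
    (f : κ → MvPolynomial ι R) (x y : ι → R) (hx : ∀ k, MvPolynomial.eval x (f k) = 0)
    (hy : ∀ k, MvPolynomial.eval y (f k) = 0)
    (hc : ∀ i, y i - x i ∈ IsLocalRing.maximalIdeal R) (L : ι → κ → R)
    (hL : ∀ i j, (∑ k, L i k * MvPolynomial.eval x (MvPolynomial.pderiv j (f k))) -
      (if i = j then 1 else 0) ∈ IsLocalRing.maximalIdeal R) : x = y := by
  set d : ι → R := fun i => y i - x i with hd
  set I := Ideal.span (Set.range d) with hI
  have hIm : I ≤ IsLocalRing.maximalIdeal R := Ideal.span_le.2 <| by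
    rintro _ ⟨i, rfl⟩
    exact hc i
  have hJ : ∀ k, ∑ j, MvPolynomial.eval x (MvPolynomial.pderiv j (f k)) * d j ∈ I * I := by
    intro k
    have := taylor_one (f k) x d
    rw [show x + d = y by funext i; simp [hd], hy k, hx k, sub_self, zero_sub] at this
    simpa using this
  have hle : I ≤ IsLocalRing.maximalIdeal R • I := by
    refine Ideal.span_le.2 ?_
    rintro _ ⟨i, rfl⟩
    rw [SetLike.mem_coe, smul_eq_mul]
    have e : d i = (∑ k, L i k * ∑ j, MvPolynomial.eval x (MvPolynomial.pderiv j (f k)) * d j) -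
        ∑ j, ((∑ k, L i k * MvPolynomial.eval x (MvPolynomial.pderiv j (f k))) -
          (if i = j then 1 else 0)) * d j := by
      simp only [sub_mul, Finset.sum_sub_distrib, ite_mul, one_mul, zero_mul, Finset.sum_ite_eq,
        Finset.mem_univ, if_true]
      simp only [Finset.mul_sum, Finset.sum_mul, mul_assoc]
      rw [Finset.sum_comm]
      ring
    rw [e]
    refine sub_mem (Ideal.sum_mem _ fun k _ => Ideal.mul_mem_left _ _ ?_)
      (Ideal.sum_mem _ fun j _ => Ideal.mul_mem_mul (hL i j) (Ideal.subset_span ⟨j, rfl⟩))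
    exact Ideal.mul_mono_left hIm (hJ k)
  have hbot : I = ⊥ := Submodule.eq_bot_of_le_smul_of_le_jacobson_bot _ I
    (Submodule.fg_span (Set.finite_range d)) hle (IsLocalRing.maximalIdeal_le_jacobson ⊥)
  funext i
  have : d i ∈ I := Ideal.subset_span ⟨i, rfl⟩
  rw [hbot, Ideal.mem_bot] at this
  exact (sub_eq_zero.1 this).symm

/-! ### Valuation rings with formally real residue field -/

lemma mem_of_sq_mem {M : Type*} [Field M] (V : ValuationSubring M) {x : M} (h : x ^ 2 ∈ V) :
    x ∈ V := by
  rcases V.mem_or_inv_mem x with h' | h'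
  · exact h'
  · rcases eq_or_ne x 0 with rfl | hx
    · exact zero_mem _
    · rw [show x = x ^ 2 * x⁻¹ by field_simp]
      exact mul_mem h h'

section Val

variable {E M κ₀ : Type*} [Field E] [Field M] [Field κ₀] [IsFormallyReal κ₀] (φ : E →+* M)
  (V : ValuationSubring M) (i : κ₀ →+* IsLocalRing.ResidueField V)

/-- The residues of the elements of `E` lie in `κ₀`. -/
def ResIn : Prop := ∀ g : E, ∀ h : φ g ∈ V, ∃ y, IsLocalRing.residue V ⟨φ g, h⟩ = i y

variable {φ V i}

/-- In a sum of squares every term is integral, and the residue is a sum of squares. -/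
lemma sumSq_spec (hres : ResIn φ V i) {S : E} (hS : IsSumSq S) :
    ∀ c : E, ∀ h : φ (c * c * S) ∈ V,
      ∃ σ, IsSumSq σ ∧ IsLocalRing.residue V ⟨φ (c * c * S), h⟩ = i σ := by
  induction hS with
  | zero =>
    intro c h
    refine ⟨0, IsSumSq.zero, ?_⟩
    have : (⟨φ (c * c * 0), h⟩ : V) = 0 := Subtype.ext (by simp)
    rw [this, map_zero, map_zero]
  | @sq_add a s hs ih =>
    intro c h
    have e : φ (c * c * (a * a + s)) = φ (c * a) * φ (c * a) + φ (c * c * s) := by
      simp only [map_mul, map_add]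
      ring
    by_cases hca : φ (c * a) ∈ V
    · have h2 : φ (c * c * s) ∈ V := by
        rw [show φ (c * c * s) = φ (c * c * (a * a + s)) - φ (c * a) * φ (c * a) by rw [e]; ring]
        exact sub_mem h (mul_mem hca hca)
      obtain ⟨y, hy⟩ := hres _ hca
      obtain ⟨σ, hσ, hσy⟩ := ih c h2
      refine ⟨y * y + σ, hσ.sq_add y, ?_⟩
      rw [show (⟨φ (c * c * (a * a + s)), h⟩ : V) = ⟨_, hca⟩ * ⟨_, hca⟩ + ⟨_, h2⟩ from
        Subtype.ext e, map_add, map_mul, hy, hσy, map_add, map_mul]
    · exfalso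
      have hinv : (φ (c * a))⁻¹ ∈ V := (V.mem_or_inv_mem _).resolve_left hca
      have hca0 : φ (c * a) ≠ 0 := fun h0 => hca (h0 ▸ zero_mem V)
      have ha0 : a ≠ 0 := fun h0 => hca0 (by simp [h0])
      have hc0 : c ≠ 0 := fun h0 => hca0 (by simp [h0])
      set w : V := ⟨_, hinv⟩ with hw
      have hwu : IsLocalRing.residue V w = 0 := by
        rw [IsLocalRing.residue_eq_zero_iff, IsLocalRing.mem_maximalIdeal, mem_nonunits_iff]
        rintro ⟨u, hu⟩
        apply hca
        have h1 : ((u : V) : M) * ((↑u⁻¹ : V) : M) = 1 := by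
          rw [← MulMemClass.coe_mul, Units.mul_inv, OneMemClass.coe_one]
        rw [hu, hw] at h1
        have : φ (c * a) = ((↑u⁻¹ : V) : M) := by
          calc φ (c * a) = φ (c * a) * ((φ (c * a))⁻¹ * ((↑u⁻¹ : V) : M)) := by rw [h1, mul_one]
            _ = ((↑u⁻¹ : V) : M) := by rw [← mul_assoc, mul_inv_cancel₀ hca0, one_mul]
        rw [this]
        exact SetLike.coe_mem _
      -- divide by the offending square
      have hT : φ (c * c * (a * a + s)) * ((φ (c * a))⁻¹ * (φ (c * a))⁻¹) ∈ V :=
        mul_mem h (mul_mem hinv hinv)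
      have e2 : φ (c * c * (a * a + s)) * ((φ (c * a))⁻¹ * (φ (c * a))⁻¹) =
          1 + φ (a⁻¹ * a⁻¹ * s) := by
        rw [e]
        have hc' : φ c ≠ 0 := (map_ne_zero φ).2 hc0
        have ha' : φ a ≠ 0 := (map_ne_zero φ).2 ha0
        simp only [map_mul, map_inv₀]
        field_simp
      have hs2 : φ (a⁻¹ * a⁻¹ * s) ∈ V := by
        rw [show φ (a⁻¹ * a⁻¹ * s) = φ (c * c * (a * a + s)) *
          ((φ (c * a))⁻¹ * (φ (c * a))⁻¹) - 1 by rw [e2]; ring]
        exact sub_mem hT (one_mem _)
      obtain ⟨σ, hσ, hσy⟩ := ih a⁻¹ hs2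
      have h3 : IsLocalRing.residue V ((1 : V) + ⟨_, hs2⟩) = 0 := by
        rw [show ((1 : V) + ⟨_, hs2⟩) = ⟨_, h⟩ * (w * w) from Subtype.ext e2.symm,
          (IsLocalRing.residue V).map_mul, (IsLocalRing.residue V).map_mul, hwu, mul_zero,
          mul_zero]
      rw [map_add, map_one, hσy, ← map_one i, ← map_add, map_eq_zero] at h3
      exact one_ne_zero (IsFormallyReal.eq_zero_of_add_right
        (by simpa using IsSumSq.mul_self (1 : κ₀)) hσ h3)

/-- A summand of an integral sum of two sums of squares is integral. -/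
lemma sumSq_left (hres : ResIn φ V i) {S₁ : E} (h₁ : IsSumSq S₁) :
    ∀ S₂ : E, IsSumSq S₂ → φ (S₁ + S₂) ∈ V → φ S₁ ∈ V := by
  induction h₁ with
  | zero =>
    intro S₂ _ _
    simp
  | @sq_add a s hs ih =>
    intro S₂ h₂ hV
    have ha : φ a ∈ V := by
      refine mem_of_sq_mem V ?_
      by_contra hna
      have hS : IsSumSq (s + S₂) := IsSumSq.add hs h₂
      have hinv : (φ a ^ 2)⁻¹ ∈ V := (V.mem_or_inv_mem _).resolve_left hna
      have ha0 : φ a ≠ 0 := fun h0 => hna (by simp [h0])
      have ha' : a ≠ 0 := fun h0 => ha0 (by simp [h0])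
      have h2 : φ (a⁻¹ * a⁻¹ * (a * a + (s + S₂))) ∈ V := by
        rw [show φ (a⁻¹ * a⁻¹ * (a * a + (s + S₂))) = (φ a ^ 2)⁻¹ * φ (a * a + s + S₂) by
          simp only [map_mul, map_inv₀, map_add]; field_simp; ring]
        exact mul_mem hinv hV
      have h3 : φ (a⁻¹ * a⁻¹ * (s + S₂)) ∈ V := by
        rw [show φ (a⁻¹ * a⁻¹ * (s + S₂)) = φ (a⁻¹ * a⁻¹ * (a * a + (s + S₂))) - 1 by
          simp only [map_mul, map_inv₀, map_add]; field_simp; ring]
        exact sub_mem h2 (one_mem _)
      obtain ⟨σ, hσ, hσy⟩ := sumSq_spec hres hS a⁻¹ h3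
      have hw : IsLocalRing.residue V ⟨_, hinv⟩ = 0 := by
        rw [IsLocalRing.residue_eq_zero_iff, IsLocalRing.mem_maximalIdeal, mem_nonunits_iff]
        rintro ⟨u, hu⟩
        apply hna
        have h1 : ((u : V) : M) * ((↑u⁻¹ : V) : M) = 1 := by
          rw [← MulMemClass.coe_mul, Units.mul_inv, OneMemClass.coe_one]
        rw [hu] at h1
        rw [show φ a ^ 2 = ((↑u⁻¹ : V) : M) by
          calc φ a ^ 2 = φ a ^ 2 * ((φ a ^ 2)⁻¹ * ((↑u⁻¹ : V) : M)) := by rw [h1, mul_one]
            _ = _ := by rw [← mul_assoc, mul_inv_cancel₀ (pow_ne_zero 2 ha0), one_mul]]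
        exact SetLike.coe_mem _
      have h4 : IsLocalRing.residue V ((1 : V) + ⟨_, h3⟩) = 0 := by
        rw [show ((1 : V) + ⟨_, h3⟩) = ⟨_, hinv⟩ * ⟨_, hV⟩ from Subtype.ext (by
            simp only [AddMemClass.coe_add, OneMemClass.coe_one, MulMemClass.coe_mul, map_mul,
              map_inv₀, map_add]
            field_simp
            ring),
          map_mul, hw, zero_mul]
      rw [map_add, map_one, hσy, ← map_one i, ← map_add, map_eq_zero] at h4
      exact one_ne_zero (IsFormallyReal.eq_zero_of_add_right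
        (by simpa using IsSumSq.mul_self (1 : κ₀)) hσ h4)
    have hs2 : φ (s + S₂) ∈ V := by
      rw [show φ (s + S₂) = φ (a * a + s + S₂) - φ a * φ a by simp only [map_add, map_mul]; ring]
      exact sub_mem hV (mul_mem ha ha)
    rw [map_add, map_mul]
    exact add_mem (mul_mem ha ha) (ih S₂ h₂ hs2)

end Val

/-! ### Adjoining square roots of sums of squares -/

lemma isSumSq_map {R S : Type*} [Semiring R] [Semiring S] (g : R →+* S) {x : R} (h : IsSumSq x) :
    IsSumSq (g x) := by
  induction h with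
  | zero => rw [map_zero]; exact IsSumSq.zero
  | sq_add a hs ih => rw [map_add, map_mul]; exact ih.sq_add (g a)

/-- `Good` passes along isomorphisms. -/
lemma good_equiv (hodd : GoodOdd) {n : ℕ} {K K' : Type} [Field K] [Field K'] (g : K →+* K')
    (hg : Function.Surjective g) (t : Fin n → K) (hG : Good n K t) :
    Good n K' fun b => g (t b) := by
  letI : Algebra K K' := g.toAlgebra
  let e : K ≃ₗ[K] K' :=
    LinearEquiv.ofBijective (Algebra.linearMap K K') ⟨g.injective, hg⟩
  have h1 : Module.finrank K K' = 1 := e.finrank_eq.symm.trans (Module.finrank_self K)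
  exact hodd n K inferInstance K' inferInstance inferInstance t e.finiteDimensional
    (h1 ▸ odd_one) hG

/-- One square root of a sum of squares. -/
lemma good_step (hsqrt : GoodSqrt) {n : ℕ} {F L : Type} [Field F] [Field L] [Algebra F L]
    (k : IntermediateField F L) (t : Fin n → F) (hk : Good n k fun b => algebraMap F k (t b))
    (x : L) (σ : k) (hσ : IsSumSq σ) (hx : x ^ 2 = (σ : L)) :
    ∃ k' : IntermediateField F L, Good n k' (fun b => algebraMap F k' (t b)) ∧ k ≤ k' ∧ x ∈ k' := by
  have hint : IsIntegral k x := by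
    refine IsIntegral.of_pow (n := 2) two_pos ?_
    rw [hx]
    exact isIntegral_algebraMap (x := σ)
  let E : IntermediateField k L := IntermediateField.adjoin k ({x} : Set L)
  let rr : E := ⟨x, IntermediateField.mem_adjoin_simple_self k x⟩
  have hr2 : rr ^ 2 = algebraMap k E σ := Subtype.ext hx
  have htop : Algebra.adjoin k ({rr} : Set E) = ⊤ := by
    have h1 := (IntermediateField.adjoin.powerBasis hint).adjoin_gen_eq_top
    rwa [IntermediateField.adjoin.powerBasis_gen] at h1
  have hE : Good n E fun b => algebraMap k E (algebraMap F k (t b)) :=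
    hsqrt n k inferInstance E inferInstance inferInstance
      (fun b => algebraMap F k (t b)) rr σ hσ hr2 htop hk
  exact ⟨E.restrictScalars F, hE, fun y hy => IntermediateField.algebraMap_mem E (⟨y, hy⟩ : k),
    IntermediateField.mem_adjoin_simple_self k x⟩

/-- The residue data of a finite family with squares that are sums of squares. -/
lemma good_adjoin (hodd : GoodOdd) (hsqrt : GoodSqrt) {n : ℕ} {F L κ₀ : Type} [Field F] [Field L]
    [Field κ₀] [Algebra F L] [Algebra F κ₀] (i : κ₀ →ₐ[F] L) (t : Fin n → F)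
    (hG : Good n κ₀ fun b => algebraMap F κ₀ (t b))
    {ι : Type} (x : ι → L) (hx : ∀ j, ∃ σ, IsSumSq σ ∧ x j ^ 2 = i σ) (s : Finset ι) :
    ∃ k : IntermediateField F L, Good n k (fun b => algebraMap F k (t b)) ∧
      i.fieldRange ≤ k ∧ ∀ j ∈ s, x j ∈ k := by
  induction s using Finset.induction_on with
  | empty =>
    refine ⟨i.fieldRange, ?_, le_rfl, by simp⟩
    let g : κ₀ →+* i.fieldRange :=
      i.toRingHom.codRestrict i.fieldRange fun y => ⟨y, rfl⟩
    have := good_equiv hodd g (fun ⟨y, z, hz⟩ => ⟨z, Subtype.ext hz⟩) _ hG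
    convert this using 2 with b
    exact Subtype.ext (i.commutes (t b)).symm
  | @insert j s hj ih =>
    obtain ⟨k, hk, hik, hmem⟩ := ih
    obtain ⟨σ, hσ, hσx⟩ := hx j
    let g : κ₀ →+* k := i.toRingHom.codRestrict k fun y => hik ⟨y, rfl⟩
    obtain ⟨k', hk', hle, hx'⟩ := good_step hsqrt k t hk (x j) (g σ) (isSumSq_map g hσ) hσx
    refine ⟨k', hk', hik.trans hle, fun l hl => ?_⟩
    rcases Finset.mem_insert.1 hl with rfl | hl
    · exact hx'
    · exact hle (hmem l hl)

end Par

end

end Vale.Agent.P199.Cex
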