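import Vale.Agent.P199.Cex.ParityLemmas

/-!
P199, counterexample: primes of Dedekind domains for the parity step. The residue point at a
prime with a good residue field, the branch in the power series, and the Jacobian.
-/

open scoped Classical

namespace Vale.Agent.P199.Cex

noncomputable section

namespace Par

open IsDedekindDomain

open scoped RatFunc

/-! ### The valuation ring at a prime -/

section Prime

variable {B M : Type} [CommRing B] [IsDedekindDomain B] [Field M] [Algebra B M]
  [IsFractionRing B M] (Q : HeightOneSpectrum B)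

/-- The valuation ring at a prime. -/
def VR : ValuationSubring M := (Q.valuation M).valuationSubring

variable {Q}

lemma algebraMap_mem_VR (b : B) : algebraMap B M b ∈ VR (M := M) Q :=
  Q.valuation_le_one b

variable (Q) in
/-- The inclusion in the valuation ring. -/
def toVR : B →+* VR (M := M) Q :=
  (algebraMap B M).codRestrict _ fun b => algebraMap_mem_VR b

variable (Q) in
/-- Reduction at a prime. -/
def resB : B →+* IsLocalRing.ResidueField (VR (M := M) Q) :=
  (IsLocalRing.residue _).comp (toVR Q)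

lemma resB_eq_zero_iff (b : B) : resB (M := M) Q b = 0 ↔ b ∈ Q.asIdeal := by
  have key : IsUnit (toVR (M := M) Q b) ↔ b ∉ Q.asIdeal := by
    rw [← Q.valuation_eq_one_iff_notMem (K := M)]
    constructor
    · rintro ⟨u, hu⟩
      refine le_antisymm (Q.valuation_le_one b) ?_
      have h1 : algebraMap B M b * ((↑u⁻¹ : VR (M := M) Q) : M) = 1 := by
        rw [show algebraMap B M b = ((u : VR (M := M) Q) : M) by rw [hu]; rfl,
          ← MulMemClass.coe_mul, Units.mul_inv, OneMemClass.coe_one]
      calc (1 : _) = Q.valuation M (algebraMap B M b) *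
            Q.valuation M ((↑u⁻¹ : VR (M := M) Q) : M) := by rw [← map_mul, h1, map_one]
        _ ≤ Q.valuation M (algebraMap B M b) * 1 :=
            mul_le_mul_right (show ((↑u⁻¹ : VR (M := M) Q) : M) ∈ VR Q from SetLike.coe_mem _) _
        _ = _ := mul_one _
    · intro h
      have h0 : algebraMap B M b ≠ 0 := fun h0 => by simp [h0] at h
      refine IsUnit.of_mul_eq_one (⟨(algebraMap B M b)⁻¹, ?_⟩ : VR (M := M) Q)
        (Subtype.ext (mul_inv_cancel₀ h0))
      show Q.valuation M (algebraMap B M b)⁻¹ ≤ 1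
      rw [map_inv₀, h, inv_one]
  rw [resB, RingHom.comp_apply, IsLocalRing.residue_eq_zero_iff, IsLocalRing.mem_maximalIdeal,
    mem_nonunits_iff, key, not_not]

lemma mem_VR_of_frac {x : M} {a d : B} (hd : d ∉ Q.asIdeal)
    (h : x * algebraMap B M d = algebraMap B M a) : x ∈ VR (M := M) Q := by
  show Q.valuation M x ≤ 1
  have := congrArg (Q.valuation M) h
  rw [map_mul, Q.valuation_eq_one_iff_notMem.2 hd, mul_one] at this
  rw [this]
  exact Q.valuation_le_one a

lemma resB_frac {x : M} (hx : x ∈ VR (M := M) Q) {a d : B}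
    (h : x * algebraMap B M d = algebraMap B M a) :
    IsLocalRing.residue (VR (M := M) Q) ⟨x, hx⟩ * resB Q d = resB Q a := by
  rw [resB, RingHom.comp_apply, RingHom.comp_apply, ← map_mul]
  exact congrArg _ (Subtype.ext h)

end Prime

/-- A maximal ideal below lifts along an injective hom between integral extensions. -/
lemma exists_over {A R S : Type} [CommRing A] [CommRing R] [CommRing S] [IsDomain S] [Algebra A R]
    [Algebra A S] [Algebra.IsIntegral A S] (β : R →ₐ[A] S) (hβ : Function.Injective β)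
    (P : Ideal R) [P.IsMaximal] : ∃ Q : Ideal S, Q.IsMaximal ∧ Q.comap β.toRingHom = P := by
  letI : Algebra R S := β.toRingHom.toAlgebra
  haveI : IsScalarTower A R S := IsScalarTower.of_algebraMap_eq fun a => (β.commutes a).symm
  haveI : Algebra.IsIntegral R S := Algebra.IsIntegral.tower_top A
  obtain ⟨Q, hQ, hQ'⟩ := Ideal.exists_ideal_over_maximal_of_isIntegral (S := S) P
    (by rw [show RingHom.ker (algebraMap R S) = ⊥ from
          (RingHom.injective_iff_ker_eq_bot _).1 hβ]; exact bot_le)
  exact ⟨Q, hQ, hQ'⟩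

/-! ### Squares of coordinates -/

lemma coord_sumSq {n : ℕ} {E M ι : Type} [Field E] [Field M] [Fintype ι] (φ : E →+* M)
    (ch : ι → Finset (Fin n)) (x : ι → M) (jb : Fin n → ι) (top : ι → Fin n)
    (htop : ∀ j, TopEq (top j) (ch j)) (hjb : ∀ b, top (jb b) = b)
    (Sj : ι → Finset (Fin n)) (hSj : ∀ j, ∀ c ∈ Sj j, c < top j) (hu : ∀ b, x (jb b) ≠ 0)
    (hg : ∀ j, ∃ g, φ g = x j * (x (jb (top j)) * ∏ c ∈ Sj j, x (jb c)))
    (hu2 : ∀ b, ∃ g, φ g = x (jb b) ^ 2)
    (hsph : ∀ b : Fin n, ∑ j ∈ Finset.univ.filter (fun j => TopEq b (ch j)), x j ^ 2 = 1) :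
    ∀ j, ∃ S, IsSumSq S ∧ φ S = x j ^ 2 := by
  choose g hg using hg
  choose w hw using hu2
  have hinv : ∀ j (σ : Fin n → E), (∀ c ∈ Sj j, IsSumSq (σ c) ∧ φ (σ c) = x (jb c) ^ 2) →
      ∃ T, IsSumSq T ∧ φ T * x (jb (top j)) ^ 2 = x j ^ 2 := by
    intro j σ hσ
    refine ⟨g j / w (top j) * (g j / w (top j)) * (∏ c ∈ Sj j, σ c)⁻¹,
      IsSumSq.mul (IsSumSq.mul_self _) (isSumSq_inv (IsSumSq.prod fun c hc => (hσ c hc).1)), ?_⟩
    rw [map_mul, map_mul, map_div₀, hg, hw, map_inv₀, map_prod,
      Finset.prod_congr rfl fun c hc => (hσ c hc).2, Finset.prod_pow]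
    have hp : ∏ c ∈ Sj j, x (jb c) ≠ 0 := Finset.prod_ne_zero_iff.2 fun c _ => hu (c)
    have hb := hu (top j)
    field_simp
  have hmain : ∀ m : ℕ, ∀ b : Fin n, b.val < m → ∃ S, IsSumSq S ∧ φ S = x (jb b) ^ 2 := by
    intro m
    induction m with
    | zero => intro b hb; omega
    | succ m ih =>
      intro b hb
      have hσ : ∀ c : Fin n, ∃ S, c < b → IsSumSq S ∧ φ S = x (jb c) ^ 2 := by
        intro c
        by_cases hc : c < b
        · obtain ⟨S, hS⟩ := ih c (by have := Fin.lt_def.1 hc; omega)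
          exact ⟨S, fun _ => hS⟩
        · exact ⟨0, fun h => absurd h hc⟩
      choose σ hσ using hσ
      have hT : ∀ j, ∃ T, TopEq b (ch j) → IsSumSq T ∧ φ T * x (jb b) ^ 2 = x j ^ 2 := by
        intro j
        by_cases hj : TopEq b (ch j)
        · have e : top j = b := le_antisymm (hj.2 _ (htop j).1) ((htop j).2 _ hj.1)
          obtain ⟨T, hT⟩ := hinv j σ fun c hc => hσ c (e ▸ hSj j c hc)
          exact ⟨T, fun _ => e ▸ hT⟩
        · exact ⟨0, fun h => absurd h hj⟩
      choose T hT using hT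
      set Z := ∑ j ∈ Finset.univ.filter (fun j => TopEq b (ch j)), T j with hZ
      have hZs : IsSumSq Z := IsSumSq.sum fun j hj => (hT j (Finset.mem_filter.1 hj).2).1
      have h1 : φ Z * x (jb b) ^ 2 = 1 := by
        rw [hZ, map_sum, Finset.sum_mul, ← hsph b]
        exact Finset.sum_congr rfl fun j hj => (hT j (Finset.mem_filter.1 hj).2).2
      refine ⟨Z⁻¹, isSumSq_inv hZs, ?_⟩
      rw [map_inv₀, inv_eq_of_mul_eq_one_right h1]
  intro j
  have hσ : ∀ c : Fin n, ∃ S, IsSumSq S ∧ φ S = x (jb c) ^ 2 := fun c => hmain n c c.2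
  choose σ hσ using hσ
  obtain ⟨T, hT, hTj⟩ := hinv j σ fun c _ => hσ c
  exact ⟨T * σ (top j), IsSumSq.mul hT (hσ _).1, by rw [map_mul, (hσ _).2, hTj]⟩

/-! ### The residue point -/

/-- The residue point at a prime over `X - c` with good residue field. -/
lemma residue_point (hodd : GoodOdd) (hsqrt : GoodSqrt) (hex : GoodExists)
    {n : ℕ} {F : Type} [Field F] (t : Fin n → F) {ι κ : Type} [Fintype ι]
    (f : κ → MvPolynomial ι (Polynomial F)) (ch : ι → Finset (Fin n))
    (hne : ∀ j, (ch j).Nonempty)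
    {B₀ E₀ B M : Type} [CommRing B₀] [IsDedekindDomain B₀] [Field E₀] [Algebra B₀ E₀]
    [IsFractionRing B₀ E₀] [CommRing B] [IsDedekindDomain B] [Field M] [Algebra B M]
    [IsFractionRing B M] (β : B₀ →+* B) (φ₀ : E₀ →+* M)
    (hβ : ∀ b, φ₀ (algebraMap B₀ E₀ b) = algebraMap B M (β b))
    (ψ₀ : Polynomial F →+* B₀) (Q : HeightOneSpectrum B) (q : HeightOneSpectrum B₀)
    (hq : q.asIdeal = Q.asIdeal.comap β) (c : F)
    (hc : ψ₀ (Polynomial.X - Polynomial.C c) ∈ q.asIdeal)
    (hgood : @Good n (B₀ ⧸ q.asIdeal) (Ideal.Quotient.field q.asIdeal) fun b =>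
      Ideal.Quotient.mk q.asIdeal (ψ₀ (Polynomial.C (t b))))
    (x : ι → M) (hsos : ∀ j, ∃ S, IsSumSq S ∧ φ₀ S = x j ^ 2)
    (hsph : ∀ b : Fin n, ∑ j ∈ Finset.univ.filter (fun j => TopEq b (ch j)), x j ^ 2 = 1)
    (hz : IsZeroAt f ((algebraMap B M).comp (β.comp ψ₀)) x) :
    ∃ (hx : ∀ j, x j ∈ VR (M := M) Q) (k : Type) (_ : Field k) (_ : Algebra F k)
      (ν : k →+* IsLocalRing.ResidueField (VR (M := M) Q)) (y : ι → k),
      (∀ s, ν (algebraMap F k s) = resB Q (β (ψ₀ (Polynomial.C s)))) ∧
      (∀ j, ν (y j) = IsLocalRing.residue _ ⟨x j, hx j⟩) ∧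
      Good n k (fun b => algebraMap F k (t b)) ∧
      IsZeroAt f (Polynomial.eval₂RingHom (algebraMap F k) (algebraMap F k c)) y := by
  letI : Field (B₀ ⧸ q.asIdeal) := Ideal.Quotient.field q.asIdeal
  haveI hfr : IsFormallyReal (B₀ ⧸ q.asIdeal) := (hex.1 n _ _ _ hgood).1
  let i : B₀ ⧸ q.asIdeal →+* IsLocalRing.ResidueField (VR (M := M) Q) :=
    Ideal.Quotient.lift q.asIdeal ((resB (M := M) Q).comp β) fun b hb => by
      rw [hq, Ideal.mem_comap] at hb
      exact (RingHom.comp_apply _ _ _).trans ((resB_eq_zero_iff (M := M) (Q := Q) (β b)).2 hb)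
  have hi : ∀ b, i (Ideal.Quotient.mk q.asIdeal b) = resB (M := M) Q (β b) := fun b =>
    Ideal.Quotient.lift_mk _ _ _
  have hres : ResIn φ₀ (VR (M := M) Q) i := by
    intro g hg
    have hfrac : ∃ a d : B₀, d ∉ q.asIdeal ∧ g * algebraMap B₀ E₀ d = algebraMap B₀ E₀ a := by
      obtain ⟨a, d, h | h⟩ := q.exists_primeCompl_mul_eq_or_mul_eq g
      · exact ⟨a, d, d.2, h⟩
      · refine ⟨d, a, fun ha => d.2 ?_, h⟩
        have hd : algebraMap B M (β d) = φ₀ g * algebraMap B M (β a) := by
          rw [← hβ, ← hβ, ← map_mul, h]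
        have h1 := resB_frac (Q := Q) hg hd.symm
        rw [(resB_eq_zero_iff (M := M) _).2 (show β a ∈ Q.asIdeal from (hq ▸ ha : a ∈ _)),
          mul_zero] at h1
        rw [SetLike.mem_coe]
        exact hq.ge (show β d ∈ Q.asIdeal from (resB_eq_zero_iff (M := M) _).1 h1.symm)
    obtain ⟨a, d, hd, h⟩ := hfrac
    have h1 := resB_frac (Q := Q) hg (a := β a) (d := β d) (by rw [← hβ, ← hβ, ← map_mul, h])
    refine ⟨Ideal.Quotient.mk _ a / Ideal.Quotient.mk _ d, ?_⟩
    rw [map_div₀, hi, hi, eq_div_iff, h1]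
    exact fun h0 => hd (hq ▸ (resB_eq_zero_iff _).1 h0)
  choose S hS hSx using hsos
  -- integrality
  have hmem : ∀ j, φ₀ (S j) ∈ VR (M := M) Q := by
    intro j
    obtain ⟨b, hb⟩ := exists_top (hne j)
    have hj : j ∈ Finset.univ.filter (fun j => TopEq b (ch j)) := by simpa using hb
    have h1 : φ₀ (S j + ∑ l ∈ (Finset.univ.filter (fun j => TopEq b (ch j))).erase j, S l) = 1 := by
      rw [Finset.add_sum_erase _ _ hj, map_sum, ← hsph b]
      exact Finset.sum_congr rfl fun l _ => hSx l
    exact sumSq_left hres (hS j) _ (IsSumSq.sum fun l _ => hS l) (h1 ▸ one_mem _)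
  have hx : ∀ j, x j ∈ VR (M := M) Q := fun j => mem_of_sq_mem _ (hSx j ▸ hmem j)
  set xr : ι → IsLocalRing.ResidueField (VR (M := M) Q) := fun j =>
    IsLocalRing.residue _ ⟨x j, hx j⟩ with hxr
  have hxs : ∀ j, ∃ σ, IsSumSq σ ∧ xr j ^ 2 = i σ := by
    intro j
    obtain ⟨σ, hσ, hσe⟩ := sumSq_spec hres (hS j) 1 (by simpa using hmem j)
    refine ⟨σ, hσ, ?_⟩
    rw [hxr, ← map_pow, ← hσe]
    exact congrArg _ (Subtype.ext (by simp [hSx j]))
  letI : Algebra F (B₀ ⧸ q.asIdeal) :=
    (((Ideal.Quotient.mk q.asIdeal).comp ψ₀).comp Polynomial.C).toAlgebra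
  letI : Algebra F (IsLocalRing.ResidueField (VR (M := M) Q)) :=
    (((resB Q).comp (β.comp ψ₀)).comp Polynomial.C).toAlgebra
  let iA : B₀ ⧸ q.asIdeal →ₐ[F] IsLocalRing.ResidueField (VR (M := M) Q) :=
    { i with commutes' := fun s => rfl }
  obtain ⟨k, hk, -, hkmem⟩ := good_adjoin hodd hsqrt iA t hgood xr hxs Finset.univ
  refine ⟨hx, k, inferInstance, inferInstance, k.val.toRingHom,
    fun j => ⟨xr j, hkmem j (Finset.mem_univ j)⟩, fun s => rfl, fun j => rfl, hk, ?_⟩
  refine isZeroAt_of_map k.val.toRingHom k.val.toRingHom.injective ?_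
  -- the zero in the valuation ring
  let ψV : Polynomial F →+* VR (M := M) Q := (toVR Q).comp (β.comp ψ₀)
  have hzV : IsZeroAt f ψV fun j => (⟨x j, hx j⟩ : VR (M := M) Q) :=
    isZeroAt_of_map (VR (M := M) Q).subtype Subtype.val_injective hz
  have h := isZeroAt_map (IsLocalRing.residue (VR (M := M) Q)) hzV
  have hX : resB (M := M) Q (β (ψ₀ Polynomial.X)) = resB Q (β (ψ₀ (Polynomial.C c))) := by
    have h0 : resB (M := M) Q (β (ψ₀ (Polynomial.X - Polynomial.C c))) = 0 :=
      (resB_eq_zero_iff _).2 (show _ ∈ Q.asIdeal.comap β from hq ▸ hc)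
    rwa [map_sub, map_sub, map_sub, sub_eq_zero] at h0
  have hφ : (IsLocalRing.residue (VR (M := M) Q)).comp ψV =
      k.val.toRingHom.comp (Polynomial.eval₂RingHom (algebraMap F k) (algebraMap F k c)) := by
    refine Polynomial.ringHom_ext (fun s => ?_) ?_
    · simp only [RingHom.comp_apply, Polynomial.coe_eval₂RingHom, Polynomial.eval₂_C]
      rfl
    · simp only [RingHom.comp_apply, Polynomial.coe_eval₂RingHom, Polynomial.eval₂_X]
      exact hX
  rw [hφ] at h
  exact h

/-! ### The branch -/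

section Branch

variable {F : Type} [Field F]

instance : IsScalarTower (Polynomial F) (PowerSeries F) (LaurentSeries F) :=
  IsScalarTower.of_algebraMap_eq' <| Polynomial.ringHom_ext
    (fun a => by simp [PowerSeries.algebraMap_apply'])
    (by simp [PowerSeries.algebraMap_apply'])

lemma algebraMap_polynomial_powerSeries :
    algebraMap (Polynomial F) (PowerSeries F) =
      Polynomial.eval₂RingHom PowerSeries.C PowerSeries.X :=
  Polynomial.ringHom_ext (fun a => by simp [PowerSeries.algebraMap_apply'])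
    (by simp [PowerSeries.algebraMap_apply'])

lemma exists_powerSeries (x : LaurentSeries F) (hx : IsIntegral (Polynomial F) x) :
    ∃ y : PowerSeries F, algebraMap (PowerSeries F) (LaurentSeries F) y = x :=
  IsIntegrallyClosed.algebraMap_eq_of_integral (R := PowerSeries F) hx.tower_top

variable {E : Type} [Field E] [Algebra (Polynomial F) E] (j : E →ₐ[Polynomial F] LaurentSeries F)

lemma exists_expand (b : integralClosure (Polynomial F) E) :
    ∃ y : PowerSeries F, algebraMap (PowerSeries F) (LaurentSeries F) y = j b :=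
  exists_powerSeries _ (IsIntegral.map j b.2)

/-- The expansion of an integral element. -/
def expand : integralClosure (Polynomial F) E →+* PowerSeries F where
  toFun b := (exists_expand j b).choose
  map_one' := IsFractionRing.injective (PowerSeries F) (LaurentSeries F) <| by
    rw [(exists_expand j 1).choose_spec, map_one, OneMemClass.coe_one, map_one]
  map_mul' a b := IsFractionRing.injective (PowerSeries F) (LaurentSeries F) <| by
    rw [map_mul, (exists_expand j _).choose_spec, (exists_expand j a).choose_spec,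
      (exists_expand j b).choose_spec, MulMemClass.coe_mul, map_mul]
  map_zero' := IsFractionRing.injective (PowerSeries F) (LaurentSeries F) <| by
    rw [(exists_expand j 0).choose_spec, map_zero, ZeroMemClass.coe_zero, map_zero]
  map_add' a b := IsFractionRing.injective (PowerSeries F) (LaurentSeries F) <| by
    rw [map_add, (exists_expand j _).choose_spec, (exists_expand j a).choose_spec,
      (exists_expand j b).choose_spec, AddMemClass.coe_add, map_add]

lemma algebraMap_expand (b : integralClosure (Polynomial F) E) :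
    algebraMap (PowerSeries F) (LaurentSeries F) (expand j b) = j b :=
  (exists_expand j b).choose_spec

lemma expand_algebraMap (p : Polynomial F) :
    expand j (algebraMap _ _ p) = Polynomial.eval₂RingHom PowerSeries.C PowerSeries.X p := by
  refine IsFractionRing.injective (PowerSeries F) (LaurentSeries F) ?_
  rw [algebraMap_expand, ← algebraMap_polynomial_powerSeries,
    ← IsScalarTower.algebraMap_apply (Polynomial F) (PowerSeries F) (LaurentSeries F)]
  exact j.commutes p

/-- The value at the origin. -/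
def cst : integralClosure (Polynomial F) E →+* F :=
  (PowerSeries.constantCoeff).comp (expand j)

lemma cst_algebraMap (p : Polynomial F) : cst j (algebraMap _ _ p) = p.eval 0 := by
  rw [cst, RingHom.comp_apply, expand_algebraMap]
  change ((PowerSeries.constantCoeff).comp (Polynomial.eval₂RingHom PowerSeries.C PowerSeries.X)) p
    = Polynomial.evalRingHom 0 p
  congr 1
  exact Polynomial.ringHom_ext (by simp) (by simp)

lemma cst_surjective : Function.Surjective (cst j) := fun a =>
  ⟨algebraMap _ _ (Polynomial.C a), by rw [cst_algebraMap, Polynomial.eval_C]⟩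

lemma ker_cst_isMaximal : (RingHom.ker (cst j)).IsMaximal :=
  RingHom.ker_isMaximal_of_surjective _ (cst_surjective j)

lemma X_notMem_sq :
    algebraMap (Polynomial F) (integralClosure (Polynomial F) E) Polynomial.X ∉
      RingHom.ker (cst j) ^ 2 := by
  intro h
  have h2 := Ideal.mem_map_of_mem (expand j) h
  rw [Ideal.map_pow, expand_algebraMap] at h2
  have hle : Ideal.map (expand j) (RingHom.ker (cst j)) ≤ Ideal.span {(PowerSeries.X : PowerSeries F)} :=
    Ideal.map_le_iff_le_comap.2 fun b hb => by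
      rw [Ideal.mem_comap, Ideal.mem_span_singleton, PowerSeries.X_dvd_iff]
      exact hb
  have h3 := Ideal.pow_right_mono hle 2 h2
  rw [Ideal.span_singleton_pow, Ideal.mem_span_singleton, PowerSeries.X_pow_dvd_iff] at h3
  have := h3 1 (by norm_num)
  simp at this

end Branch

end Par

end

end Vale.Agent.P199.Cex
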